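import Vale.Agent.P180.R2.H799.BN3

/-!
P180, F3 leaf C2 (helper19): the relation `T² = a T + b E E'` for the cuspidal idempotents attached
to two orthogonal isotropic subspaces, from an embedded general linear group `GL(A × A)`. Part 1: the
elements of `GL(A × A)` and the cuspidal idempotent.
-/

set_option linter.all false

namespace Vale.Agent.P180.H19.Atwo

open Vale.Agent.P180 Vale.Agent.P180.R2.H799 Vale.Agent.P180.R2.H799.BN

section Lin

variable {F A : Type} [Field F] [AddCommGroup A] [Module F A]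

/-- the first diagonal embedding -/
def D1 : (A ≃ₗ[F] A) →* ((A × A) ≃ₗ[F] (A × A)) where
  toFun g := LinearEquiv.prodCongr g (LinearEquiv.refl F A)
  map_one' := by
    apply LinearEquiv.ext
    intro v
    rfl
  map_mul' g h := by
    apply LinearEquiv.ext
    intro v
    rfl

/-- the second diagonal embedding -/
def D2 : (A ≃ₗ[F] A) →* ((A × A) ≃ₗ[F] (A × A)) where
  toFun g := LinearEquiv.prodCongr (LinearEquiv.refl F A) g
  map_one' := by
    apply LinearEquiv.ext
    intro v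
    rfl
  map_mul' g h := by
    apply LinearEquiv.ext
    intro v
    rfl

theorem D1_apply (g : A ≃ₗ[F] A) (v : A × A) : D1 g v = (g v.1, v.2) := rfl

theorem D2_apply (g : A ≃ₗ[F] A) (v : A × A) : D2 g v = (v.1, g v.2) := rfl

/-- the upper unipotent elements -/
def up (x : A →ₗ[F] A) : (A × A) ≃ₗ[F] (A × A) where
  toFun v := (v.1 + x v.2, v.2)
  invFun v := (v.1 - x v.2, v.2)
  map_add' u v := by
    refine Prod.ext ?_ rfl
    change u.1 + v.1 + x (u.2 + v.2) = u.1 + x u.2 + (v.1 + x v.2)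
    rw [map_add]; abel
  map_smul' c v := by
    refine Prod.ext ?_ rfl
    change c • v.1 + x (c • v.2) = c • (v.1 + x v.2)
    rw [map_smul, smul_add]
  left_inv v := Prod.ext (add_sub_cancel_right _ _) rfl
  right_inv v := Prod.ext (sub_add_cancel _ _) rfl

/-- the lower unipotent elements -/
def lo (y : A →ₗ[F] A) : (A × A) ≃ₗ[F] (A × A) where
  toFun v := (v.1, v.2 + y v.1)
  invFun v := (v.1, v.2 - y v.1)
  map_add' u v := by
    refine Prod.ext rfl ?_
    change u.2 + v.2 + y (u.1 + v.1) = u.2 + y u.1 + (v.2 + y v.1)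
    rw [map_add]; abel
  map_smul' c v := by
    refine Prod.ext rfl ?_
    change c • v.2 + y (c • v.1) = c • (v.2 + y v.1)
    rw [map_smul, smul_add]
  left_inv v := Prod.ext rfl (add_sub_cancel_right _ _)
  right_inv v := Prod.ext rfl (sub_add_cancel _ _)

theorem up_apply (x : A →ₗ[F] A) (v : A × A) : up x v = (v.1 + x v.2, v.2) := rfl

theorem lo_apply (y : A →ₗ[F] A) (v : A × A) : lo y v = (v.1, v.2 + y v.1) := rfl

theorem lo_zero : lo (0 : A →ₗ[F] A) = 1 := by
  apply LinearEquiv.ext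
  intro v
  rw [lo_apply]
  refine Prod.ext rfl ?_
  change v.2 + 0 = v.2
  rw [add_zero]

/-- the interchange -/
def sw : (A × A) ≃ₗ[F] (A × A) := LinearEquiv.prodComm F A A

theorem sw_apply (v : A × A) : (sw (F := F) : (A × A) ≃ₗ[F] (A × A)) v = (v.2, v.1) := rfl

theorem sw_mul_sw : (sw : (A × A) ≃ₗ[F] (A × A)) * sw = 1 := by
  apply LinearEquiv.ext
  intro v
  rfl

theorem D1_mul_sw (g : A ≃ₗ[F] A) : D1 g * sw = sw * D2 g := by
  apply LinearEquiv.ext
  intro v
  rfl

theorem D2_mul_sw (g : A ≃ₗ[F] A) : D2 g * sw = sw * D1 g := by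
  apply LinearEquiv.ext
  intro v
  rfl

theorem D1_mul_D2 (g h : A ≃ₗ[F] A) : D1 g * D2 h = D2 h * D1 g := by
  apply LinearEquiv.ext
  intro v
  rfl

/-- `1 + n` for `n² = 0` -/
def un (n : A →ₗ[F] A) (hn : ∀ v, n (n v) = 0) : A ≃ₗ[F] A where
  toFun v := v + n v
  invFun v := v - n v
  map_add' u v := by rw [map_add]; abel
  map_smul' c v := by rw [map_smul, RingHom.id_apply, smul_add]
  left_inv v := by
    change v + n v - n (v + n v) = v
    rw [map_add, hn, add_zero, add_sub_cancel_right]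
  right_inv v := by
    change v - n v + n (v - n v) = v
    rw [map_sub, hn, sub_zero, sub_add_cancel]

theorem un_apply (n : A →ₗ[F] A) (hn : ∀ v, n (n v) = 0) (v : A) : un n hn v = v + n v := rfl

theorem nn {x y : A →ₗ[F] A} (h : ∀ v, y (x v) = 0) : ∀ v, (-(x ∘ₗ y)) ((-(x ∘ₗ y)) v) = 0 := by
  intro v
  change -(x (y (-(x (y v))))) = 0
  rw [map_neg, h, neg_zero, map_zero, neg_zero]

/-- **(R1)** -/
theorem lo_mul_up {x y : A →ₗ[F] A} (h : ∀ v, y (x v) = 0) :
    lo y * up x = D1 (un (-(x ∘ₗ y)) (nn h)) * up x * lo y := by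
  apply LinearEquiv.ext
  intro v
  change lo y (up x v) = D1 _ (up x (lo y v))
  rw [up_apply, lo_apply, lo_apply, up_apply, D1_apply, un_apply]
  refine Prod.ext ?_ ?_
  · change v.1 + x v.2 = v.1 + x (v.2 + y v.1) + -(x (y (v.1 + x (v.2 + y v.1))))
    rw [map_add y, h, add_zero, map_add x]
    abel
  · change v.2 + y (v.1 + x v.2) = v.2 + y v.1
    rw [map_add, h, add_zero]

/-- **(R2)** -/
theorem lo_eq (y : A ≃ₗ[F] A) :
    lo (y : A →ₗ[F] A) = up ((y⁻¹ : A ≃ₗ[F] A) : A →ₗ[F] A) * sw * D2 (LinearEquiv.neg F) *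
      D1 y * D2 y⁻¹ * up ((y⁻¹ : A ≃ₗ[F] A) : A →ₗ[F] A) := by
  apply LinearEquiv.ext
  intro v
  have h1 : ∀ w, y (y⁻¹ w) = w := fun w => y.apply_symm_apply w
  have h2 : ∀ w, y⁻¹ (y w) = w := fun w => y.symm_apply_apply w
  change lo (y : A →ₗ[F] A) v = up _ (sw (D2 (LinearEquiv.neg F) (D1 y (D2 y⁻¹ (up _ v)))))
  rw [up_apply, D2_apply, D1_apply, D2_apply, sw_apply, up_apply, lo_apply]
  refine Prod.ext ?_ ?_
  · change v.1 = -(y⁻¹ v.2) + y⁻¹ (y (v.1 + y⁻¹ v.2))
    rw [h2]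
    abel
  · change v.2 + y v.1 = y (v.1 + y⁻¹ v.2)
    rw [map_add, h1, add_comm]

/-- the radical of the stabiliser of a subspace -/
def Rad (A1 : Submodule F A) : Subgroup (A ≃ₗ[F] A) where
  carrier := {g | (∀ v, g v - v ∈ A1) ∧ ∀ v ∈ A1, g v = v}
  one_mem' := ⟨fun v => by change v - v ∈ A1; rw [sub_self]; exact A1.zero_mem, fun v _ => rfl⟩
  mul_mem' := by
    rintro g h ⟨hg1, hg2⟩ ⟨hh1, hh2⟩
    refine ⟨fun v => ?_, fun v hv => ?_⟩
    · change g (h v) - v ∈ A1
      have : g (h v) - v = (g (h v) - h v) + (h v - v) := by abel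
      rw [this]
      exact A1.add_mem (hg1 _) (hh1 _)
    · change g (h v) = v
      rw [hh2 v hv, hg2 v hv]
  inv_mem' := by
    rintro g ⟨hg1, hg2⟩
    have h1 : ∀ w, g (g⁻¹ w) = w := fun w => g.apply_symm_apply w
    refine ⟨fun v => ?_, fun v hv => ?_⟩
    · have h2 := hg1 (g⁻¹ v)
      rw [h1] at h2
      rw [← neg_sub]
      exact A1.neg_mem h2
    · apply g.injective
      rw [h1, hg2 v hv]

theorem mem_Rad {A1 : Submodule F A} {g : A ≃ₗ[F] A} :
    g ∈ Rad A1 ↔ (∀ v, g v - v ∈ A1) ∧ ∀ v ∈ A1, g v = v := Iff.rfl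

/-- a generalised inverse -/
theorem exists_gen_inv (y : A →ₗ[F] A) : ∃ h : A →ₗ[F] A, ∀ v, y (h (y v)) = y v := by
  obtain ⟨g, hg⟩ := y.rangeRestrict.exists_rightInverse_of_surjective y.range_rangeRestrict
  obtain ⟨h, hh⟩ := LinearMap.exists_extend g
  refine ⟨h, fun v => ?_⟩
  have h1 : h (y v) = g ⟨y v, v, rfl⟩ := LinearMap.congr_fun hh ⟨y v, v, rfl⟩
  rw [h1]
  exact congrArg Subtype.val (LinearMap.congr_fun hg ⟨y v, v, rfl⟩)

end Lin

section Cusp

variable {F A : Type} [Field F] [AddCommGroup A] [Module F A] [Finite (A ≃ₗ[F] A)]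
  {k : Type*} [Field k]

/-- the sum over the `x` with `y x = 0` of `1 - x y` is killed by a cuspidal idempotent -/
theorem cusp_sum [CharZero k] {ε : MonoidAlgebra k (A ≃ₗ[F] A)}
    (hc : ∀ A1 : Submodule F A, A1 ≠ ⊥ → A1 ≠ ⊤ → ε * av k (Rad A1) = 0)
    {y : A →ₗ[F] A} (hy0 : y ≠ 0) (hyi : ¬ Function.Injective y)
    [Fintype {x : A →ₗ[F] A // ∀ v, y (x v) = 0}] :
    ε * ∑ x : {x : A →ₗ[F] A // ∀ v, y (x v) = 0},
      MonoidAlgebra.single (un (-(x.1 ∘ₗ y)) (nn x.2)) (1 : k) = 0 := by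
  set A1 : Submodule F A := LinearMap.ker y with hA1
  have h1 : A1 ≠ ⊥ := by
    intro h
    exact hyi (LinearMap.ker_eq_bot.mp h)
  have h2 : A1 ≠ ⊤ := by
    intro h
    exact hy0 (LinearMap.ker_eq_top.mp h)
  have hcard : ((Nat.card (Rad A1) : ℕ) : k) ≠ 0 := by
    have : Nat.card (Rad A1) ≠ 0 := Nat.card_pos.ne'
    exact_mod_cast this
  set S := ∑ x : {x : A →ₗ[F] A // ∀ v, y (x v) = 0},
      MonoidAlgebra.single (un (-(x.1 ∘ₗ y)) (nn x.2)) (1 : k) with hS
  have key : av k (Rad A1) * S = S := by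
    refine av_mul_of_fix hcard fun r hr => ?_
    rw [hS, Finset.mul_sum]
    obtain ⟨h, hh⟩ := exists_gen_inv y
    let x' : A →ₗ[F] A := ((r : A →ₗ[F] A) - LinearMap.id) ∘ₗ h
    have hx'a : ∀ v, x' v = r (h v) - h v := fun v => rfl
    have hx' : ∀ v, y (x' v) = 0 := by
      intro v
      rw [hx'a]
      exact hr.1 (h v)
    have hx'y : ∀ v, x' (y v) = r v - v := by
      intro v
      rw [hx'a]
      have h3 : h (y v) - v ∈ A1 := by
        rw [hA1, LinearMap.mem_ker, map_sub, hh, sub_self]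
      have h4 := hr.2 _ h3
      rw [map_sub] at h4
      have h5 : r (h (y v)) = h (y v) - v + r v := by
        rw [← h4]; abel
      rw [h5]; abel
    let e : {x : A →ₗ[F] A // ∀ v, y (x v) = 0} ≃ {x : A →ₗ[F] A // ∀ v, y (x v) = 0} :=
      { toFun := fun x => ⟨x.1 - x', fun v => by
          change y (x.1 v - x' v) = 0
          rw [map_sub, x.2, hx', sub_self]⟩
        invFun := fun x => ⟨x.1 + x', fun v => by
          change y (x.1 v + x' v) = 0
          rw [map_add, x.2, hx', add_zero]⟩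
        left_inv := fun x => Subtype.ext (sub_add_cancel _ _)
        right_inv := fun x => Subtype.ext (add_sub_cancel_right _ _) }
    refine Fintype.sum_equiv e _ _ fun x => ?_
    rw [MonoidAlgebra.single_mul_single, one_mul]
    congr 1
    apply LinearEquiv.ext
    intro v
    change r (v + -(x.1 (y v))) = v + -((x.1 - x') (y v))
    have h3 : x.1 (y v) ∈ A1 := by
      rw [hA1, LinearMap.mem_ker]
      exact x.2 (y v)
    rw [map_add, map_neg, hr.2 _ h3]
    change r v + -(x.1 (y v)) = v + -(x.1 (y v) - x' (y v))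
    rw [hx'y]
    abel
  rw [← key, ← mul_assoc, hc A1 h1 h2, zero_mul]

end Cusp

end Vale.Agent.P180.H19.Atwo
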