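import Vale.Agent.P180.H19.AtwoA

/-!
P180, F3 leaf C2 (helper19), part 2: the relation `E (s E s) E = a T + b E E'`, `T = E s E`.
-/

set_option linter.all false

namespace Vale.Agent.P180.H19.Atwo

open Vale.Agent.P180 Vale.Agent.P180.R2.H799 Vale.Agent.P180.R2.H799.BN

universe u

/-- A cuspidal primitive idempotent of the group algebra of a general linear group; `c` is the
Schur constant, `w` the value of the central character at `-1`. -/
structure Eps {F A : Type} [Field F] [AddCommGroup A] [Module F A] [Finite (A ≃ₗ[F] A)]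
    [Fintype (A ≃ₗ[F] A)] {k : Type u} [Field k]
    (ε : MonoidAlgebra k (A ≃ₗ[F] A)) (φ : MonoidAlgebra k (A ≃ₗ[F] A) → k) (c w : k) : Prop where
  idem : ε * ε = ε
  prim : ∀ z, ε * z * ε = φ z • ε
  schur : ∑ y : A ≃ₗ[F] A, φ (MonoidAlgebra.single y⁻¹ 1) • (MonoidAlgebra.single y 1 * ε) = c • ε
  neg : ε * MonoidAlgebra.single (LinearEquiv.neg F : A ≃ₗ[F] A) 1 = w • ε
  cusp : ∀ A1 : Submodule F A, A1 ≠ ⊥ → A1 ≠ ⊤ → ε * av k (Rad A1) = 0

section Alg

variable {k : Type u} [Field k] {G H : Type} [Group G] [Group H]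

/-- the map of the group algebras -/
noncomputable def mp (f : H →* G) : MonoidAlgebra k H →ₐ[k] MonoidAlgebra k G :=
  MonoidAlgebra.mapDomainAlgHom k k f

theorem mp_single (f : H →* G) (h : H) (r : k) :
    mp f (MonoidAlgebra.single h r) = MonoidAlgebra.single (f h) r :=
  MonoidAlgebra.mapDomain_single

theorem mp_rel {f f' : H →* G} {z : MonoidAlgebra k G}
    (h : ∀ g, MonoidAlgebra.single (f g) (1 : k) * z = z * MonoidAlgebra.single (f' g) 1)
    (x : MonoidAlgebra k H) : mp f x * z = z * mp f' x := by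
  induction x using MonoidAlgebra.induction_linear with
  | zero => rw [map_zero, map_zero, zero_mul, mul_zero]
  | add x y hx hy => rw [map_add, map_add, add_mul, mul_add, hx, hy]
  | single g r =>
    have h1 : MonoidAlgebra.single g r = r • MonoidAlgebra.single g (1 : k) := by
      rw [MonoidAlgebra.smul_single, smul_eq_mul, mul_one]
    rw [h1, map_smul, map_smul, mp_single, mp_single, smul_mul_assoc, mul_smul_comm, h]

theorem single_comm_av [Finite G] {U : Subgroup G} {g : G} (hg : g ∈ Nm U) :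
    MonoidAlgebra.single g (1 : k) * av k U = av k U * MonoidAlgebra.single g 1 := by
  rw [single_mul_av, conjS_eq_of_mem_Nm hg]

end Alg

section Main

variable {F A : Type} [Field F] [Finite F] [AddCommGroup A] [Module F A] [Finite A] [Nontrivial A]
  [Finite (A ≃ₗ[F] A)] [Fintype (A ≃ₗ[F] A)] [Fintype (A →ₗ[F] A)]
  {k : Type u} [Field k] [CharZero k] {G : Type} [Group G] [Finite G]
  (γ : ((A × A) ≃ₗ[F] (A × A)) →* G) {ε : MonoidAlgebra k (A ≃ₗ[F] A)}
  {φ : MonoidAlgebra k (A ≃ₗ[F] A) → k} {c w : k} {U : Subgroup G}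

/-- the idempotent `E` -/
noncomputable def EA (ε : MonoidAlgebra k (A ≃ₗ[F] A)) (U : Subgroup G) : MonoidAlgebra k G :=
  av k U * mp (γ.comp D1) ε

theorem cardU (U : Subgroup G) : ((Nat.card U : ℕ) : k) ≠ 0 := by
  have : Nat.card U ≠ 0 := Nat.card_pos.ne'
  exact_mod_cast this

include γ in
theorem i1_comm_i2 (x y : MonoidAlgebra k (A ≃ₗ[F] A)) :
    mp (γ.comp D1) x * mp (γ.comp D2) y = mp (γ.comp D2) y * mp (γ.comp D1) x := by
  refine mp_rel (fun g => ?_) x
  symm
  refine mp_rel (fun h => ?_) y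
  rw [MonoidAlgebra.single_mul_single, MonoidAlgebra.single_mul_single]
  congr 1
  change γ (D2 h) * γ (D1 g) = γ (D1 g) * γ (D2 h)
  rw [← map_mul, ← map_mul, D1_mul_D2]

/-- a lower unipotent element of intermediate rank is killed -/
theorem mid_eq_zero (hε : Eps ε φ c w) (hup : ∀ x, γ (up x) ∈ U) (h1 : ∀ g, γ (D1 g) ∈ Nm U)
    {y : A →ₗ[F] A} (hy0 : y ≠ 0) (hyi : ¬ Function.Injective y) :
    EA γ ε U * MonoidAlgebra.single (γ (lo y)) 1 * EA γ ε U = 0 := by
  classical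
  haveI hfa : Finite (A →ₗ[F] A) := inferInstance
  haveI : Fintype {x : A →ₗ[F] A // ∀ v, y (x v) = 0} := Fintype.ofFinite _
  set u := av k U with hu
  set i1 : MonoidAlgebra k (A ≃ₗ[F] A) →ₐ[k] MonoidAlgebra k G := mp (γ.comp D1) with hi1
  have hui : ∀ z, i1 z * u = u * i1 z := fun z => mp_rel (fun g => single_comm_av (h1 g)) z
  have hE : EA γ ε U = u * i1 ε := rfl
  have hPE : ∀ x, MonoidAlgebra.single (γ (up x)) (1 : k) * EA γ ε U = EA γ ε U := by
    intro x
    rw [hE, ← mul_assoc, av_left U (hup x)]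
  -- one `x`
  have key : ∀ x : {x : A →ₗ[F] A // ∀ v, y (x v) = 0},
      EA γ ε U * MonoidAlgebra.single (γ (lo y)) 1 * EA γ ε U =
        i1 (ε * MonoidAlgebra.single (un (-(x.1 ∘ₗ y)) (nn x.2)) 1) * (u *
          MonoidAlgebra.single (γ (lo y)) 1 * EA γ ε U) := by
    intro x
    have e1 : MonoidAlgebra.single (γ (lo y)) (1 : k) * MonoidAlgebra.single (γ (up x.1)) 1 =
        i1 (MonoidAlgebra.single (un (-(x.1 ∘ₗ y)) (nn x.2)) 1) *
          MonoidAlgebra.single (γ (up x.1)) 1 * MonoidAlgebra.single (γ (lo y)) 1 := by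
      rw [hi1, mp_single, MonoidAlgebra.single_mul_single, MonoidAlgebra.single_mul_single,
        MonoidAlgebra.single_mul_single, one_mul, one_mul]
      congr 1
      change γ (lo y) * γ (up x.1) = γ (D1 _) * γ (up x.1) * γ (lo y)
      rw [← map_mul, lo_mul_up x.2, map_mul, map_mul]
    calc EA γ ε U * MonoidAlgebra.single (γ (lo y)) 1 * EA γ ε U
        = EA γ ε U * (MonoidAlgebra.single (γ (lo y)) 1 *
            MonoidAlgebra.single (γ (up x.1)) 1) * EA γ ε U := by
          rw [mul_assoc, mul_assoc, mul_assoc, hPE]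
      _ = i1 ε * u * (i1 (MonoidAlgebra.single (un (-(x.1 ∘ₗ y)) (nn x.2)) 1) *
          MonoidAlgebra.single (γ (up x.1)) 1 * MonoidAlgebra.single (γ (lo y)) 1) * EA γ ε U := by
          rw [e1, hE, ← hui]
      _ = i1 ε * (u * i1 (MonoidAlgebra.single (un (-(x.1 ∘ₗ y)) (nn x.2)) 1)) *
          (MonoidAlgebra.single (γ (up x.1)) 1 * MonoidAlgebra.single (γ (lo y)) 1) * EA γ ε U := by
          simp only [mul_assoc]
      _ = i1 ε * i1 (MonoidAlgebra.single (un (-(x.1 ∘ₗ y)) (nn x.2)) 1) *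
          (u * MonoidAlgebra.single (γ (up x.1)) 1) * MonoidAlgebra.single (γ (lo y)) 1 *
          EA γ ε U := by
          rw [← hui]; simp only [mul_assoc]
      _ = _ := by
          rw [av_right U (hup x.1), ← map_mul, ← hu]; simp only [mul_assoc]
  have hsum : ∑ x : {x : A →ₗ[F] A // ∀ v, y (x v) = 0},
      (EA γ ε U * MonoidAlgebra.single (γ (lo y)) 1 * EA γ ε U) = 0 := by
    rw [Finset.sum_congr rfl fun x _ => key x, ← Finset.sum_mul, ← map_sum, ← Finset.mul_sum,
      cusp_sum hε.cusp hy0 hyi, map_zero, zero_mul]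
  rw [Finset.sum_const, Finset.card_univ, ← Nat.cast_smul_eq_nsmul k, smul_eq_zero] at hsum
  refine hsum.resolve_left ?_
  haveI : Nonempty {x : A →ₗ[F] A // ∀ v, y (x v) = 0} := ⟨⟨0, fun v => map_zero y⟩⟩
  have : Fintype.card {x : A →ₗ[F] A // ∀ v, y (x v) = 0} ≠ 0 := Fintype.card_ne_zero
  exact_mod_cast this

/-- a lower unipotent element of full rank -/
theorem inv_eq (hε : Eps ε φ c w) (hup : ∀ x, γ (up x) ∈ U) (h1 : ∀ g, γ (D1 g) ∈ Nm U)
    (h2 : ∀ g, γ (D2 g) ∈ Nm U) (y : A ≃ₗ[F] A) :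
    EA γ ε U * MonoidAlgebra.single (γ (lo (y : A →ₗ[F] A))) 1 * EA γ ε U * mp (γ.comp D2) ε =
      (w * φ (MonoidAlgebra.single y⁻¹ 1)) • (av k U * MonoidAlgebra.single (γ sw) 1 *
        mp (γ.comp D1) (MonoidAlgebra.single y 1 * ε) * mp (γ.comp D2) ε * av k U) := by
  set u := av k U with hu
  set i1 : MonoidAlgebra k (A ≃ₗ[F] A) →ₐ[k] MonoidAlgebra k G := mp (γ.comp D1) with hi1
  set i2 : MonoidAlgebra k (A ≃ₗ[F] A) →ₐ[k] MonoidAlgebra k G := mp (γ.comp D2) with hi2
  set s : MonoidAlgebra k G := MonoidAlgebra.single (γ sw) 1 with hs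
  have hu1 : ∀ z, i1 z * u = u * i1 z := fun z => mp_rel (fun g => single_comm_av (h1 g)) z
  have hu2 : ∀ z, i2 z * u = u * i2 z := fun z => mp_rel (fun g => single_comm_av (h2 g)) z
  have h12 : ∀ x z, i1 x * i2 z = i2 z * i1 x := fun x z => i1_comm_i2 γ x z
  have hs1 : ∀ z, i1 z * s = s * i2 z := fun z => by
    refine mp_rel (fun g => ?_) z
    rw [hs, MonoidAlgebra.single_mul_single, MonoidAlgebra.single_mul_single]
    congr 1
    change γ (D1 g) * γ sw = γ sw * γ (D2 g)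
    rw [← map_mul, ← map_mul, D1_mul_sw]
  have hE : EA γ ε U = u * i1 ε := rfl
  have hE' : EA γ ε U = i1 ε * u := by rw [hE, hu1]
  have hPE : ∀ x, MonoidAlgebra.single (γ (up x)) (1 : k) * EA γ ε U = EA γ ε U := by
    intro x
    rw [hE, ← mul_assoc, av_left U (hup x)]
  have hEP : ∀ x, EA γ ε U * MonoidAlgebra.single (γ (up x)) (1 : k) = EA γ ε U := by
    intro x
    rw [hE', mul_assoc, av_right U (hup x)]
  have e1 : MonoidAlgebra.single (γ (lo (y : A →ₗ[F] A))) (1 : k) =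
      MonoidAlgebra.single (γ (up ((y⁻¹ : A ≃ₗ[F] A) : A →ₗ[F] A))) 1 * s *
        i2 (MonoidAlgebra.single (LinearEquiv.neg F) 1) * i1 (MonoidAlgebra.single y 1) *
        i2 (MonoidAlgebra.single y⁻¹ 1) *
        MonoidAlgebra.single (γ (up ((y⁻¹ : A ≃ₗ[F] A) : A →ₗ[F] A))) 1 := by
    rw [hi1, hi2, hs, mp_single, mp_single, mp_single]
    simp only [MonoidAlgebra.single_mul_single, one_mul]
    congr 1
    change γ (lo (y : A →ₗ[F] A)) = γ (up _) * γ sw * γ (D2 _) * γ (D1 _) * γ (D2 _) * γ (up _)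
    simp only [← map_mul]
    rw [lo_eq]
  have e3 : i1 ε * i1 ε = i1 ε := by rw [← map_mul, hε.idem]
  calc EA γ ε U * MonoidAlgebra.single (γ (lo (y : A →ₗ[F] A))) 1 * EA γ ε U * i2 ε
      = (EA γ ε U * MonoidAlgebra.single (γ (up ((y⁻¹ : A ≃ₗ[F] A) : A →ₗ[F] A))) 1) * s *
        i2 (MonoidAlgebra.single (LinearEquiv.neg F) 1) * i1 (MonoidAlgebra.single y 1) *
        i2 (MonoidAlgebra.single y⁻¹ 1) *
        (MonoidAlgebra.single (γ (up ((y⁻¹ : A ≃ₗ[F] A) : A →ₗ[F] A))) 1 * EA γ ε U) * i2 ε := by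
        rw [e1]; simp only [mul_assoc]
    _ = u * (i1 ε * s) * i2 (MonoidAlgebra.single (LinearEquiv.neg F) 1) *
        i1 (MonoidAlgebra.single y 1) * i2 (MonoidAlgebra.single y⁻¹ 1) * (i1 ε * u) * i2 ε := by
        rw [hEP, hPE, hE]
        simp only [mul_assoc]
        rw [← mul_assoc u (i1 ε) (i2 ε), ← hu1]
        simp only [mul_assoc]
    _ = u * s * i2 (ε * MonoidAlgebra.single (LinearEquiv.neg F) 1) *
        (i1 (MonoidAlgebra.single y 1) * i2 (MonoidAlgebra.single y⁻¹ 1)) * i1 ε * (u * i2 ε) := by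
        rw [hs1, map_mul]; simp only [mul_assoc]
    _ = u * s * (w • i2 ε) * (i1 (MonoidAlgebra.single y 1) * i2 (MonoidAlgebra.single y⁻¹ 1)) *
        i1 ε * (i2 ε * u) := by
        rw [hε.neg, map_smul, hu2]
    _ = w • (u * s * (i2 ε * i1 (MonoidAlgebra.single y 1)) * (i2 (MonoidAlgebra.single y⁻¹ 1) *
        i1 ε) * (i2 ε * u)) := by
        simp only [mul_smul_comm, smul_mul_assoc, mul_assoc]
    _ = w • (u * s * i1 (MonoidAlgebra.single y 1) * (i2 ε * i1 ε) *
        i2 (MonoidAlgebra.single y⁻¹ 1) * (i2 ε * u)) := by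
        rw [← h12, ← h12 ε (MonoidAlgebra.single y⁻¹ 1)]; simp only [mul_assoc]
    _ = w • (u * s * i1 (MonoidAlgebra.single y 1) * i1 ε * (i2 ε *
        i2 (MonoidAlgebra.single y⁻¹ 1) * i2 ε) * u) := by
        rw [← h12]; simp only [mul_assoc]
    _ = w • (u * s * i1 (MonoidAlgebra.single y 1 * ε) * (φ (MonoidAlgebra.single y⁻¹ 1) • i2 ε) *
        u) := by
        rw [← map_mul i2, ← map_mul i2, hε.prim, map_smul, map_mul i1]; simp only [mul_assoc]
    _ = _ := by
        rw [mul_smul]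
        simp only [mul_smul_comm, smul_mul_assoc]

end Main

end Vale.Agent.P180.H19.Atwo
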