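import Vale.Agent.P180.H19.AtwoB

/-!
P180, F3 leaf C2 (helper19), part 3: the relation `T * T = a T + b E E'`.
-/

set_option linter.all false

namespace Vale.Agent.P180.H19.Atwo

open Vale.Agent.P180 Vale.Agent.P180.R2.H799 Vale.Agent.P180.R2.H799.BN

universe u

section Schur

variable {H : Type} [Group H] [Fintype H] {k : Type u} [Field k] {ε : MonoidAlgebra k H}
  {φ : MonoidAlgebra k H → k}

/-- the symmetrising form -/
theorem coeff_one_comm (x y : MonoidAlgebra k H) : (x * y).coeff 1 = (y * x).coeff 1 := by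
  induction x using MonoidAlgebra.induction_linear with
  | zero => rw [zero_mul, mul_zero]
  | add a b ha hb =>
    rw [add_mul, mul_add, MonoidAlgebra.coeff_add, MonoidAlgebra.coeff_add, Finsupp.add_apply,
      Finsupp.add_apply, ha, hb]
  | single g r =>
    rw [MonoidAlgebra.coeff_single_mul_apply, MonoidAlgebra.coeff_mul_single_apply, mul_one,
      one_mul, mul_comm]

theorem phi_single (hi : ε * ε = ε) (hp : ∀ z, ε * z * ε = φ z • ε) (z : MonoidAlgebra k H) :
    (z * ε).coeff 1 = φ z * ε.coeff 1 := by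
  have h1 := congrArg (fun x => x.coeff 1) (hp z)
  simp only [MonoidAlgebra.coeff_smul, Finsupp.smul_apply, smul_eq_mul] at h1
  have h2 : (ε * z * ε).coeff 1 = (z * ε).coeff 1 := by
    rw [mul_assoc, coeff_one_comm, mul_assoc, hi]
  rw [← h1, h2]

theorem coeff_one_ne (hi : ε * ε = ε) (hne : ε ≠ 0) (hp : ∀ z, ε * z * ε = φ z • ε) :
    ε.coeff 1 ≠ 0 := by
  intro h0
  apply hne
  apply MonoidAlgebra.coeff_injective
  ext g
  have h1 := phi_single hi hp (MonoidAlgebra.single g⁻¹ (1 : k))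
  rw [h0, mul_zero, MonoidAlgebra.coeff_single_mul_apply, inv_inv, one_mul, mul_one] at h1
  rw [h1]
  rfl

/-- **Schur** -/
theorem schur_eps (hi : ε * ε = ε) (hne : ε ≠ 0) (hp : ∀ z, ε * z * ε = φ z • ε) :
    ∑ y : H, φ (MonoidAlgebra.single y⁻¹ 1) • (MonoidAlgebra.single y 1 * ε) =
      (ε.coeff 1)⁻¹ • ε := by
  have h0 := coeff_one_ne hi hne hp
  have h1 : ∀ y : H, φ (MonoidAlgebra.single y⁻¹ 1) = (ε.coeff 1)⁻¹ * ε.coeff y := by
    intro y
    have h2 := phi_single hi hp (MonoidAlgebra.single y⁻¹ (1 : k))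
    rw [MonoidAlgebra.coeff_single_mul_apply, inv_inv, one_mul, mul_one] at h2
    rw [h2, mul_comm, mul_assoc, mul_inv_cancel₀ h0, mul_one]
  have h3 : ε = ∑ y : H, MonoidAlgebra.single y (ε.coeff y) := by
    apply MonoidAlgebra.coeff_injective
    ext g
    rw [MonoidAlgebra.coeff_sum, Finsupp.finset_sum_apply]
    rw [Finset.sum_eq_single g]
    · rw [MonoidAlgebra.coeff_single, Finsupp.single_eq_same]
    · intro h _ hg
      rw [MonoidAlgebra.coeff_single, Finsupp.single_eq_of_ne (Ne.symm hg)]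
    · intro h
      exact absurd (Finset.mem_univ g) h
  have h4 : ∀ y : H, φ (MonoidAlgebra.single y⁻¹ 1) • (MonoidAlgebra.single y 1 * ε) =
      (ε.coeff 1)⁻¹ • (MonoidAlgebra.single y (ε.coeff y) * ε) := by
    intro y
    have h5 : MonoidAlgebra.single y (ε.coeff y) = ε.coeff y • MonoidAlgebra.single y (1 : k) := by
      rw [MonoidAlgebra.smul_single, smul_eq_mul, mul_one]
    rw [h1, mul_smul, h5, smul_mul_assoc]
  rw [Finset.sum_congr rfl fun y _ => h4 y, ← Finset.smul_sum, ← Finset.sum_mul, ← h3, hi]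

end Schur

section Main

variable {F A : Type} [Field F] [Finite F] [AddCommGroup A] [Module F A] [Finite A] [Nontrivial A]
  [Finite (A ≃ₗ[F] A)] [Fintype (A ≃ₗ[F] A)] [Fintype (A →ₗ[F] A)]
  {k : Type u} [Field k] [CharZero k] {G : Type} [Group G] [Finite G]
  {ε : MonoidAlgebra k (A ≃ₗ[F] A)}
  {φ : MonoidAlgebra k (A ≃ₗ[F] A) → k} {c w : k} {U : Subgroup G}

omit [Finite F] [Finite A] [Nontrivial A] [Fintype (A →ₗ[F] A)] [CharZero k] in
/-- the constants of a cuspidal primitive idempotent -/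
theorem Eps.mk' (hi : ε * ε = ε) (hne : ε ≠ 0) (hp : ∀ z, ε * z * ε = φ z • ε)
    (hc : ∀ A1 : Submodule F A, A1 ≠ ⊥ → A1 ≠ ⊤ → ε * av k (Rad A1) = 0) :
    Eps ε φ (ε.coeff 1)⁻¹ (φ (MonoidAlgebra.single (LinearEquiv.neg F : A ≃ₗ[F] A) 1)) ∧
      (ε.coeff 1)⁻¹ ≠ 0 ∧
      φ (MonoidAlgebra.single (LinearEquiv.neg F : A ≃ₗ[F] A) 1) ≠ 0 := by
  have hcm : ∀ z : MonoidAlgebra k (A ≃ₗ[F] A),
      z * MonoidAlgebra.single (LinearEquiv.neg F : A ≃ₗ[F] A) 1 =
        MonoidAlgebra.single (LinearEquiv.neg F : A ≃ₗ[F] A) 1 * z := by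
    intro z
    induction z using MonoidAlgebra.induction_linear with
    | zero => rw [zero_mul, mul_zero]
    | add a b ha hb => rw [add_mul, mul_add, ha, hb]
    | single g r =>
      rw [MonoidAlgebra.single_mul_single, MonoidAlgebra.single_mul_single, mul_one, one_mul]
      congr 1
      apply LinearEquiv.ext
      intro v
      change g (-v) = -(g v)
      exact map_neg g v
  have hneg : ε * MonoidAlgebra.single (LinearEquiv.neg F : A ≃ₗ[F] A) 1 =
      φ (MonoidAlgebra.single (LinearEquiv.neg F : A ≃ₗ[F] A) 1) • ε := by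
    rw [← hp, mul_assoc, ← hcm ε, ← mul_assoc, hi]
  refine ⟨⟨hi, hp, schur_eps hi hne hp, hneg, hc⟩, inv_ne_zero (coeff_one_ne hi hne hp), fun h0 => ?_⟩
  rw [h0, zero_smul] at hneg
  apply hne
  have h1 : (ε * MonoidAlgebra.single (LinearEquiv.neg F : A ≃ₗ[F] A) 1) *
      MonoidAlgebra.single (LinearEquiv.neg F : A ≃ₗ[F] A) 1 = ε := by
    rw [mul_assoc, MonoidAlgebra.single_mul_single, mul_one]
    have : (LinearEquiv.neg F : A ≃ₗ[F] A) * LinearEquiv.neg F = 1 := by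
      apply LinearEquiv.ext
      intro v
      change -(-v) = v
      exact neg_neg v
    rw [this, ← MonoidAlgebra.one_def, mul_one]
  rw [hneg, zero_mul] at h1
  exact h1.symm

variable (γ : ((A × A) ≃ₗ[F] (A × A)) →* G)

/-- the sum over all lower unipotent elements -/
theorem sum_lo (hε : Eps ε φ c w) (hup : ∀ x, γ (up x) ∈ U) (h1 : ∀ g, γ (D1 g) ∈ Nm U)
    (h2 : ∀ g, γ (D2 g) ∈ Nm U) :
    (∑ y : A →ₗ[F] A, EA γ ε U * MonoidAlgebra.single (γ (lo y)) 1 * EA γ ε U) *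
      mp (γ.comp D2) ε = EA γ ε U * EA γ ε U * mp (γ.comp D2) ε +
        (w * c) • (EA γ ε U * MonoidAlgebra.single (γ sw) 1 * EA γ ε U) := by
  classical
  haveI hfd : Module.Finite F A := Module.Finite.of_finite
  set u := av k U with hu
  set i1 : MonoidAlgebra k (A ≃ₗ[F] A) →ₐ[k] MonoidAlgebra k G := mp (γ.comp D1) with hi1
  set i2 : MonoidAlgebra k (A ≃ₗ[F] A) →ₐ[k] MonoidAlgebra k G := mp (γ.comp D2) with hi2
  set s : MonoidAlgebra k G := MonoidAlgebra.single (γ sw) 1 with hs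
  have hu1 : ∀ z, i1 z * u = u * i1 z := fun z => mp_rel (fun g => single_comm_av (h1 g)) z
  have h12 : ∀ x z, i1 x * i2 z = i2 z * i1 x := fun x z => i1_comm_i2 γ x z
  have hs1 : ∀ z, i1 z * s = s * i2 z := fun z => by
    refine mp_rel (fun g => ?_) z
    rw [hs, MonoidAlgebra.single_mul_single, MonoidAlgebra.single_mul_single]
    congr 1
    change γ (D1 g) * γ sw = γ sw * γ (D2 g)
    rw [← map_mul, ← map_mul, D1_mul_sw]
  have hE : EA γ ε U = u * i1 ε := rfl
  -- the terms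
  let f : (A →ₗ[F] A) → MonoidAlgebra k G := fun y =>
    EA γ ε U * MonoidAlgebra.single (γ (lo y)) 1 * EA γ ε U
  have hf0 : f 0 = EA γ ε U * EA γ ε U := by
    change EA γ ε U * MonoidAlgebra.single (γ (lo 0)) 1 * EA γ ε U = _
    rw [lo_zero, map_one, ← MonoidAlgebra.one_def, mul_one]
  have hsplit : ∑ y : A →ₗ[F] A, f y = f 0 + ∑ y : A ≃ₗ[F] A, f (y : A →ₗ[F] A) := by
    have h3 : ∑ y : A ≃ₗ[F] A, f (y : A →ₗ[F] A) =
        ∑ y ∈ Finset.univ.filter (fun y : A →ₗ[F] A => Function.Injective y), f y := by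
      refine Finset.sum_bij (fun y _ => (y : A →ₗ[F] A)) ?_ ?_ ?_ ?_
      · intro y _
        exact Finset.mem_filter.mpr ⟨Finset.mem_univ _, y.injective⟩
      · intro y _ y' _ h
        exact LinearEquiv.toLinearMap_injective h
      · intro y hy
        exact ⟨LinearEquiv.ofInjectiveEndo y (Finset.mem_filter.mp hy).2, Finset.mem_univ _,
          LinearMap.ext fun v => rfl⟩
      · intro y _
        rfl
    have h4 : ∑ y ∈ Finset.univ.filter (fun y : A →ₗ[F] A => ¬ Function.Injective y), f y =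
        f 0 := by
      rw [Finset.sum_eq_single (0 : A →ₗ[F] A)]
      · intro y hy hy0
        exact mid_eq_zero γ hε hup h1 hy0 (Finset.mem_filter.mp hy).2
      · intro h
        exfalso
        apply h
        refine Finset.mem_filter.mpr ⟨Finset.mem_univ _, fun hinj => ?_⟩
        obtain ⟨v, hv⟩ := exists_ne (0 : A)
        exact hv (hinj (by rw [LinearMap.zero_apply, LinearMap.zero_apply]))
    rw [h3, ← h4, add_comm]
    exact (Finset.sum_filter_add_sum_filter_not Finset.univ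
      (fun y : A →ₗ[F] A => Function.Injective y) f).symm
  have hterm : (∑ y : A ≃ₗ[F] A, f (y : A →ₗ[F] A)) * i2 ε =
      (w * c) • (EA γ ε U * s * EA γ ε U) := by
    rw [Finset.sum_mul]
    have h5 : ∀ y : A ≃ₗ[F] A, f (y : A →ₗ[F] A) * i2 ε =
        w • (u * s * i1 (φ (MonoidAlgebra.single y⁻¹ 1) • (MonoidAlgebra.single y 1 * ε)) *
          i2 ε * u) := by
      intro y
      change EA γ ε U * MonoidAlgebra.single (γ (lo (y : A →ₗ[F] A))) 1 * EA γ ε U * i2 ε = _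
      rw [hi2, inv_eq γ hε hup h1 h2 y, mul_smul, map_smul]
      simp only [mul_smul_comm, smul_mul_assoc]
      rfl
    rw [Finset.sum_congr rfl fun y _ => h5 y, ← Finset.smul_sum, ← Finset.sum_mul,
      ← Finset.sum_mul, ← Finset.mul_sum, ← map_sum, hε.schur, map_smul, mul_smul]
    congr 1
    rw [mul_smul_comm, smul_mul_assoc, smul_mul_assoc]
    congr 1
    calc u * s * i1 ε * i2 ε * u = u * (s * i2 ε) * (i1 ε * u) := by
          rw [mul_assoc (u * s), h12]; simp only [mul_assoc]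
      _ = (u * i1 ε) * s * (u * i1 ε) := by rw [← hs1, hu1]; simp only [mul_assoc]
  have h6 : ∑ y : A →ₗ[F] A, EA γ ε U * MonoidAlgebra.single (γ (lo y)) 1 * EA γ ε U =
      ∑ y : A →ₗ[F] A, f y := rfl
  rw [h6, hsplit, add_mul, hterm, hf0]

/-- **(C2)** the relations of `T = E s E`. -/
theorem relations (hε : Eps ε φ c w) (hup : ∀ x, γ (up x) ∈ U) (h1 : ∀ g, γ (D1 g) ∈ Nm U)
    (h2 : ∀ g, γ (D2 g) ∈ Nm U) {U0 X : Subgroup G}
    (hU0 : U0 ≤ conjS (γ sw) U) (hU0U : U0 ≤ Nm U)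
    (hU01 : ∀ v ∈ U0, ∀ g, v * γ (D1 g) = γ (D1 g) * v) (hU02 : ∀ g, γ (D2 g) ∈ Nm U0)
    (hX : X ≤ U) (hX2 : ∀ g, γ (D2 g) ∈ Nm X)
    (hfac : av k (conjS (γ sw) U) = ((Nat.card (A →ₗ[F] A) : k)⁻¹ •
      ∑ y : A →ₗ[F] A, MonoidAlgebra.single (γ (lo y)) 1) * av k U0 * av k X)
    {E E0 T : MonoidAlgebra k G} (hE : E = EA γ ε U) (hE0 : E0 = av k U0 * mp (γ.comp D2) ε)
    (hT : T = E * MonoidAlgebra.single (γ sw) 1 * E) :
    E * E = E ∧ E0 * E0 = E0 ∧ E * E0 = E0 * E ∧ E * T = T ∧ T * E = T ∧ E0 * T = T ∧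
      T * E0 = T ∧
      T * T = ((Nat.card (A →ₗ[F] A) : k)⁻¹ * (w * c)) • T +
        (Nat.card (A →ₗ[F] A) : k)⁻¹ • (E * E0) := by
  classical
  set u := av k U with hu
  set u0 := av k U0 with hu0
  set ub := av k (conjS (γ sw) U) with hub
  set x0 := av k X with hx0
  set i1 : MonoidAlgebra k (A ≃ₗ[F] A) →ₐ[k] MonoidAlgebra k G := mp (γ.comp D1) with hi1
  set i2 : MonoidAlgebra k (A ≃ₗ[F] A) →ₐ[k] MonoidAlgebra k G := mp (γ.comp D2) with hi2
  set s : MonoidAlgebra k G := MonoidAlgebra.single (γ sw) 1 with hs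
  have hE' : E = u * i1 ε := hE
  have hu1 : ∀ z, i1 z * u = u * i1 z := fun z => mp_rel (fun g => single_comm_av (h1 g)) z
  have hu2 : ∀ z, i2 z * u = u * i2 z := fun z => mp_rel (fun g => single_comm_av (h2 g)) z
  have hu02 : ∀ z, i2 z * u0 = u0 * i2 z := fun z => mp_rel (fun g => single_comm_av (hU02 g)) z
  have hx2 : ∀ z, i2 z * x0 = x0 * i2 z := fun z => mp_rel (fun g => single_comm_av (hX2 g)) z
  have hu01 : ∀ z, i1 z * u0 = u0 * i1 z := fun z => by
    refine mp_rel (fun g => single_comm_av ?_) z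
    rw [mem_Nm]
    intro v
    constructor
    · intro hv
      have : (γ.comp D1) g * v * ((γ.comp D1) g)⁻¹ = v := by
        change γ (D1 g) * v * (γ (D1 g))⁻¹ = v
        rw [← hU01 v hv g, mul_inv_cancel_right]
      rw [this]
      exact hv
    · intro hv
      have h3 := hU01 _ hv g
      have h4 : γ (D1 g) * v * (γ (D1 g))⁻¹ * γ (D1 g) = γ (D1 g) * (γ (D1 g) * v * (γ (D1 g))⁻¹) := h3
      rw [inv_mul_cancel_right] at h4
      have h5 := mul_left_cancel h4
      have h6 : v = γ (D1 g) * v * (γ (D1 g))⁻¹ := h5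
      rw [h6]
      exact hv
  have h12 : ∀ x z, i1 x * i2 z = i2 z * i1 x := fun x z => i1_comm_i2 γ x z
  have h1s : ∀ z, i1 z * s = s * i2 z := fun z => by
    refine mp_rel (fun g => ?_) z
    rw [hs, MonoidAlgebra.single_mul_single, MonoidAlgebra.single_mul_single]
    congr 1
    change γ (D1 g) * γ sw = γ sw * γ (D2 g)
    rw [← map_mul, ← map_mul, D1_mul_sw]
  have h2s : ∀ z, i2 z * s = s * i1 z := fun z => by
    refine mp_rel (fun g => ?_) z
    rw [hs, MonoidAlgebra.single_mul_single, MonoidAlgebra.single_mul_single]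
    congr 1
    change γ (D2 g) * γ sw = γ sw * γ (D1 g)
    rw [← map_mul, ← map_mul, D2_mul_sw]
  have hss : s * s = 1 := by
    rw [hs, MonoidAlgebra.single_mul_single, one_mul, ← map_mul, sw_mul_sw, map_one,
      ← MonoidAlgebra.one_def]
  have hsu : s * u = ub * s := by rw [hs, hu, single_mul_av]
  have hus : u * s = s * ub := by
    calc u * s = s * (s * u) * s := by rw [← mul_assoc s s, hss, one_mul]
      _ = s * ub * (s * s) := by rw [hsu]; simp only [mul_assoc]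
      _ = s * ub := by rw [hss, mul_one]
  have huu : u * u = u := av_idem (cardU U)
  have hu0u0 : u0 * u0 = u0 := av_idem (cardU U0)
  have hubu0 : ub * u0 = ub := av_le_right (cardU U0) hU0
  have hu0ub : u0 * ub = ub := av_le_left (cardU U0) hU0
  have hx0u : x0 * u = u := av_le_left (cardU X) hX
  have hu0u : u0 * u = u * u0 := av_comm hU0U (av_mem U0)
  have hee1 : i1 ε * i1 ε = i1 ε := by rw [← map_mul, hε.idem]
  have hee2 : i2 ε * i2 ε = i2 ε := by rw [← map_mul, hε.idem]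
  have hEE : E * E = E := by
    rw [hE']
    calc u * i1 ε * (u * i1 ε) = u * (i1 ε * u) * i1 ε := by simp only [mul_assoc]
      _ = (u * u) * (i1 ε * i1 ε) := by rw [hu1]; simp only [mul_assoc]
      _ = u * i1 ε := by rw [huu, hee1]
  have hE0E0 : E0 * E0 = E0 := by
    rw [hE0]
    calc u0 * i2 ε * (u0 * i2 ε) = u0 * (i2 ε * u0) * i2 ε := by simp only [mul_assoc]
      _ = (u0 * u0) * (i2 ε * i2 ε) := by rw [hu02]; simp only [mul_assoc]
      _ = u0 * i2 ε := by rw [hu0u0, hee2]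
  have hu0E : u0 * E = E * u0 := by
    rw [hE', ← mul_assoc, hu0u, mul_assoc, ← hu01, mul_assoc]
  have h2E : ∀ z, i2 z * E = E * i2 z := fun z => by
    rw [hE', ← mul_assoc, hu2, mul_assoc, ← h12, mul_assoc]
  have hEE0 : E * E0 = E0 * E := by
    rw [hE0, mul_assoc u0, h2E, ← mul_assoc, ← mul_assoc, hu0E]
  -- the conjugate idempotent
  have hEs : E * s = s * (ub * i2 ε) := by
    rw [hE', mul_assoc, h1s, ← mul_assoc, hus, mul_assoc]
  have hsE : s * E = (ub * i2 ε) * s := by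
    rw [hE', ← mul_assoc, hsu, mul_assoc, ← h2s, mul_assoc]
  have hEB0 : (ub * i2 ε) * E0 = ub * i2 ε := by
    rw [hE0]
    calc ub * i2 ε * (u0 * i2 ε) = ub * (i2 ε * u0) * i2 ε := by simp only [mul_assoc]
      _ = (ub * u0) * (i2 ε * i2 ε) := by rw [hu02]; simp only [mul_assoc]
      _ = ub * i2 ε := by rw [hubu0, hee2]
  have hubi2 : ub * i2 ε = i2 ε * ub := by
    have h3 : i2 ε * ub = s * (i1 ε * u) * s := by
      calc i2 ε * ub = i2 ε * (s * s) * ub := by rw [hss, mul_one]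
        _ = (i2 ε * s) * (s * ub) := by simp only [mul_assoc]
        _ = s * i1 ε * (u * s) := by rw [h2s, hus]
        _ = s * (i1 ε * u) * s := by simp only [mul_assoc]
    rw [h3, hu1]
    calc ub * i2 ε = ub * (s * s) * i2 ε := by rw [hss, mul_one]
      _ = (ub * s) * (s * i2 ε) := by simp only [mul_assoc]
      _ = (s * u) * (i1 ε * s) := by rw [hsu, h1s]
      _ = s * (u * i1 ε) * s := by simp only [mul_assoc]
  have hE0B : E0 * (ub * i2 ε) = ub * i2 ε := by
    rw [hE0]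
    calc u0 * i2 ε * (ub * i2 ε) = u0 * (i2 ε * ub) * i2 ε := by simp only [mul_assoc]
      _ = (u0 * ub) * (i2 ε * i2 ε) := by rw [← hubi2]; simp only [mul_assoc]
      _ = ub * i2 ε := by rw [hu0ub, hee2]
  have hET : E * T = T := by rw [hT, ← mul_assoc, ← mul_assoc, hEE]
  have hTE : T * E = T := by rw [hT, mul_assoc, hEE]
  have hTE0 : T * E0 = T := by
    rw [hT, mul_assoc, hEE0, ← mul_assoc, hEs, mul_assoc s, hEB0]
  have hE0T : E0 * T = T := by
    rw [hT, mul_assoc E, ← mul_assoc E0, ← hEE0, mul_assoc E, hsE, ← mul_assoc E0, hE0B]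
  refine ⟨hEE, hE0E0, hEE0, hET, hTE, hE0T, hTE0, ?_⟩
  -- the quadratic relation
  have hTT : T * T = E * (ub * i2 ε) * E := by
    calc T * T = E * s * (E * E) * s * E := by rw [hT]; simp only [mul_assoc]
      _ = E * (s * E) * s * E := by rw [hEE]; simp only [mul_assoc]
      _ = E * (ub * i2 ε) * (s * s) * E := by rw [hsE]; simp only [mul_assoc]
      _ = _ := by rw [hss, mul_one]
  have hx0E : x0 * E = E := by rw [hE', ← mul_assoc, hx0u]
  have h7 : E * (ub * i2 ε) * E = (Nat.card (A →ₗ[F] A) : k)⁻¹ •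
      ((∑ y : A →ₗ[F] A, EA γ ε U * MonoidAlgebra.single (γ (lo y)) 1 * EA γ ε U) * i2 ε * u0) := by
    rw [hfac, ← hE]
    calc E * (((Nat.card (A →ₗ[F] A) : k)⁻¹ •
          ∑ y : A →ₗ[F] A, MonoidAlgebra.single (γ (lo y)) 1) * u0 * x0 * i2 ε) * E
        = (Nat.card (A →ₗ[F] A) : k)⁻¹ • (E * (∑ y : A →ₗ[F] A,
            MonoidAlgebra.single (γ (lo y)) 1) * (u0 * (x0 * i2 ε) * E)) := by
          simp only [smul_mul_assoc, mul_smul_comm, mul_assoc]
      _ = (Nat.card (A →ₗ[F] A) : k)⁻¹ • (E * (∑ y : A →ₗ[F] A,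
            MonoidAlgebra.single (γ (lo y)) 1) * (E * i2 ε * u0)) := by
          have h8 : u0 * (x0 * i2 ε) * E = E * i2 ε * u0 := by
            calc u0 * (x0 * i2 ε) * E = u0 * i2 ε * (x0 * E) := by
                  rw [← hx2]; simp only [mul_assoc]
              _ = E * (u0 * i2 ε) := by
                  rw [hx0E, ← hE0, hEE0]
              _ = E * i2 ε * u0 := by rw [← hu02, mul_assoc]
          rw [h8]
      _ = (Nat.card (A →ₗ[F] A) : k)⁻¹ • ((∑ y : A →ₗ[F] A,
            E * MonoidAlgebra.single (γ (lo y)) 1 * E) * i2 ε * u0) := by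
          rw [Finset.mul_sum, Finset.sum_mul, Finset.sum_mul, Finset.sum_mul]
          simp only [mul_assoc]
  rw [hTT, h7, sum_lo γ hε hup h1 h2, ← hE, hEE, add_mul, smul_add, add_comm]
  congr 1
  · have h9 : T * u0 = T := by
      have h10 : T * (u0 * i2 ε) * u0 = T * (u0 * i2 ε) := by
        calc T * (u0 * i2 ε) * u0 = T * (u0 * (i2 ε * u0)) := by simp only [mul_assoc]
          _ = T * ((u0 * u0) * i2 ε) := by rw [hu02]; simp only [mul_assoc]
          _ = T * (u0 * i2 ε) := by rw [hu0u0]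
      rw [← hE0, hTE0] at h10
      exact h10
    rw [smul_mul_assoc, ← hT, h9, smul_smul]
  · congr 1
    rw [mul_assoc, hu02, ← hE0]

omit [Finite A] [Nontrivial A] [Fintype (A ≃ₗ[F] A)] [Finite (A ≃ₗ[F] A)] [Finite F] in
/-- the subgroup of the lower unipotent elements -/
theorem exists_Lo : ∃ L : Subgroup G, ∀ g, g ∈ L ↔ ∃ y : A →ₗ[F] A, g = γ (lo y) := by
  have hmul : ∀ y y' : A →ₗ[F] A, lo y * lo y' = lo (y + y') := by
    intro y y'
    apply LinearEquiv.ext
    intro v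
    refine Prod.ext rfl ?_
    change v.2 + y' v.1 + y v.1 = v.2 + (y v.1 + y' v.1)
    abel
  refine ⟨⟨⟨⟨{g | ∃ y : A →ₗ[F] A, g = γ (lo y)}, ?_⟩, ?_⟩, ?_⟩, fun g => Iff.rfl⟩
  · rintro _ _ ⟨y, rfl⟩ ⟨y', rfl⟩
    exact ⟨y + y', by rw [← map_mul, hmul]⟩
  · exact ⟨0, by rw [lo_zero, map_one]⟩
  · rintro _ ⟨y, rfl⟩
    refine ⟨-y, ?_⟩
    rw [← map_inv, inv_eq_of_mul_eq_one_right]
    rw [hmul, add_neg_cancel, lo_zero]

omit [Finite A] [Nontrivial A] [Fintype (A ≃ₗ[F] A)] [Finite (A ≃ₗ[F] A)] [Finite F] in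
/-- the factorisation hypothesis of `relations` from the product decomposition -/
theorem fac (hγ : Function.Injective γ) {UB U0 X : Subgroup G} (hL : ∀ y, γ (lo y) ∈ UB)
    (hU0 : U0 ≤ UB) (hX : X ≤ UB) (hXU0 : X ≤ Nm U0)
    (hLn : ∀ y, γ (lo y) ∈ Nm (U0 ⊔ X))
    (hprod : ∀ g ∈ UB, ∃ v ∈ U0, ∃ x ∈ X, ∃ y, g = v * x * γ (lo y)) :
    av k UB = ((Nat.card (A →ₗ[F] A) : k)⁻¹ •
      ∑ y : A →ₗ[F] A, MonoidAlgebra.single (γ (lo y)) 1) * av k U0 * av k X := by
  classical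
  obtain ⟨L, hLm⟩ := exists_Lo (F := F) (A := A) γ
  have h1 : av k L = (Nat.card (A →ₗ[F] A) : k)⁻¹ •
      ∑ y : A →ₗ[F] A, MonoidAlgebra.single (γ (lo y)) 1 := by
    let e : (A →ₗ[F] A) ≃ L := Equiv.ofBijective (fun y => ⟨γ (lo y), (hLm _).mpr ⟨y, rfl⟩⟩)
      ⟨fun y y' h => by
        have h2 : lo y = lo y' := hγ (congrArg Subtype.val h)
        apply LinearMap.ext
        intro v
        have h3 := congrArg (fun g : (A × A) ≃ₗ[F] (A × A) => (g (v, 0)).2) h2
        change (0 : A) + y v = 0 + y' v at h3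
        rwa [zero_add, zero_add] at h3, fun ⟨g, hg⟩ => by
        obtain ⟨y, hy⟩ := (hLm g).mp hg
        exact ⟨y, Subtype.ext hy.symm⟩⟩
    unfold av
    letI := Fintype.ofFinite L
    rw [← Nat.card_congr e]
    congr 1
    exact (Fintype.sum_equiv e (fun y => MonoidAlgebra.single (γ (lo y)) (1 : k))
      (fun g : L => MonoidAlgebra.single (g : G) (1 : k)) (fun y => rfl)).symm
  rw [← h1, mul_assoc]
  have h2 : av k U0 * av k X = av k (U0 ⊔ X) := by
    refine av_sup (cardU U0) (cardU X) (cardU _) hXU0 le_sup_left le_sup_right ?_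
    intro g hg
    obtain ⟨v, hv, x, hx, rfl⟩ := mem_sup_Nm hXU0 hg
    exact ⟨v, hv, x, hx, rfl⟩
  rw [h2]
  symm
  refine av_sup' (cardU _) (cardU L) (cardU UB) ?_ (sup_le hU0 hX) ?_ ?_
  · intro g hg
    obtain ⟨y, rfl⟩ := (hLm g).mp hg
    exact hLn y
  · intro g hg
    obtain ⟨y, rfl⟩ := (hLm g).mp hg
    exact hL y
  · intro g hg
    obtain ⟨v, hv, x, hx, y, rfl⟩ := hprod g hg
    exact ⟨v * x, Subgroup.mul_mem _ (Subgroup.mem_sup_left hv) (Subgroup.mem_sup_right hx),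
      γ (lo y), (hLm _).mpr ⟨y, rfl⟩, rfl⟩

end Main

end Vale.Agent.P180.H19.Atwo
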