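import Vale.Agent.P180.H19.AtwoC
import Vale.Agent.P180.R2.H854.Form

/-!
P180, F3 leaf C2 (helper19), part 4: the group theoretic hypotheses of `relations` for two
orthogonal hyperbolic blocks of a form.
-/

set_option linter.all false

namespace Vale.Agent.P180.H19.Atwo

open Vale.Agent.P180 Vale.Agent.P180.R2.H799 Vale.Agent.P180.R2.H799.BN
open Vale.Agent.P180.R2.H854 (HForm)

universe u

section Ur

variable {K E M : Type} [Field K] [AddCommGroup E] [Module K E] [AddCommGroup M] [Module K M]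

/-- the unipotent radical of the stabiliser of `x(M)` in `I` -/
def Ur (Φ : HForm K E) (I : Subgroup (E ≃ₗ[K] E)) (x : M →ₗ[K] E) : Subgroup (E ≃ₗ[K] E) where
  carrier := {u | u ∈ I ∧ (∀ a, u (x a) = x a) ∧
    ∀ v, (∀ a, Φ.B v (x a) = 0) → ∃ a, u v - v = x a}
  one_mem' := ⟨I.one_mem, fun _ => rfl, fun v _ => ⟨0, by
    rw [map_zero, LinearEquiv.coe_one, id, sub_self]⟩⟩
  mul_mem' := by
    rintro u u' ⟨h1, h2, h3⟩ ⟨h1', h2', h3'⟩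
    refine ⟨I.mul_mem h1 h1', fun a => ?_, fun v hv => ?_⟩
    · rw [LinearEquiv.mul_apply, h2', h2]
    · obtain ⟨a', ha'⟩ := h3' v hv
      obtain ⟨a, ha⟩ := h3 v hv
      refine ⟨a + a', ?_⟩
      rw [LinearEquiv.mul_apply, map_add, ← ha, ← ha']
      have h4 : u (u' v) = u v + u (x a') := by
        rw [← map_add, ← ha', add_sub_cancel]
      rw [h4, h2, ← ha']
      abel
  inv_mem' := by
    rintro u ⟨h1, h2, h3⟩
    have h4 : ∀ a, u⁻¹ (x a) = x a := fun a => by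
      conv_lhs => rw [← h2 a]
      rw [← LinearEquiv.mul_apply, inv_mul_cancel]
      rfl
    refine ⟨I.inv_mem h1, h4, fun v hv => ?_⟩
    obtain ⟨a, ha⟩ := h3 v hv
    refine ⟨-a, ?_⟩
    have h5 : u v = v + x a := by rw [← ha, add_sub_cancel]
    have h6 : u⁻¹ (u v) = v := by
      rw [← LinearEquiv.mul_apply, inv_mul_cancel]
      rfl
    rw [h5, map_add, h4] at h6
    rw [map_neg]
    rw [← h6]
    have h7 : u⁻¹ v = v - x a := eq_sub_of_add_eq h6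
    rw [h6, h7]
    abel

variable {Φ : HForm K E} {I : Subgroup (E ≃ₗ[K] E)}

theorem mem_Ur {x : M →ₗ[K] E} {u : E ≃ₗ[K] E} : u ∈ Ur Φ I x ↔
    u ∈ I ∧ (∀ a, u (x a) = x a) ∧ ∀ v, (∀ a, Φ.B v (x a) = 0) → ∃ a, u v - v = x a := Iff.rfl

theorem ap_inv (u : E ≃ₗ[K] E) (v : E) : u⁻¹ (u v) = v := by
  rw [← LinearEquiv.mul_apply, inv_mul_cancel]
  rfl

theorem inv_ap (u : E ≃ₗ[K] E) (v : E) : u (u⁻¹ v) = v := by
  rw [← LinearEquiv.mul_apply, mul_inv_cancel]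
  rfl

/-- conjugation moves the radicals -/
theorem Ur_conj [Finite (E ≃ₗ[K] E)] (hI : ∀ g ∈ I, ∀ v w, Φ.B (g v) (g w) = Φ.B v w) {x x' : M →ₗ[K] E}
    {n : E ≃ₗ[K] E} (hn : n ∈ I) (hx : ∀ a, n (x a) = x' a) :
    conjS n (Ur Φ I x) = Ur Φ I x' := by
  have key : ∀ {x x' : M →ₗ[K] E} {n : E ≃ₗ[K] E}, n ∈ I → (∀ a, n (x a) = x' a) →
      ∀ u ∈ Ur Φ I x, n * u * n⁻¹ ∈ Ur Φ I x' := by
    rintro x x' n hn hx u ⟨h1, h2, h3⟩
    refine ⟨I.mul_mem (I.mul_mem hn h1) (I.inv_mem hn), fun a => ?_, fun v hv => ?_⟩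
    · rw [LinearEquiv.mul_apply, LinearEquiv.mul_apply, ← hx, ap_inv, h2]
    · have hv' : ∀ a, Φ.B (n⁻¹ v) (x a) = 0 := fun a => by
        rw [← hI n hn, inv_ap, hx]
        exact hv a
      obtain ⟨a, ha⟩ := h3 _ hv'
      refine ⟨a, ?_⟩
      rw [LinearEquiv.mul_apply, LinearEquiv.mul_apply, ← hx, ← ha, map_sub, inv_ap]
  apply le_antisymm
  · intro u hu
    rw [mem_conjS] at hu
    have := key hn hx _ hu
    rwa [show n * (n⁻¹ * u * n) * n⁻¹ = u by group] at this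
  · intro u hu
    rw [mem_conjS]
    have hx' : ∀ a, n⁻¹ (x' a) = x a := fun a => by rw [← hx, ap_inv]
    have := key (I.inv_mem hn) hx' _ hu
    rwa [inv_inv] at this

/-- the stabiliser normalises the radical -/
theorem Ur_Nm [Finite (E ≃ₗ[K] E)] (hI : ∀ g ∈ I, ∀ v w, Φ.B (g v) (g w) = Φ.B v w) {x : M →ₗ[K] E}
    {n : E ≃ₗ[K] E} (hn : n ∈ I) (hx : ∀ a, ∃ b, n (x a) = x b) (hx' : ∀ a, ∃ b, n⁻¹ (x a) = x b) :
    n ∈ Nm (Ur Φ I x) := by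
  have key : ∀ {n : E ≃ₗ[K] E}, n ∈ I → (∀ a, ∃ b, n (x a) = x b) →
      (∀ a, ∃ b, n⁻¹ (x a) = x b) → ∀ u ∈ Ur Φ I x, n * u * n⁻¹ ∈ Ur Φ I x := by
    rintro n hn hx hx' u ⟨h1, h2, h3⟩
    refine ⟨I.mul_mem (I.mul_mem hn h1) (I.inv_mem hn), fun a => ?_, fun v hv => ?_⟩
    · obtain ⟨b, hb⟩ := hx' a
      rw [LinearEquiv.mul_apply, LinearEquiv.mul_apply, hb, h2, ← hb, inv_ap]
    · have hv' : ∀ a, Φ.B (n⁻¹ v) (x a) = 0 := fun a => by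
        obtain ⟨b, hb⟩ := hx a
        rw [← hI n hn, inv_ap, hb]
        exact hv b
      obtain ⟨a, ha⟩ := h3 _ hv'
      obtain ⟨b, hb⟩ := hx a
      refine ⟨b, ?_⟩
      rw [LinearEquiv.mul_apply, LinearEquiv.mul_apply, ← hb, ← ha, map_sub, inv_ap]
  rw [mem_Nm]
  intro v
  refine ⟨key hn hx hx' v, fun h => ?_⟩
  have h1 := key (I.inv_mem hn) hx' (fun a => by rw [inv_inv]; exact hx a) _ h
  rwa [show n⁻¹ * (n * v * n⁻¹) * n⁻¹⁻¹ = v by group] at h1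

theorem Ur_Nm' [Finite (E ≃ₗ[K] E)] (hI : ∀ g ∈ I, ∀ v w, Φ.B (g v) (g w) = Φ.B v w) {x : M →ₗ[K] E}
    {n : E ≃ₗ[K] E} (hn : n ∈ I) (hx : ∀ a, n (x a) = x a) : n ∈ Nm (Ur Φ I x) :=
  Ur_Nm hI hn (fun a => ⟨a, hx a⟩) fun a => ⟨a, by conv_lhs => rw [← hx a, ap_inv]⟩

end Ur

section Two

variable {K E M : Type} [Field K] [AddCommGroup E] [Module K E] [AddCommGroup M] [Module K M]

/-- two orthogonal hyperbolic blocks -/
structure TwoD (Φ : HForm K E) (I J : Subgroup (E ≃ₗ[K] E)) (X Y : (M × M) →ₗ[K] E)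
    (γ : ((M × M) ≃ₗ[K] (M × M)) →* (E ≃ₗ[K] E)) : Prop where
  iso : ∀ g ∈ I, ∀ v w, Φ.B (g v) (g w) = Φ.B v w
  mem_J : ∀ g, g ∈ J ↔ g ∈ I ∧ (∀ a, g (X (a, 0)) = X (a, 0)) ∧ ∀ a, g (Y (a, 0)) = Y (a, 0)
  XX : ∀ p q, Φ.B (X p) (X q) = 0
  YY : ∀ p q, Φ.B (Y p) (Y q) = 0
  X1Y2 : ∀ a b, Φ.B (X (a, 0)) (Y (0, b)) = 0
  X2Y1 : ∀ a b, Φ.B (X (0, a)) (Y (b, 0)) = 0
  nX : ∀ p, (∀ q, Φ.B (X p) (Y q) = 0) → p = 0
  nY : ∀ q, (∀ p, Φ.B (X p) (Y q) = 0) → q = 0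
  dec : ∀ v, ∃ p q w, v = X p + Y q + w ∧ (∀ p, Φ.B w (X p) = 0) ∧ ∀ q, Φ.B w (Y q) = 0
  γI : ∀ g, γ g ∈ I
  γX : ∀ g p, γ g (X p) = X (g p)
  γY : ∀ g q, ∃ q', γ g (Y q) = Y q'
  γC : ∀ g w, (∀ p, Φ.B w (X p) = 0) → (∀ q, Φ.B w (Y q) = 0) → γ g w = w
  tt : ∃ t ∈ I, (∀ a, ∃ b, t (Y (b, 0)) = X (a, 0)) ∧ (∀ a, t (X (a, 0)) = Y (a, 0)) ∧
    (∀ a, ∃ b, t (Y (a, 0)) = X (b, 0)) ∧ ∀ a, t (X (0, a)) = X (0, a)

variable {Φ : HForm K E} {I J : Subgroup (E ≃ₗ[K] E)} {X Y : (M × M) →ₗ[K] E}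
  {γ : ((M × M) ≃ₗ[K] (M × M)) →* (E ≃ₗ[K] E)}

namespace TwoD

variable (h : TwoD Φ I J X Y γ)

/-- first block -/
def x1 (X : (M × M) →ₗ[K] E) : M →ₗ[K] E := X ∘ₗ LinearMap.inl K M M

/-- second block -/
def x2 (X : (M × M) →ₗ[K] E) : M →ₗ[K] E := X ∘ₗ LinearMap.inr K M M

theorem x1_apply (a : M) : x1 X a = X (a, 0) := rfl

theorem x2_apply (a : M) : x2 X a = X (0, a) := rfl

theorem X_split (X : (M × M) →ₗ[K] E) (p : M × M) : X p = X (p.1, 0) + X (0, p.2) := by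
  rw [← map_add, Prod.mk_add_mk, add_zero, zero_add]

include h

theorem nY1 {a : M} (ha : ∀ b, Φ.B (X (b, 0)) (Y (a, 0)) = 0) : a = 0 := by
  have := h.nY (a, 0) fun p => by
    rw [X_split X p, Φ.add_left, ha, h.X2Y1, add_zero]
  exact congrArg Prod.fst this

theorem nY2 {a : M} (ha : ∀ b, Φ.B (X (0, b)) (Y (0, a)) = 0) : a = 0 := by
  have := h.nY (0, a) fun p => by
    rw [X_split X p, Φ.add_left, ha, h.X1Y2, add_zero]
  exact congrArg Prod.snd this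

theorem nX1 {a : M} (ha : ∀ b, Φ.B (X (a, 0)) (Y (b, 0)) = 0) : a = 0 := by
  have := h.nX (a, 0) fun p => by
    rw [X_split Y p, Φ.add_right, ha, h.X1Y2, add_zero]
  exact congrArg Prod.fst this

theorem X_inj : Function.Injective X := by
  rw [injective_iff_map_eq_zero]
  intro p hp
  exact h.nX p fun q => by rw [hp, Φ.zero_left]

theorem Y_inj : Function.Injective Y := by
  rw [injective_iff_map_eq_zero]
  intro p hp
  exact h.nY p fun q => by rw [hp, Φ.zero_right]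

theorem γ_inj : Function.Injective γ := by
  intro g g' hg
  apply LinearEquiv.ext
  intro p
  apply h.X_inj
  rw [← h.γX, ← h.γX, hg]

/-- `v ⊥ X₁` -/
theorem perp1 {v : E} (hv : ∀ a, Φ.B v (X (a, 0)) = 0) : ∃ p b w, v = X p + Y (0, b) + w ∧
    (∀ p, Φ.B w (X p) = 0) ∧ ∀ q, Φ.B w (Y q) = 0 := by
  obtain ⟨p, q, w, rfl, h1, h2⟩ := h.dec v
  have h3 : q.1 = 0 := h.nY1 fun b => by
    have h4 := hv b
    rw [Φ.add_left, Φ.add_left, h1, h.XX, add_zero, zero_add] at h4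
    have h5 := Φ.eq_zero_comm h4
    rw [X_split Y q, Φ.add_right, h.X1Y2, add_zero] at h5
    exact h5
  refine ⟨p, q.2, w, ?_, h1, h2⟩
  rw [← h3]

/-- `v ⊥ X₂` -/
theorem perp2 {v : E} (hv : ∀ a, Φ.B v (X (0, a)) = 0) : ∃ p a w, v = X p + Y (a, 0) + w ∧
    (∀ p, Φ.B w (X p) = 0) ∧ ∀ q, Φ.B w (Y q) = 0 := by
  obtain ⟨p, q, w, rfl, h1, h2⟩ := h.dec v
  have h3 : q.2 = 0 := h.nY2 fun b => by
    have h4 := hv b
    rw [Φ.add_left, Φ.add_left, h1, h.XX, add_zero, zero_add] at h4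
    have h5 := Φ.eq_zero_comm h4
    rw [X_split Y q, Φ.add_right, h.X2Y1, zero_add] at h5
    exact h5
  refine ⟨p, q.1, w, ?_, h1, h2⟩
  rw [← h3]

/-- `v ⊥ Y₁` -/
theorem perpY {v : E} (hv : ∀ a, Φ.B v (Y (a, 0)) = 0) : ∃ b q w, v = X (0, b) + Y q + w ∧
    (∀ p, Φ.B w (X p) = 0) ∧ ∀ q, Φ.B w (Y q) = 0 := by
  obtain ⟨p, q, w, rfl, h1, h2⟩ := h.dec v
  have h3 : p.1 = 0 := h.nX1 fun b => by
    have h4 := hv b
    rw [Φ.add_left, Φ.add_left, h2, h.YY, add_zero, add_zero] at h4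
    rw [X_split X p, Φ.add_left, h.X2Y1, add_zero] at h4
    exact h4
  refine ⟨p.2, q, w, ?_, h1, h2⟩
  rw [← h3]

theorem γY_eq {g : (M × M) ≃ₗ[K] (M × M)} {q : M × M}
    (hq : ∀ p, Φ.B (X (g p)) (Y q) = Φ.B (X p) (Y q)) : γ g (Y q) = Y q := by
  obtain ⟨q', hq'⟩ := h.γY g q
  rw [hq']
  have h1 : q' - q = 0 := h.nY _ fun p => by
    rw [map_sub, Φ.sub_right, sub_eq_zero]
    have h2 : Φ.B (X (g (g⁻¹ p))) (Y q') = Φ.B (X (g⁻¹ p)) (Y q) := by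
      rw [← h.γX, ← hq', h.iso _ (h.γI g)]
    have h3 := hq (g⁻¹ p)
    rw [← h2] at h3
    have h4 : g (g⁻¹ p) = p := by
      rw [← LinearEquiv.mul_apply, mul_inv_cancel]
      rfl
    rw [h4] at h3
    exact h3.symm
  rw [sub_eq_zero.mp h1]

theorem γY2 {g : (M × M) ≃ₗ[K] (M × M)} (hg : ∀ p, (g p).2 = p.2) (b : M) :
    γ g (Y (0, b)) = Y (0, b) :=
  h.γY_eq fun p => by
    rw [X_split X (g p), X_split X p, Φ.add_left, Φ.add_left, h.X1Y2, h.X1Y2, hg]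

theorem γY1 {g : (M × M) ≃ₗ[K] (M × M)} (hg : ∀ p, (g p).1 = p.1) (b : M) :
    γ g (Y (b, 0)) = Y (b, 0) :=
  h.γY_eq fun p => by
    rw [X_split X (g p), X_split X p, Φ.add_left, Φ.add_left, h.X2Y1, h.X2Y1, hg]

theorem γYd {g : (M × M) ≃ₗ[K] (M × M)} (hg : ∀ b, g (0, b) = (0, b)) (q : M × M) :
    ∃ c, γ g (Y q) - Y q = Y (c, 0) := by
  obtain ⟨q', hq'⟩ := h.γY g q
  have h1 : q'.2 - q.2 = 0 := h.nY2 fun b => by
    have h2 : Φ.B (X (0, b)) (Y q') = Φ.B (X (0, b)) (Y q) := by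
      rw [← hq']
      conv_lhs => rw [← hg b, ← h.γX]
      rw [h.iso _ (h.γI g)]
    rw [X_split Y q', X_split Y q, Φ.add_right, Φ.add_right, h.X2Y1, h.X2Y1, zero_add,
      zero_add] at h2
    have h3 : ((0 : M), q'.2 - q.2) = (0, q'.2) - (0, q.2) := by
      rw [Prod.mk_sub_mk, sub_zero]
    rw [h3, map_sub, Φ.sub_right, h2, sub_self]
  refine ⟨q'.1 - q.1, ?_⟩
  rw [hq', ← map_sub]
  congr 1
  exact Prod.ext rfl h1

/-- the first radical -/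
theorem up_mem (x : M →ₗ[K] M) : γ (up x) ∈ Ur Φ I (x1 X) := by
  refine ⟨h.γI _, fun a => ?_, fun v hv => ?_⟩
  · rw [x1_apply, h.γX, up_apply]
    congr 1
    exact Prod.ext (by rw [map_zero, add_zero]) rfl
  · obtain ⟨p, b, w, rfl, h1, h2⟩ := h.perp1 hv
    refine ⟨x p.2, ?_⟩
    rw [map_add, map_add, h.γX, h.γY2 (fun p => rfl), h.γC _ w h1 h2, x1_apply, up_apply]
    have h3 : X (p.1 + x p.2, p.2) = X p + X (x p.2, 0) := by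
      rw [← map_add]
      congr 1
      exact Prod.ext rfl (by rw [Prod.snd_add, add_zero])
    rw [h3]
    abel

variable [Finite (E ≃ₗ[K] E)]

theorem sw_conj : conjS (γ sw) (Ur Φ I (x1 X)) = Ur Φ I (x2 X) :=
  Ur_conj h.iso (h.γI _) fun a => by
    rw [x1_apply, x2_apply, h.γX, sw_apply]

omit h [Finite (E ≃ₗ[K] E)] in
theorem lo_eq_sw (y : M →ₗ[K] M) : (sw : (M × M) ≃ₗ[K] (M × M))⁻¹ * lo y * sw = up y := by
  have h1 : (sw : (M × M) ≃ₗ[K] (M × M))⁻¹ = sw := inv_eq_of_mul_eq_one_right sw_mul_sw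
  rw [h1]
  apply LinearEquiv.ext
  intro p
  rfl

theorem lo_mem (y : M →ₗ[K] M) : γ (lo y) ∈ Ur Φ I (x2 X) := by
  rw [← h.sw_conj, mem_conjS, ← map_inv, ← map_mul, ← map_mul, lo_eq_sw]
  exact h.up_mem y

theorem D1_Nm (g : M ≃ₗ[K] M) : γ (D1 g) ∈ Nm (Ur Φ I (x1 X)) := by
  refine Ur_Nm h.iso (h.γI _) (fun a => ⟨g a, ?_⟩) fun a => ⟨g⁻¹ a, ?_⟩
  · rw [x1_apply, x1_apply, h.γX, D1_apply]
  · rw [← map_inv, ← map_inv, x1_apply, x1_apply, h.γX, D1_apply]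

theorem D2_Nm (g : M ≃ₗ[K] M) : γ (D2 g) ∈ Nm (Ur Φ I (x1 X)) := by
  refine Ur_Nm' h.iso (h.γI _) fun a => ?_
  rw [x1_apply, h.γX, D2_apply, map_zero]

theorem D2_Nm2 (g : M ≃ₗ[K] M) : γ (D2 g) ∈ Nm (Ur Φ I (x2 X)) := by
  rw [← h.sw_conj, mem_Nm_conjS, ← map_inv, ← map_mul, ← map_mul]
  have h1 : (sw : (M × M) ≃ₗ[K] (M × M))⁻¹ * D2 g * sw = D1 g := by
    rw [mul_assoc, D2_mul_sw, inv_mul_cancel_left]
  rw [h1]
  exact h.D1_Nm g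

omit [Finite (E ≃ₗ[K] E)] in
theorem J_le : J ≤ I := fun g hg => ((h.mem_J g).mp hg).1

omit [Finite (E ≃ₗ[K] E)] in
theorem D2_J (g : M ≃ₗ[K] M) : γ (D2 g) ∈ J := by
  rw [h.mem_J]
  refine ⟨h.γI _, fun a => ?_, fun a => h.γY1 (fun p => rfl) a⟩
  rw [h.γX, D2_apply, map_zero]

theorem D2_Nm0 (g : M ≃ₗ[K] M) : γ (D2 g) ∈ Nm (Ur Φ J (x2 X)) := by
  refine Ur_Nm (fun g hg => h.iso g (h.J_le hg)) (h.D2_J g) (fun a => ⟨g a, ?_⟩)
    fun a => ⟨g⁻¹ a, ?_⟩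
  · rw [x2_apply, x2_apply, h.γX, D2_apply]
  · rw [← map_inv, ← map_inv, x2_apply, x2_apply, h.γX, D2_apply]

omit [Finite (E ≃ₗ[K] E)] in
theorem U0_le : Ur Φ J (x2 X) ≤ Ur Φ I (x2 X) := fun u hu => ⟨h.J_le hu.1, hu.2⟩

theorem U0_Nm : Ur Φ J (x2 X) ≤ Nm (Ur Φ I (x1 X)) := fun u hu =>
  Ur_Nm' h.iso (h.J_le hu.1) fun a => ((h.mem_J u).mp hu.1).2.1 a

omit [Finite (E ≃ₗ[K] E)] in
theorem U0_comm : ∀ v ∈ Ur Φ J (x2 X), ∀ g : M ≃ₗ[K] M, v * γ (D1 g) = γ (D1 g) * v := by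
  intro v hv g
  obtain ⟨hvI, hvX, hvY⟩ := (h.mem_J v).mp hv.1
  have hvX2 : ∀ a, v (X (0, a)) = X (0, a) := hv.2.1
  have hvX' : ∀ p, v (X p) = X p := fun p => by
    rw [X_split X p, map_add, hvX, hvX2]
  have hgY : ∀ a, ∃ c, γ (D1 g) (Y (a, 0)) = Y (c, 0) := fun a => by
    obtain ⟨c, hc⟩ := h.γYd (g := D1 g) (fun b => by rw [D1_apply, map_zero]) (a, 0)
    refine ⟨c + a, ?_⟩
    rw [sub_eq_iff_eq_add.mp hc, ← map_add, Prod.mk_add_mk, add_zero]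
  -- the complement of the first block
  have hc : ∀ w, (∀ a, Φ.B w (X (a, 0)) = 0) → (∀ a, Φ.B w (Y (a, 0)) = 0) → γ (D1 g) w = w := by
    intro w h1 h2
    obtain ⟨p, q, w', rfl, h3, h4⟩ := h.dec w
    have hq : q.1 = 0 := h.nY1 fun b => by
      have h4 := h1 b
      rw [Φ.add_left, Φ.add_left, h3, h.XX, add_zero, zero_add] at h4
      have h5 := Φ.eq_zero_comm h4
      rw [X_split Y q, Φ.add_right, h.X1Y2, add_zero] at h5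
      exact h5
    have hp : p.1 = 0 := h.nX1 fun b => by
      have h5 := h2 b
      rw [Φ.add_left, Φ.add_left, h4, h.YY, add_zero, add_zero] at h5
      rw [X_split X p, Φ.add_left, h.X2Y1, add_zero] at h5
      exact h5
    have hp' : p = (0, p.2) := Prod.ext hp rfl
    have hq' : q = (0, q.2) := Prod.ext hq rfl
    rw [map_add, map_add, h.γC _ w' h3 h4, hp', hq', h.γX, D1_apply, map_zero,
      h.γY2 (fun p => rfl)]
  have hdec : ∀ z : E, ∃ a b w, z = X (a, 0) + Y (b, 0) + w ∧ (∀ a, Φ.B w (X (a, 0)) = 0) ∧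
      ∀ a, Φ.B w (Y (a, 0)) = 0 := by
    intro z
    obtain ⟨p, q, w, rfl, h1, h2⟩ := h.dec z
    refine ⟨p.1, q.1, X (0, p.2) + Y (0, q.2) + w, ?_, fun a => ?_, fun a => ?_⟩
    · conv_lhs => rw [X_split X p, X_split Y q]
      abel
    · rw [Φ.add_left, Φ.add_left, h.XX, h1, Φ.eq_zero_comm (h.X1Y2 a q.2), add_zero, add_zero]
    · rw [Φ.add_left, Φ.add_left, h.X2Y1, h.YY, h2, add_zero, add_zero]
  apply LinearEquiv.ext
  intro z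
  rw [LinearEquiv.mul_apply, LinearEquiv.mul_apply]
  obtain ⟨a, b, w, rfl, h1, h2⟩ := hdec z
  obtain ⟨c, hc'⟩ := hgY b
  have h3 : γ (D1 g) (v w) = v w := by
    refine hc _ (fun a => ?_) fun a => ?_
    · conv_lhs => rw [← hvX a]
      rw [h.iso v hvI]
      exact h1 a
    · conv_lhs => rw [← hvY a]
      rw [h.iso v hvI]
      exact h2 a
  have e1 : γ (D1 g) (X (a, 0) + Y (b, 0) + w) = X (D1 g (a, 0)) + Y (c, 0) + w := by
    rw [map_add, map_add, hc', hc w h1 h2, h.γX]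
  have e2 : v (X (a, 0) + Y (b, 0) + w) = X (a, 0) + Y (b, 0) + v w := by
    rw [map_add, map_add, hvX, hvY]
  rw [e1, e2, map_add, map_add, map_add, map_add, hvX', hvY, h.γX, hc', h3]

omit [Finite (E ≃ₗ[K] E)] in
/-- the commutators of the second radical -/
theorem comm_mem {u u' : E ≃ₗ[K] E} (hu : u ∈ Ur Φ I (x2 X)) (hu' : u' ∈ Ur Φ I (x2 X)) :
    u * u' * u⁻¹ * u'⁻¹ ∈ Ur Φ J (x2 X) := by
  have h0 : ∀ u ∈ Ur Φ I (x2 X), ∀ u' ∈ Ur Φ I (x2 X), ∀ v, (∀ a, Φ.B v (x2 X a) = 0) →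
      (u * u') v = (u' * u) v := by
    rintro u ⟨h1, h2, h3⟩ u' ⟨h1', h2', h3'⟩ v hv
    obtain ⟨a, ha⟩ := h3 v hv
    obtain ⟨a', ha'⟩ := h3' v hv
    rw [LinearEquiv.mul_apply, LinearEquiv.mul_apply]
    have e1 : u v = v + x2 X a := by rw [← ha, add_sub_cancel]
    have e2 : u' v = v + x2 X a' := by rw [← ha', add_sub_cancel]
    rw [e1, e2, map_add, map_add, h2, h2', e1, e2]
    abel
  have hI : u * u' * u⁻¹ * u'⁻¹ ∈ I :=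
    I.mul_mem (I.mul_mem (I.mul_mem hu.1 hu'.1) (I.inv_mem hu.1)) (I.inv_mem hu'.1)
  have h1 : ∀ v, (∀ a, Φ.B v (x2 X a) = 0) → (u * u' * u⁻¹ * u'⁻¹) v = v := by
    intro v hv
    have h2 := h0 _ ((Ur Φ I (x2 X)).inv_mem hu) _ ((Ur Φ I (x2 X)).inv_mem hu') v hv
    have h3 : (u * u' * u⁻¹ * u'⁻¹) v = (u * u') ((u⁻¹ * u'⁻¹) v) := by
      rw [← LinearEquiv.mul_apply, ← mul_assoc]
    rw [h3, h2, ← LinearEquiv.mul_apply]
    rw [show u * u' * (u'⁻¹ * u⁻¹) = 1 by group]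
    rfl
  have hX : ∀ p, (u * u' * u⁻¹ * u'⁻¹) (X p) = X p := fun p => h1 _ fun a => h.XX _ _
  refine ⟨?_, fun a => hX _, fun v hv => ⟨0, ?_⟩⟩
  · rw [h.mem_J]
    refine ⟨hI, fun a => hX _, fun a => h1 _ fun b => ?_⟩
    exact Φ.eq_zero_comm (h.X2Y1 b a)
  · rw [h1 v hv, sub_self, map_zero]

theorem UB_Nm0 : Ur Φ I (x2 X) ≤ Nm (Ur Φ J (x2 X)) := by
  intro u hu
  have key : ∀ u ∈ Ur Φ I (x2 X), ∀ v ∈ Ur Φ J (x2 X), u * v * u⁻¹ ∈ Ur Φ J (x2 X) := by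
    intro u hu v hv
    have h1 := h.comm_mem hu (h.U0_le hv)
    have h2 := (Ur Φ J (x2 X)).mul_mem h1 hv
    rwa [show u * v * u⁻¹ * v⁻¹ * v = u * v * u⁻¹ by group] at h2
  rw [mem_Nm]
  intro v
  refine ⟨key u hu v, fun h1 => ?_⟩
  have h2 := key _ ((Ur Φ I (x2 X)).inv_mem hu) _ h1
  rwa [show u⁻¹ * (u * v * u⁻¹) * u⁻¹⁻¹ = v by group] at h2

/-- the third factor -/
theorem exists_X (z : M →ₗ[K] M) : ∃ u ∈ Ur Φ I (x1 X) ⊓ Ur Φ I (x2 X),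
    ∀ a, u (Y (a, 0)) = Y (a, 0) + X (0, z a) := by
  obtain ⟨t, htI, t1, t2, t3, t4⟩ := h.tt
  refine ⟨t * γ (lo z) * t⁻¹, ⟨⟨I.mul_mem (I.mul_mem htI (h.γI _)) (I.inv_mem htI), fun a => ?_,
    fun v hv => ?_⟩, ?_⟩, fun a => ?_⟩
  · obtain ⟨b, hb⟩ := t1 a
    rw [x1_apply, LinearEquiv.mul_apply, LinearEquiv.mul_apply, ← hb, ap_inv,
      h.γY1 (fun p => rfl)]
  · have hv' : ∀ a, Φ.B (t⁻¹ v) (Y (a, 0)) = 0 := fun a => by
      obtain ⟨b, hb⟩ := t3 a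
      rw [← h.iso t htI, inv_ap, hb]
      exact hv b
    obtain ⟨b, q, w, h1, h2, h3⟩ := h.perpY hv'
    obtain ⟨c, hc⟩ := h.γYd (g := lo z) (fun b => by
      rw [lo_apply, map_zero, add_zero]) q
    obtain ⟨b', hb'⟩ := t3 c
    refine ⟨b', ?_⟩
    rw [x1_apply, ← hb', LinearEquiv.mul_apply, LinearEquiv.mul_apply]
    have h4 : γ (lo z) (t⁻¹ v) = t⁻¹ v + Y (c, 0) := by
      rw [h1, map_add, map_add, h.γX, h.γC _ w h2 h3, ← hc, lo_apply, map_zero, add_zero]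
      abel
    rw [h4, map_add, inv_ap]
    abel
  · have h1 : t ∈ Nm (Ur Φ I (x2 X)) := Ur_Nm' h.iso htI fun a => t4 a
    exact Nm_mul_mem h1 (h.lo_mem z)
  · rw [LinearEquiv.mul_apply, LinearEquiv.mul_apply]
    conv_lhs => rw [← t2 a, ap_inv]
    rw [h.γX, lo_apply]
    have h3 : X (a, 0 + z a) = X (a, 0) + X (0, z a) := by
      rw [← map_add, Prod.mk_add_mk, add_zero]
    rw [h3, map_add, t2, t4]

omit [Finite (E ≃ₗ[K] E)] in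
theorem exists_lin (f : M →ₗ[K] E) (hf : ∀ a, ∃ b, f a = x2 X b) :
    ∃ y : M →ₗ[K] M, ∀ a, f a = X (0, y a) := by
  have hinj : Function.Injective (x2 X) := by
    intro a b hab
    exact congrArg Prod.snd (h.X_inj hab)
  obtain ⟨l, hl⟩ := LinearMap.exists_leftInverse_of_injective (x2 X) (LinearMap.ker_eq_bot.mpr hinj)
  refine ⟨l ∘ₗ f, fun a => ?_⟩
  obtain ⟨b, hb⟩ := hf a
  rw [LinearMap.comp_apply, hb, ← LinearMap.comp_apply l, hl, LinearMap.id_apply, x2_apply]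

/-- the product decomposition of the second radical -/
theorem prod_dec : ∀ g ∈ Ur Φ I (x2 X), ∃ v ∈ Ur Φ J (x2 X),
    ∃ x ∈ Ur Φ I (x1 X) ⊓ Ur Φ I (x2 X), ∃ y, g = v * x * γ (lo y) := by
  intro g hg
  obtain ⟨y, hy⟩ := h.exists_lin (g.toLinearMap ∘ₗ x1 X - x1 X) fun a =>
    hg.2.2 _ fun b => h.XX _ _
  have hy' : ∀ a, g (X (a, 0)) = X (a, 0) + X (0, y a) := fun a => by
    rw [← hy a]
    change g (X (a, 0)) = X (a, 0) + (g (X (a, 0)) - X (a, 0))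
    rw [add_sub_cancel]
  have hg2 : ∀ a, g (X (0, a)) = X (0, a) := hg.2.1
  have hg' : g * (γ (lo y))⁻¹ ∈ Ur Φ I (x2 X) :=
    (Ur Φ I (x2 X)).mul_mem hg ((Ur Φ I (x2 X)).inv_mem (h.lo_mem y))
  have h1 : ∀ a, (g * (γ (lo y))⁻¹) (X (a, 0)) = X (a, 0) := fun a => by
    have h2 : (γ (lo y)) (X (a, 0) - X (0, y a)) = X (a, 0) := by
      rw [map_sub, h.γX, h.γX, lo_apply, lo_apply, map_zero, ← map_sub]
      congr 1
      exact Prod.ext (by simp) (by simp)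
    have h3 : (γ (lo y))⁻¹ (X (a, 0)) = X (a, 0) - X (0, y a) := by
      conv_lhs => rw [← h2]
      rw [ap_inv]
    rw [LinearEquiv.mul_apply, h3, map_sub, hy', hg2]
    abel
  obtain ⟨z, hz⟩ := h.exists_lin ((g * (γ (lo y))⁻¹).toLinearMap ∘ₗ x1 Y - x1 Y) fun a =>
    hg'.2.2 _ fun b => Φ.eq_zero_comm (h.X2Y1 b a)
  have hz' : ∀ a, (g * (γ (lo y))⁻¹) (Y (a, 0)) = Y (a, 0) + X (0, z a) := fun a => by
    rw [← hz a]
    change _ = Y (a, 0) + ((g * (γ (lo y))⁻¹) (Y (a, 0)) - Y (a, 0))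
    rw [add_sub_cancel]
  obtain ⟨x, hx, hxY⟩ := h.exists_X z
  have hv : g * (γ (lo y))⁻¹ * x⁻¹ ∈ Ur Φ I (x2 X) :=
    (Ur Φ I (x2 X)).mul_mem hg' ((Ur Φ I (x2 X)).inv_mem hx.2)
  have hx1 : ∀ a, x (X (a, 0)) = X (a, 0) := hx.1.2.1
  have hx2 : ∀ a, x (X (0, a)) = X (0, a) := hx.2.2.1
  have hg2' : ∀ a, (g * (γ (lo y))⁻¹) (X (0, a)) = X (0, a) := hg'.2.1
  refine ⟨g * (γ (lo y))⁻¹ * x⁻¹, ⟨?_, hv.2⟩, x, hx, y, by group⟩
  rw [h.mem_J]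
  refine ⟨hv.1, fun a => ?_, fun a => ?_⟩
  · rw [LinearEquiv.mul_apply]
    conv_lhs => rw [← hx1 a, ap_inv]
    exact h1 a
  · have h4 : x⁻¹ (Y (a, 0)) = Y (a, 0) - X (0, z a) := by
      have h5 : x (Y (a, 0) - X (0, z a)) = Y (a, 0) := by
        rw [map_sub, hxY, hx2]
        abel
      conv_lhs => rw [← h5]
      rw [ap_inv]
    rw [LinearEquiv.mul_apply, h4, map_sub, hz', hg2']
    abel

end TwoD

end Two

end Vale.Agent.P180.H19.Atwo
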