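import Vale.Agent.P180.H19.AtwoD
import Vale.Agent.P180.H393.Fm

/-!
P180, F3 leaf C2 (helper19), part 5: the relations for two orthogonal hyperbolic pairs.
-/

set_option linter.all false

namespace Vale.Agent.P180.H19.Atwo

open Vale.Agent.P180 Vale.Agent.P180.R2.H799 Vale.Agent.P180.R2.H799.BN
open Vale.Agent.P180.R2.H854 (HForm)
open Vale.Agent.P180.H393.Fm

universe u

section Rel

variable {K E M : Type} [Field K] [Finite K] [AddCommGroup E] [Module K E] [AddCommGroup M]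
  [Module K M] [Finite M] [Nontrivial M] [Finite (M ≃ₗ[K] M)] [Fintype (M ≃ₗ[K] M)]
  [Fintype (M →ₗ[K] M)] [Finite (E ≃ₗ[K] E)]
  {Φ : HForm K E} {I J : Subgroup (E ≃ₗ[K] E)} {X Y : (M × M) →ₗ[K] E}
  {γ : ((M × M) ≃ₗ[K] (M × M)) →* (E ≃ₗ[K] E)}
  {k : Type u} [Field k] [CharZero k] {ε : MonoidAlgebra k (M ≃ₗ[K] M)}
  {φ : MonoidAlgebra k (M ≃ₗ[K] M) → k} {c w : k}

theorem TwoD.rel (h : TwoD Φ I J X Y γ) (hε : Eps ε φ c w)
    {E1 E0 T : MonoidAlgebra k (E ≃ₗ[K] E)}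
    (hE1 : E1 = av k (Ur Φ I (TwoD.x1 X)) * mp (γ.comp D1) ε)
    (hE0 : E0 = av k (Ur Φ J (TwoD.x2 X)) * mp (γ.comp D2) ε)
    (hT : T = E1 * MonoidAlgebra.single (γ sw) 1 * E1) :
    E1 * E1 = E1 ∧ E0 * E0 = E0 ∧ E1 * E0 = E0 * E1 ∧ E1 * T = T ∧ T * E1 = T ∧ E0 * T = T ∧
      T * E0 = T ∧
      T * T = ((Nat.card (M →ₗ[K] M) : k)⁻¹ * (w * c)) • T +
        (Nat.card (M →ₗ[K] M) : k)⁻¹ • (E1 * E0) := by
  have hfac : av k (Ur Φ I (TwoD.x2 X)) = ((Nat.card (M →ₗ[K] M) : k)⁻¹ •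
      ∑ y : M →ₗ[K] M, MonoidAlgebra.single (γ (lo y)) 1) * av k (Ur Φ J (TwoD.x2 X)) *
        av k (Ur Φ I (TwoD.x1 X) ⊓ Ur Φ I (TwoD.x2 X)) := by
    refine fac γ h.γ_inj (fun y => h.lo_mem y) h.U0_le inf_le_right
      (inf_le_right.trans h.UB_Nm0) (fun y => ?_) h.prod_dec
    have key : ∀ u ∈ Ur Φ I (TwoD.x2 X),
        ∀ v ∈ Ur Φ J (TwoD.x2 X) ⊔ (Ur Φ I (TwoD.x1 X) ⊓ Ur Φ I (TwoD.x2 X)),
        u * v * u⁻¹ ∈ Ur Φ J (TwoD.x2 X) ⊔ (Ur Φ I (TwoD.x1 X) ⊓ Ur Φ I (TwoD.x2 X)) := by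
      intro u hu v hv
      have hle : Ur Φ J (TwoD.x2 X) ⊔ (Ur Φ I (TwoD.x1 X) ⊓ Ur Φ I (TwoD.x2 X)) ≤
          Ur Φ I (TwoD.x2 X) := sup_le h.U0_le inf_le_right
      have h1 := h.comm_mem hu (hle hv)
      have h2 := Subgroup.mul_mem _ (Subgroup.mem_sup_left (T := Ur Φ I (TwoD.x1 X) ⊓
        Ur Φ I (TwoD.x2 X)) h1) hv
      rwa [show u * v * u⁻¹ * v⁻¹ * v = u * v * u⁻¹ by group] at h2
    rw [mem_Nm]
    intro v
    refine ⟨key _ (h.lo_mem y) v, fun h1 => ?_⟩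
    have h2 := key _ ((Ur Φ I (TwoD.x2 X)).inv_mem (h.lo_mem y)) _ h1
    rwa [show (γ (lo y))⁻¹ * (γ (lo y) * v * (γ (lo y))⁻¹) * (γ (lo y))⁻¹⁻¹ = v by group] at h2
  rw [← h.sw_conj] at hfac
  refine relations γ hε (fun x => h.up_mem x) (fun g => h.D1_Nm g) (fun g => h.D2_Nm g)
    (U0 := Ur Φ J (TwoD.x2 X)) ?_ h.U0_Nm h.U0_comm (fun g => h.D2_Nm0 g)
    (X := Ur Φ I (TwoD.x1 X) ⊓ conjS (γ sw) (Ur Φ I (TwoD.x1 X))) inf_le_left (fun g => ?_) hfac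
    (by rw [hE1]; rfl) hE0 hT
  · rw [h.sw_conj]
    exact h.U0_le
  · rw [h.sw_conj]
    have h1 := h.D2_Nm g
    have h2 := h.D2_Nm2 g
    rw [mem_Nm] at h1 h2 ⊢
    intro v
    rw [Subgroup.mem_inf, Subgroup.mem_inf, h1 v, h2 v]

end Rel

section Inst

variable {K E : Type} [Field K] [AddCommGroup E] [Module K E] {ι : Type} [Fintype ι]
  [DecidableEq ι]

/-- coordinates of two blocks -/
def ee : ((ι → K) × (ι → K)) ≃ₗ[K] (ι ⊕ ι → K) :=
  (LinearEquiv.sumArrowLequivProdArrow ι ι K K).symm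

theorem ee_apply (p : (ι → K) × (ι → K)) : ee p = Sum.elim p.1 p.2 := rfl

/-- conjugation by `ee` -/
def cj : (((ι → K) × (ι → K)) ≃ₗ[K] ((ι → K) × (ι → K))) →* ((ι ⊕ ι → K) ≃ₗ[K] (ι ⊕ ι → K)) where
  toFun g := (ee.symm.trans g).trans ee
  map_one' := by
    apply LinearEquiv.ext
    intro v
    exact ee.apply_symm_apply v
  map_mul' g g' := by
    apply LinearEquiv.ext
    intro v
    change ee (g (g' (ee.symm v))) = ee (g (ee.symm (ee (g' (ee.symm v)))))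
    rw [ee.symm_apply_apply]

theorem cj_ee (g : ((ι → K) × (ι → K)) ≃ₗ[K] ((ι → K) × (ι → K))) (p : (ι → K) × (ι → K)) :
    cj g (ee p) = ee (g p) := by
  change ee (g (ee.symm (ee p))) = _
  rw [ee.symm_apply_apply]

theorem hh_ee (θ : K →+* K) (p q : (ι → K) × (ι → K)) :
    hh θ (ee p) (ee q) = hh θ p.1 q.1 + hh θ p.2 q.2 := by
  unfold hh
  rw [Fintype.sum_sum_type]
  rfl

variable {Φ : HForm K E}

/-- the instance -/
theorem twoD_of (P1 P2 : Hyp Φ ι) (PP : Hyp Φ (ι ⊕ ι)) (hx : ∀ a b, PP.x (ee (a, b)) = P1.x a + P2.x b)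
    (hy : ∀ a b, PP.y (ee (a, b)) = P1.y a + P2.y b) {I : Subgroup (E ≃ₗ[K] E)} (hI : I ≤ IsoG Φ)
    (hg : ∀ g, PP.gl g ∈ I) (ht : P1.tt ∈ I) :
    TwoD Φ I (P1.Fx ⊓ I) (PP.x ∘ₗ ee.toLinearMap) (PP.y ∘ₗ ee.toLinearMap) (PP.gl.comp cj) := by
  have hX : ∀ p, (PP.x ∘ₗ ee.toLinearMap) p = P1.x p.1 + P2.x p.2 := fun p => hx p.1 p.2
  have hY : ∀ p, (PP.y ∘ₗ ee.toLinearMap) p = P1.y p.1 + P2.y p.2 := fun p => hy p.1 p.2
  have hX1 : ∀ a, (PP.x ∘ₗ ee.toLinearMap) (a, 0) = P1.x a := fun a => by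
    rw [hX, map_zero, add_zero]
  have hX2 : ∀ a, (PP.x ∘ₗ ee.toLinearMap) (0, a) = P2.x a := fun a => by
    rw [hX, map_zero, zero_add]
  have hY1 : ∀ a, (PP.y ∘ₗ ee.toLinearMap) (a, 0) = P1.y a := fun a => by
    rw [hY, map_zero, add_zero]
  have hY2 : ∀ a, (PP.y ∘ₗ ee.toLinearMap) (0, a) = P2.y a := fun a => by
    rw [hY, map_zero, zero_add]
  have hXY : ∀ p q, Φ.B ((PP.x ∘ₗ ee.toLinearMap) p) ((PP.y ∘ₗ ee.toLinearMap) q) =
      hh Φ.θ p.1 q.1 + hh Φ.θ p.2 q.2 := fun p q => by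
    rw [LinearMap.comp_apply, LinearMap.comp_apply, LinearEquiv.coe_coe, PP.xy, hh_ee]
  have hXX : ∀ p q, Φ.B ((PP.x ∘ₗ ee.toLinearMap) p) ((PP.x ∘ₗ ee.toLinearMap) q) = 0 :=
    fun p q => PP.xx _ _
  have hε0 : Φ.ε ≠ 0 := fun h0 => by
    have := Φ.εε
    rw [h0, zero_mul] at this
    exact zero_ne_one this
  have hpx : ∀ w, (∀ q, Φ.B w ((PP.y ∘ₗ ee.toLinearMap) q) = 0) → PP.px w = 0 := by
    intro w hw
    apply hh_ext_left (θ := Φ.θ)
    intro b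
    rw [PP.hh_px, hh_zero_left]
    have := hw (ee.symm b)
    rwa [LinearMap.comp_apply, LinearEquiv.coe_coe, ee.apply_symm_apply] at this
  have hpy : ∀ w, (∀ q, Φ.B w ((PP.x ∘ₗ ee.toLinearMap) q) = 0) → PP.py w = 0 := by
    intro w hw
    apply hh_ext_left (θ := Φ.θ)
    intro b
    rw [PP.hh_py, hh_zero_left]
    have := hw (ee.symm b)
    rw [LinearMap.comp_apply, LinearEquiv.coe_coe, ee.apply_symm_apply] at this
    rw [this, mul_zero]
  refine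
    { iso := fun g hg => hI hg
      mem_J := fun g => ?_
      XX := hXX
      YY := fun p q => PP.yy _ _
      X1Y2 := fun a b => by rw [hXY, hh_zero_left, hh_zero_right, add_zero]
      X2Y1 := fun a b => by rw [hXY, hh_zero_left, hh_zero_right, add_zero]
      nX := fun p hp => ?_
      nY := fun q hq => ?_
      dec := fun v => ?_
      γI := fun g => hg _
      γX := fun g p => ?_
      γY := fun g q => ?_
      γC := fun g w h1 h2 => ?_
      tt := ?_ }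
  · rw [Subgroup.mem_inf, Hyp.mem_Fx]
    simp only [hX1, hY1]
    constructor
    · rintro ⟨⟨-, h1, h2⟩, h3⟩
      exact ⟨h3, h1, h2⟩
    · rintro ⟨h3, h1, h2⟩
      exact ⟨⟨hI h3, h1, h2⟩, h3⟩
  · refine Prod.ext ?_ ?_
    · apply hh_ext_left (θ := Φ.θ)
      intro b
      have := hp (b, 0)
      rw [hXY, hh_zero_right, add_zero] at this
      rw [this, Prod.fst_zero, hh_zero_left]
    · apply hh_ext_left (θ := Φ.θ)
      intro b
      have := hp (0, b)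
      rw [hXY, hh_zero_right, zero_add] at this
      rw [this, Prod.snd_zero, hh_zero_left]
  · refine Prod.ext ?_ ?_
    · apply hh_ext_right Φ.θθ
      intro b
      have := hq (b, 0)
      rw [hXY, hh_zero_left, add_zero] at this
      rw [this, Prod.fst_zero, hh_zero_right]
    · apply hh_ext_right Φ.θθ
      intro b
      have := hq (0, b)
      rw [hXY, hh_zero_left, zero_add] at this
      rw [this, Prod.snd_zero, hh_zero_right]
  · refine ⟨ee.symm (PP.px v), ee.symm (PP.py v), PP.pw v, ?_, fun p => ?_, fun q => ?_⟩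
    · rw [LinearMap.comp_apply, LinearMap.comp_apply, LinearEquiv.coe_coe, ee.apply_symm_apply,
        ee.apply_symm_apply]
      conv_lhs => rw [PP.eq_add v]
      abel
    · rw [LinearMap.comp_apply, PP.B_x, PP.py_pw, hh_zero_left, mul_zero]
    · rw [LinearMap.comp_apply, PP.B_y, PP.px_pw, hh_zero_left]
  · rw [MonoidHom.comp_apply, LinearMap.comp_apply, LinearEquiv.coe_coe, PP.gl_x, cj_ee]
    rfl
  · refine ⟨ee.symm (adjL Φ.θ (cj g) (ee q)), ?_⟩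
    rw [MonoidHom.comp_apply, LinearMap.comp_apply, LinearMap.comp_apply, LinearEquiv.coe_coe,
      PP.gl_y, ee.apply_symm_apply]
  · exact PP.gl_w _ (hpx w h2) (hpy w h1)
  · refine ⟨P1.tt, ht, fun a => ?_, fun a => ?_, fun a => ?_, fun a => ?_⟩
    · refine ⟨Φ.θ Φ.ε • a, ?_⟩
      rw [hY1, hX1, P1.tt_y, map_smul, smul_smul, Φ.εε, one_smul]
    · rw [hY1, hX1, P1.tt_x]
    · refine ⟨Φ.ε • a, ?_⟩
      rw [hY1, hX1, P1.tt_y, map_smul]
    · rw [hX2]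
      apply P1.tt_w
      · apply hh_ext_left (θ := Φ.θ)
        intro b
        rw [P1.hh_px, hh_zero_left]
        have := hXY (0, a) (b, 0)
        rw [hh_zero_left, hh_zero_right, add_zero, hX2, hY1] at this
        exact this
      · apply hh_ext_left (θ := Φ.θ)
        intro b
        rw [P1.hh_py, hh_zero_left]
        have := hXX (0, a) (b, 0)
        rw [hX2, hX1] at this
        rw [this, mul_zero]

end Inst

end Vale.Agent.P180.H19.Atwo
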