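import Vale.Agent.P180.H19.AtwoE

/-!
P180, F3 leaf C2 (helper19), part 6: the relations in terms of hyperbolic pairs.
-/

set_option linter.all false

namespace Vale.Agent.P180.H19.Atwo

open Vale.Agent.P180 Vale.Agent.P180.R2.H799 Vale.Agent.P180.R2.H799.BN
open Vale.Agent.P180.R2.H854 (HForm)
open Vale.Agent.P180.H393.Fm

universe u

section Blocks

variable {K E : Type} [Field K] [AddCommGroup E] [Module K E] {ι : Type} [Fintype ι]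
  [DecidableEq ι] {Φ : HForm K E}

theorem eps_ne (Φ : HForm K E) : Φ.ε ≠ 0 := fun h0 => by
  have := Φ.εε
  rw [h0, zero_mul] at this
  exact zero_ne_one this

theorem py_zero_iff (P : Hyp Φ ι) (v : E) : P.py v = 0 ↔ ∀ a, Φ.B v (P.x a) = 0 := by
  constructor
  · intro h a
    rw [P.B_x, h, hh_zero_left, mul_zero]
  · intro h
    apply hh_ext_left (θ := Φ.θ)
    intro b
    rw [P.hh_py, h, mul_zero, hh_zero_left]

variable {P1 P2 : Hyp Φ ι} {PP : Hyp Φ (ι ⊕ ι)}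

theorem px_ee (hy : ∀ a b, PP.y (ee (a, b)) = P1.y a + P2.y b) (v : E) :
    PP.px v = ee (P1.px v, P2.px v) := by
  apply hh_ext_left (θ := Φ.θ)
  intro b
  obtain ⟨q, rfl⟩ := ee.surjective b
  rw [PP.hh_px, hh_ee, P1.hh_px, P2.hh_px, ← Φ.add_right, ← hy]

theorem py_ee (hx : ∀ a b, PP.x (ee (a, b)) = P1.x a + P2.x b) (v : E) :
    PP.py v = ee (P1.py v, P2.py v) := by
  apply hh_ext_left (θ := Φ.θ)
  intro b
  obtain ⟨q, rfl⟩ := ee.surjective b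
  rw [PP.hh_py, hh_ee, P1.hh_py, P2.hh_py, ← mul_add, ← Φ.add_right, ← hx]

theorem cj_inv_ee (g : ((ι → K) × (ι → K)) ≃ₗ[K] ((ι → K) × (ι → K))) (p : (ι → K) × (ι → K)) :
    (cj g)⁻¹ (ee p) = ee (g⁻¹ p) := by
  rw [← map_inv, cj_ee]

theorem adjL_D1 {θ : K →+* K} (hθ : ∀ c, θ (θ c) = c) (g : (ι → K) ≃ₗ[K] (ι → K))
    (q : (ι → K) × (ι → K)) : adjL θ (cj (D1 g)) (ee q) = ee (adjL θ g q.1, q.2) := by
  apply hh_ext_right hθ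
  intro a
  obtain ⟨p, rfl⟩ := ee.surjective a
  rw [hh_adjL' hθ, cj_inv_ee, ← map_inv, hh_ee, hh_ee, D1_apply, hh_adjL' hθ]

theorem adjL_D2 {θ : K →+* K} (hθ : ∀ c, θ (θ c) = c) (g : (ι → K) ≃ₗ[K] (ι → K))
    (q : (ι → K) × (ι → K)) : adjL θ (cj (D2 g)) (ee q) = ee (q.1, adjL θ g q.2) := by
  apply hh_ext_right hθ
  intro a
  obtain ⟨p, rfl⟩ := ee.surjective a
  rw [hh_adjL' hθ, cj_inv_ee, ← map_inv, hh_ee, hh_ee, D2_apply, hh_adjL' hθ]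

theorem gl_D1 (hx : ∀ a b, PP.x (ee (a, b)) = P1.x a + P2.x b)
    (hy : ∀ a b, PP.y (ee (a, b)) = P1.y a + P2.y b) (g : (ι → K) ≃ₗ[K] (ι → K)) :
    PP.gl (cj (D1 g)) = P1.gl g := by
  apply LinearEquiv.ext
  intro v
  rw [PP.gl_apply, P1.gl_apply, px_ee hy, py_ee hx, cj_ee, adjL_D1 Φ.θθ, ← map_sub, ← map_sub, hx,
    hy, D1_apply]
  simp only [Prod.fst_sub, Prod.snd_sub, sub_self, map_zero, add_zero]

theorem gl_D2 (hx : ∀ a b, PP.x (ee (a, b)) = P1.x a + P2.x b)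
    (hy : ∀ a b, PP.y (ee (a, b)) = P1.y a + P2.y b) (g : (ι → K) ≃ₗ[K] (ι → K)) :
    PP.gl (cj (D2 g)) = P2.gl g := by
  apply LinearEquiv.ext
  intro v
  rw [PP.gl_apply, P2.gl_apply, px_ee hy, py_ee hx, cj_ee, adjL_D2 Φ.θθ, ← map_sub, ← map_sub, hx,
    hy, D2_apply]
  simp only [Prod.fst_sub, Prod.snd_sub, sub_self, map_zero, zero_add]

theorem Ur_one (hx : ∀ a b, PP.x (ee (a, b)) = P1.x a + P2.x b) {I : Subgroup (E ≃ₗ[K] E)}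
    (hI : I ≤ IsoG Φ) : Ur Φ I (TwoD.x1 (PP.x ∘ₗ ee.toLinearMap)) = P1.UU ⊓ I := by
  have h1 : ∀ a, TwoD.x1 (PP.x ∘ₗ (ee : ((ι → K) × (ι → K)) ≃ₗ[K] (ι ⊕ ι → K)).toLinearMap) a =
      P1.x a := fun a => by
    rw [TwoD.x1_apply, LinearMap.comp_apply, LinearEquiv.coe_coe, hx, map_zero, add_zero]
  ext u
  rw [Subgroup.mem_inf, Hyp.mem_UU, mem_Ur]
  simp only [h1, py_zero_iff]
  constructor
  · rintro ⟨h1, h2, h3⟩
    exact ⟨⟨hI h1, h2, h3⟩, h1⟩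
  · rintro ⟨⟨-, h2, h3⟩, h1⟩
    exact ⟨h1, h2, h3⟩

theorem Ur_two (hx : ∀ a b, PP.x (ee (a, b)) = P1.x a + P2.x b) {I : Subgroup (E ≃ₗ[K] E)}
    (hI : I ≤ IsoG Φ) : Ur Φ I (TwoD.x2 (PP.x ∘ₗ ee.toLinearMap)) = P2.UU ⊓ I := by
  have h1 : ∀ a, TwoD.x2 (PP.x ∘ₗ (ee : ((ι → K) × (ι → K)) ≃ₗ[K] (ι ⊕ ι → K)).toLinearMap) a =
      P2.x a := fun a => by
    rw [TwoD.x2_apply, LinearMap.comp_apply, LinearEquiv.coe_coe, hx, map_zero, zero_add]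
  ext u
  rw [Subgroup.mem_inf, Hyp.mem_UU, mem_Ur]
  simp only [h1, py_zero_iff]
  constructor
  · rintro ⟨h1, h2, h3⟩
    exact ⟨⟨hI h1, h2, h3⟩, h1⟩
  · rintro ⟨⟨-, h2, h3⟩, h1⟩
    exact ⟨h1, h2, h3⟩

end Blocks

section Final

variable {K E : Type} [Field K] [Finite K] [AddCommGroup E] [Module K E] {ι : Type} [Fintype ι]
  [DecidableEq ι] [Nonempty ι] [Finite (E ≃ₗ[K] E)] [Fintype ((ι → K) ≃ₗ[K] (ι → K))]
  {Φ : HForm K E} {k : Type u} [Field k] [CharZero k]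
  {ε : MonoidAlgebra k ((ι → K) ≃ₗ[K] (ι → K))}
  {φ : MonoidAlgebra k ((ι → K) ≃ₗ[K] (ι → K)) → k} {c w : k}
  {P1 P2 : Hyp Φ ι} {PP : Hyp Φ (ι ⊕ ι)}

/-- **(C2) for two orthogonal hyperbolic pairs** (`P1` = the outer block). -/
theorem hypRel (hx : ∀ a b, PP.x (ee (a, b)) = P1.x a + P2.x b)
    (hy : ∀ a b, PP.y (ee (a, b)) = P1.y a + P2.y b) {I J : Subgroup (E ≃ₗ[K] E)}
    (hI : I ≤ IsoG Φ) (hJ : J = P1.Fx ⊓ I) (hg : ∀ g, PP.gl g ∈ I) (ht : P1.tt ∈ I)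
    (hε : Eps ε φ c w) {E1 E0 T : MonoidAlgebra k (E ≃ₗ[K] E)}
    (hE1 : E1 = av k (P1.UU ⊓ I) * mp P1.gl ε) (hE0 : E0 = av k (P2.UU ⊓ J) * mp P2.gl ε)
    (hT : T = E1 * MonoidAlgebra.single (PP.gl (cj sw)) 1 * E1) :
    E1 * E1 = E1 ∧ E0 * E0 = E0 ∧ E1 * E0 = E0 * E1 ∧ E1 * T = T ∧ T * E1 = T ∧ E0 * T = T ∧
      T * E0 = T ∧
      T * T = ((Nat.card ((ι → K) →ₗ[K] (ι → K)) : k)⁻¹ * (w * c)) • T +
        (Nat.card ((ι → K) →ₗ[K] (ι → K)) : k)⁻¹ • (E1 * E0) := by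
  haveI : Finite (ι → K) := inferInstance
  haveI : Nontrivial (ι → K) := inferInstance
  haveI : Finite ((ι → K) →ₗ[K] (ι → K)) :=
    Finite.of_injective (fun f : (ι → K) →ₗ[K] (ι → K) => (f : (ι → K) → (ι → K)))
      DFunLike.coe_injective
  letI := Fintype.ofFinite ((ι → K) →ₗ[K] (ι → K))
  have h := twoD_of P1 P2 PP hx hy hI hg ht
  have e1 : (PP.gl.comp cj).comp D1 = P1.gl := MonoidHom.ext fun g => gl_D1 hx hy g
  have e2 : (PP.gl.comp cj).comp D2 = P2.gl := MonoidHom.ext fun g => gl_D2 hx hy g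
  refine h.rel hε (E1 := E1) (E0 := E0) (T := T) ?_ ?_ hT
  · rw [hE1, Ur_one hx hI, e1]
  · rw [hE0, Ur_two hx (inf_le_right.trans hI), e2, hJ]

end Final

end Vale.Agent.P180.H19.Atwo
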