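import Vale.Agent.P180.H19.AtwoF
import Vale.Agent.P180.H568.XC
import Vale.Agent.P180.H393.Fr

/-!
P180, F3 leaf C2/C3 (helper19), part 7: the group theory of two neighbouring hyperbolic pairs
(`PD` of helper568).
-/

set_option linter.all false

namespace Vale.Agent.P180.H19.Atwo

open Vale.Agent.P180 Vale.Agent.P180.R2.H799 Vale.Agent.P180.R2.H799.BN
open Vale.Agent.P180.R2.H854 (HForm)
open Vale.Agent.P180.H393.Fm

universe u

section Ad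

variable {K : Type} [Field K] {ι : Type} [Fintype ι] [DecidableEq ι]

/-- the adjoint of a linear map -/
def ad (θ : K →+* K) (f : (ι → K) →ₗ[K] (ι → K)) : (ι → K) →ₗ[K] (ι → K) where
  toFun b := fun i => ∑ j, θ (f (Pi.single i 1) j) * b j
  map_add' b b' := by
    funext i
    simp only [Pi.add_apply, mul_add, Finset.sum_add_distrib]
  map_smul' c b := by
    funext i
    simp only [Pi.smul_apply, smul_eq_mul, RingHom.id_apply, Finset.mul_sum]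
    exact Finset.sum_congr rfl fun j _ => by ring

variable {θ : K →+* K}

theorem hh_ad (hθ : ∀ c, θ (θ c) = c) (f : (ι → K) →ₗ[K] (ι → K)) (a b : ι → K) :
    hh θ a (ad θ f b) = hh θ (f a) b := by
  have h1 : ∀ i, θ (ad θ f b i) = hh θ (f (Pi.single i 1)) b := by
    intro i
    change θ (∑ j, θ (f (Pi.single i 1) j) * b j) = _
    rw [map_sum]
    unfold hh
    refine Finset.sum_congr rfl fun j _ => ?_
    rw [map_mul, hθ]
  have h2 : a = ∑ i, a i • (Pi.single i 1 : ι → K) := by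
    funext j
    rw [Finset.sum_apply]
    simp [Pi.single_apply]
  conv_rhs => rw [h2]
  rw [map_sum]
  have h3 : ∀ (s : Finset ι) (f : ι → (ι → K)), hh θ (∑ i ∈ s, f i) b = ∑ i ∈ s, hh θ (f i) b := by
    intro s f
    classical
    induction s using Finset.induction_on with
    | empty => simp [hh_zero_left]
    | insert i s hi ih => rw [Finset.sum_insert hi, Finset.sum_insert hi, hh_add_left, ih]
  rw [h3]
  conv_lhs => unfold hh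
  refine Finset.sum_congr rfl fun i _ => ?_
  rw [h1, map_smul, hh_smul_left]

theorem hh_ad' (hθ : ∀ c, θ (θ c) = c) (f : (ι → K) →ₗ[K] (ι → K)) (a b : ι → K) :
    hh θ (ad θ f a) b = hh θ a (f b) := by
  rw [hh_symm hθ b (ad θ f a), hh_ad hθ, ← hh_symm hθ (f b) a]

theorem ad_ad (hθ : ∀ c, θ (θ c) = c) (f : (ι → K) →ₗ[K] (ι → K)) : ad θ (ad θ f) = f := by
  apply LinearMap.ext
  intro b
  apply hh_ext_right hθ
  intro a
  rw [hh_ad hθ, hh_ad' hθ]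

theorem ad_neg (f : (ι → K) →ₗ[K] (ι → K)) : ad θ (-f) = -ad θ f := by
  apply LinearMap.ext
  intro b
  funext i
  change ∑ j, θ (-(f (Pi.single i 1)) j) * b j = -∑ j, θ (f (Pi.single i 1) j) * b j
  rw [← Finset.sum_neg_distrib]
  refine Finset.sum_congr rfl fun j _ => ?_
  rw [map_neg, neg_mul]

theorem adjL_up (hθ : ∀ c, θ (θ c) = c) (x : (ι → K) →ₗ[K] (ι → K))
    (q : (ι → K) × (ι → K)) : adjL θ (cj (up x)) (ee q) = ee (q.1, q.2 - ad θ x q.1) := by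
  have h1 : (up x : ((ι → K) × (ι → K)) ≃ₗ[K] ((ι → K) × (ι → K)))⁻¹ = up (-x) := by
    apply inv_eq_of_mul_eq_one_right
    apply LinearEquiv.ext
    intro v
    refine Prod.ext ?_ rfl
    change v.1 + (-x) v.2 + x v.2 = v.1
    rw [LinearMap.neg_apply, neg_add_cancel_right]
  apply hh_ext_right hθ
  intro a
  obtain ⟨p, rfl⟩ := ee.surjective a
  rw [hh_adjL' hθ, cj_inv_ee, h1, hh_ee, hh_ee, up_apply, LinearMap.neg_apply]
  simp only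
  rw [hh_sub_right, hh_ad hθ, ← sub_eq_add_neg, hh_sub_left]
  ring

theorem adjL_lo (hθ : ∀ c, θ (θ c) = c) (y : (ι → K) →ₗ[K] (ι → K))
    (q : (ι → K) × (ι → K)) : adjL θ (cj (lo y)) (ee q) = ee (q.1 - ad θ y q.2, q.2) := by
  have h1 : (lo y : ((ι → K) × (ι → K)) ≃ₗ[K] ((ι → K) × (ι → K)))⁻¹ = lo (-y) := by
    apply inv_eq_of_mul_eq_one_right
    apply LinearEquiv.ext
    intro v
    refine Prod.ext rfl ?_
    change v.2 + (-y) v.1 + y v.1 = v.2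
    rw [LinearMap.neg_apply, neg_add_cancel_right]
  apply hh_ext_right hθ
  intro a
  obtain ⟨p, rfl⟩ := ee.surjective a
  rw [hh_adjL' hθ, cj_inv_ee, h1, hh_ee, hh_ee, lo_apply, LinearMap.neg_apply]
  simp only
  rw [hh_sub_right, hh_ad hθ, ← sub_eq_add_neg, hh_sub_left]
  ring

theorem adjL_sw (hθ : ∀ c, θ (θ c) = c) (q : (ι → K) × (ι → K)) :
    adjL θ (cj sw) (ee q) = ee (q.2, q.1) := by
  have h1 : (sw : ((ι → K) × (ι → K)) ≃ₗ[K] ((ι → K) × (ι → K)))⁻¹ = sw :=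
    inv_eq_of_mul_eq_one_right sw_mul_sw
  apply hh_ext_right hθ
  intro a
  obtain ⟨p, rfl⟩ := ee.surjective a
  rw [hh_adjL' hθ, cj_inv_ee, h1, hh_ee, hh_ee, sw_apply, add_comm]

end Ad

section Tab

variable {K E : Type} [Field K] [AddCommGroup E] [Module K E] {ι : Type} [Fintype ι]
  [DecidableEq ι] {Φ : HForm K E}

/-- two orthogonal pairs and their sum -/
structure Pr (P1 P2 : Hyp Φ ι) (PP : Hyp Φ (ι ⊕ ι)) : Prop where
  hx : ∀ a b, PP.x (ee (a, b)) = P1.x a + P2.x b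
  hy : ∀ a b, PP.y (ee (a, b)) = P1.y a + P2.y b

namespace Pr

variable {P1 P2 : Hyp Φ ι} {PP : Hyp Φ (ι ⊕ ι)} (h : Pr P1 P2 PP)

include h

theorem hx1 (a : ι → K) : P1.x a = PP.x (ee (a, 0)) := by rw [h.hx, map_zero, add_zero]
theorem hx2 (a : ι → K) : P2.x a = PP.x (ee (0, a)) := by rw [h.hx, map_zero, zero_add]
theorem hy1 (a : ι → K) : P1.y a = PP.y (ee (a, 0)) := by rw [h.hy, map_zero, add_zero]
theorem hy2 (a : ι → K) : P2.y a = PP.y (ee (0, a)) := by rw [h.hy, map_zero, zero_add]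

theorem up_x1 (x : (ι → K) →ₗ[K] (ι → K)) (a : ι → K) : PP.gl (cj (up x)) (P1.x a) = P1.x a := by
  rw [h.hx1, PP.gl_x, cj_ee, up_apply, map_zero, add_zero]

theorem up_x2 (x : (ι → K) →ₗ[K] (ι → K)) (a : ι → K) :
    PP.gl (cj (up x)) (P2.x a) = P2.x a + P1.x (x a) := by
  rw [h.hx2, PP.gl_x, cj_ee, up_apply, h.hx, h.hx, zero_add, map_zero, zero_add, add_comm]

theorem up_y1 (x : (ι → K) →ₗ[K] (ι → K)) (a : ι → K) :
    PP.gl (cj (up x)) (P1.y a) = P1.y a - P2.y (ad Φ.θ x a) := by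
  rw [h.hy1, PP.gl_y, adjL_up Φ.θθ, h.hy, h.hy, map_zero, add_zero, zero_sub, map_neg,
    sub_eq_add_neg]

theorem up_y2 (x : (ι → K) →ₗ[K] (ι → K)) (a : ι → K) : PP.gl (cj (up x)) (P2.y a) = P2.y a := by
  rw [h.hy2, PP.gl_y, adjL_up Φ.θθ, map_zero, sub_zero]

theorem lo_x1 (y : (ι → K) →ₗ[K] (ι → K)) (a : ι → K) :
    PP.gl (cj (lo y)) (P1.x a) = P1.x a + P2.x (y a) := by
  rw [h.hx1, PP.gl_x, cj_ee, lo_apply, h.hx, h.hx, zero_add, map_zero, add_zero]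

theorem lo_x2 (y : (ι → K) →ₗ[K] (ι → K)) (a : ι → K) : PP.gl (cj (lo y)) (P2.x a) = P2.x a := by
  rw [h.hx2, PP.gl_x, cj_ee, lo_apply, map_zero, add_zero]

theorem lo_y1 (y : (ι → K) →ₗ[K] (ι → K)) (a : ι → K) : PP.gl (cj (lo y)) (P1.y a) = P1.y a := by
  rw [h.hy1, PP.gl_y, adjL_lo Φ.θθ, map_zero, sub_zero]

theorem lo_y2 (y : (ι → K) →ₗ[K] (ι → K)) (a : ι → K) :
    PP.gl (cj (lo y)) (P2.y a) = P2.y a - P1.y (ad Φ.θ y a) := by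
  rw [h.hy2, PP.gl_y, adjL_lo Φ.θθ, h.hy, h.hy, map_zero, zero_add, zero_sub, map_neg, add_comm,
    sub_eq_add_neg]

theorem sw_x1 (a : ι → K) : PP.gl (cj sw) (P1.x a) = P2.x a := by
  rw [h.hx1, PP.gl_x, cj_ee, sw_apply, h.hx2]

theorem sw_x2 (a : ι → K) : PP.gl (cj sw) (P2.x a) = P1.x a := by
  rw [h.hx2, PP.gl_x, cj_ee, sw_apply, h.hx1]

theorem sw_y1 (a : ι → K) : PP.gl (cj sw) (P1.y a) = P2.y a := by
  rw [h.hy1, PP.gl_y, adjL_sw Φ.θθ, h.hy2]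

theorem sw_y2 (a : ι → K) : PP.gl (cj sw) (P2.y a) = P1.y a := by
  rw [h.hy2, PP.gl_y, adjL_sw Φ.θθ, h.hy1]

theorem px_eq (v : E) : PP.px v = ee (P1.px v, P2.px v) := px_ee h.hy v
theorem py_eq (v : E) : PP.py v = ee (P1.py v, P2.py v) := py_ee h.hx v

theorem gl_w (g : (ι ⊕ ι → K) ≃ₗ[K] (ι ⊕ ι → K)) {w : E} (h1 : P1.px w = 0) (h2 : P1.py w = 0)
    (h3 : P2.px w = 0) (h4 : P2.py w = 0) : PP.gl g w = w := by
  have e : ee ((0 : ι → K), (0 : ι → K)) = (0 : ι ⊕ ι → K) := map_zero ee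
  apply PP.gl_w
  · rw [h.px_eq, h1, h3, e]
  · rw [h.py_eq, h2, h4, e]

/-- coordinates of the pairs -/
theorem cross (a : ι → K) : P1.px (P2.x a) = 0 ∧ P1.py (P2.x a) = 0 ∧ P1.px (P2.y a) = 0 ∧
    P1.py (P2.y a) = 0 ∧ P2.px (P1.x a) = 0 ∧ P2.py (P1.x a) = 0 ∧ P2.px (P1.y a) = 0 ∧
    P2.py (P1.y a) = 0 := by
  have e : ∀ {p q r s : ι → K}, (ee (p, q) : ι ⊕ ι → K) = ee (r, s) → p = r ∧ q = s :=
    fun h => Prod.mk.inj (ee.injective h)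
  have e0 : (0 : ι ⊕ ι → K) = ee ((0 : ι → K), (0 : ι → K)) := (map_zero ee).symm
  have h1 := h.px_eq (P2.x a)
  have h2 := h.py_eq (P2.x a)
  have h3 := h.px_eq (P2.y a)
  have h4 := h.py_eq (P2.y a)
  have h5 := h.px_eq (P1.x a)
  have h6 := h.py_eq (P1.x a)
  have h7 := h.px_eq (P1.y a)
  have h8 := h.py_eq (P1.y a)
  nth_rewrite 1 [h.hx2] at h1
  nth_rewrite 1 [h.hx2] at h2
  nth_rewrite 1 [h.hy2] at h3
  nth_rewrite 1 [h.hy2] at h4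
  nth_rewrite 1 [h.hx1] at h5
  nth_rewrite 1 [h.hx1] at h6
  nth_rewrite 1 [h.hy1] at h7
  nth_rewrite 1 [h.hy1] at h8
  rw [PP.px_x] at h1
  rw [PP.py_x, e0] at h2
  rw [PP.px_y, e0] at h3
  rw [PP.py_y] at h4
  rw [PP.px_x] at h5
  rw [PP.py_x, e0] at h6
  rw [PP.px_y, e0] at h7
  rw [PP.py_y] at h8
  exact ⟨(e h1).1.symm, (e h2).1.symm, (e h3).1.symm, (e h4).1.symm, (e h5).2.symm,
    (e h6).2.symm, (e h7).2.symm, (e h8).2.symm⟩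

theorem t_x1 (a : ι → K) : P2.tt (P1.x a) = P1.x a :=
  P2.tt_w (h.cross a).2.2.2.2.1 (h.cross a).2.2.2.2.2.1

theorem t_y1 (a : ι → K) : P2.tt (P1.y a) = P1.y a :=
  P2.tt_w (h.cross a).2.2.2.2.2.2.1 (h.cross a).2.2.2.2.2.2.2

theorem ti_x1 (a : ι → K) : P2.tt⁻¹ (P1.x a) = P1.x a := by
  conv_lhs => rw [← h.t_x1 a, ap_inv]

theorem ti_y1 (a : ι → K) : P2.tt⁻¹ (P1.y a) = P1.y a := by
  conv_lhs => rw [← h.t_y1 a, ap_inv]

omit h in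
theorem ti_y2 (a : ι → K) : P2.tt⁻¹ (P2.y a) = P2.x a := by
  conv_lhs => rw [← P2.tt_x a, ap_inv]

omit h in
theorem ti_x2 (a : ι → K) : P2.tt⁻¹ (P2.x a) = Φ.θ Φ.ε • P2.y a := by
  have h1 : P2.tt (Φ.θ Φ.ε • P2.y a) = P2.x a := by
    rw [map_smul, P2.tt_y, smul_smul, mul_comm, Φ.εε, one_smul]
  conv_lhs => rw [← h1, ap_inv]

omit h in
theorem ti_w {w : E} (h1 : P2.px w = 0) (h2 : P2.py w = 0) : P2.tt⁻¹ w = w := by
  conv_lhs => rw [← P2.tt_w h1 h2, ap_inv]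

/-- two equivalences which agree on the five pieces -/
theorem ext5 {g g' : E ≃ₗ[K] E} (h1 : ∀ a, g (P1.x a) = g' (P1.x a))
    (h2 : ∀ a, g (P2.x a) = g' (P2.x a)) (h3 : ∀ a, g (P1.y a) = g' (P1.y a))
    (h4 : ∀ a, g (P2.y a) = g' (P2.y a))
    (h5 : ∀ w, P1.px w = 0 → P1.py w = 0 → P2.px w = 0 → P2.py w = 0 → g w = g' w) : g = g' := by
  refine Frame.ext_hyp PP (fun a => ?_) (fun a => ?_) fun v hv1 hv2 => ?_
  · obtain ⟨⟨p, q⟩, rfl⟩ := ee.surjective a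
    rw [h.hx, map_add, map_add, h1, h2]
  · obtain ⟨⟨p, q⟩, rfl⟩ := ee.surjective a
    rw [h.hy, map_add, map_add, h3, h4]
  · have e0 : (0 : ι ⊕ ι → K) = ee ((0 : ι → K), (0 : ι → K)) := (map_zero ee).symm
    rw [h.px_eq, e0] at hv1
    rw [h.py_eq, e0] at hv2
    have e1 := Prod.mk.inj (ee.injective hv1)
    have e2 := Prod.mk.inj (ee.injective hv2)
    exact h5 v e1.1 e2.1 e1.2 e2.2

/-- the general element `γ(up x)` on vectors without `x₂`-coordinate -/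
theorem up_sub (x : (ι → K) →ₗ[K] (ι → K)) {v : E} (hv : P2.px v = 0) :
    PP.gl (cj (up x)) v = v - P2.y (ad Φ.θ x (P1.py v)) := by
  rw [PP.gl_apply, h.px_eq, h.py_eq, hv, cj_ee, up_apply, adjL_up Φ.θθ, map_zero, add_zero,
    sub_self, map_zero, add_zero, ← map_sub]
  have e : ((P1.py v, P2.py v - ad Φ.θ x (P1.py v)) : (ι → K) × (ι → K)) - (P1.py v, P2.py v) =
      (0, -(ad Φ.θ x (P1.py v))) := by
    refine Prod.ext (sub_self _) ?_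
    change P2.py v - ad Φ.θ x (P1.py v) - P2.py v = _
    rw [sub_sub_cancel_left]
  rw [e, h.hy, map_zero, zero_add, map_neg, ← sub_eq_add_neg]

/-! ### the elements `t⁻¹ γ(up x) t` -/

/-- `t⁻¹ γ(up x) t` -/
def uu (P2 : Hyp Φ ι) (PP : Hyp Φ (ι ⊕ ι)) (x : (ι → K) →ₗ[K] (ι → K)) : E ≃ₗ[K] E :=
  P2.tt⁻¹ * PP.gl (cj (up x)) * P2.tt

theorem uu_sub (x : (ι → K) →ₗ[K] (ι → K)) {v : E} (hv : P2.py v = 0) :
    uu P2 PP x v = v - P2.x (ad Φ.θ x (P1.py v)) := by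
  have h1 : P2.px (P2.tt v) = 0 := by rw [P2.px_tt, hv, smul_zero]
  have h2 : P1.py (P2.tt v) = P1.py v := by
    rw [P2.tt_apply, map_add, map_add, (h.cross _).2.1, (h.cross _).2.2.2.1, add_zero, add_zero]
  rw [uu, LinearEquiv.mul_apply, LinearEquiv.mul_apply, h.up_sub x h1, h2, map_sub, ap_inv, ti_y2]

theorem uu_fix (x : (ι → K) →ₗ[K] (ι → K)) {v : E} (h1 : P1.py v = 0) (h2 : P2.py v = 0) :
    uu P2 PP x v = v := by
  rw [h.uu_sub x h2, h1, map_zero, map_zero, sub_zero]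

theorem uu_y1 (x : (ι → K) →ₗ[K] (ι → K)) (a : ι → K) :
    uu P2 PP x (P1.y a) = P1.y a - P2.x (ad Φ.θ x a) := by
  rw [h.uu_sub x (h.cross a).2.2.2.2.2.2.2, P1.py_y]

theorem uu_x1 (x : (ι → K) →ₗ[K] (ι → K)) (a : ι → K) : uu P2 PP x (P1.x a) = P1.x a :=
  h.uu_fix x (P1.py_x a) (h.cross a).2.2.2.2.2.1

theorem uu_x2 (x : (ι → K) →ₗ[K] (ι → K)) (a : ι → K) : uu P2 PP x (P2.x a) = P2.x a :=
  h.uu_fix x (h.cross a).2.1 (P2.py_x a)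

theorem uu_y2 (x : (ι → K) →ₗ[K] (ι → K)) (a : ι → K) :
    uu P2 PP x (P2.y a) = P2.y a + Φ.ε • P1.x (x a) := by
  rw [uu, LinearEquiv.mul_apply, LinearEquiv.mul_apply, P2.tt_y, map_smul, h.up_x2, map_smul,
    map_add, ti_x2, h.ti_x1, smul_add, smul_smul, Φ.εε, one_smul]

/-! ### the package -/

variable {I J : Subgroup (E ≃ₗ[K] E)}

theorem uu_mem (hI : I ≤ IsoG Φ) (hg : ∀ g, PP.gl g ∈ I) (ht : P2.tt ∈ I)
    (x : (ι → K) →ₗ[K] (ι → K)) : uu P2 PP x ∈ P2.UU ⊓ I := by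
  have h1 : uu P2 PP x ∈ I := I.mul_mem (I.mul_mem (I.inv_mem ht) (hg _)) ht
  refine ⟨⟨hI h1, fun a => h.uu_x2 x a, fun v hv => ⟨-(ad Φ.θ x (P1.py v)), ?_⟩⟩, h1⟩
  rw [h.uu_sub x hv, map_neg]
  abel

theorem tup_mem (hI : I ≤ IsoG Φ) (hg : ∀ g, PP.gl g ∈ I) (ht : P2.tt ∈ I)
    (x : (ι → K) →ₗ[K] (ι → K)) : P2.tt * PP.gl (cj (up x)) * P2.tt⁻¹ ∈ P2.UU ⊓ I := by
  have h1 : P2.tt * PP.gl (cj (up x)) * P2.tt⁻¹ ∈ I :=
    I.mul_mem (I.mul_mem ht (hg _)) (I.inv_mem ht)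
  refine ⟨⟨hI h1, fun a => ?_, fun v hv => ?_⟩, h1⟩
  · rw [LinearEquiv.mul_apply, LinearEquiv.mul_apply, ti_x2, map_smul, h.up_y2, map_smul, P2.tt_y,
      smul_smul, mul_comm, Φ.εε, one_smul]
  · have h2 : P2.px (P2.tt⁻¹ v) = 0 := by
      rw [← P2.py_tt, inv_ap, hv]
    refine ⟨-(Φ.ε • ad Φ.θ x (P1.py (P2.tt⁻¹ v))), ?_⟩
    rw [LinearEquiv.mul_apply, LinearEquiv.mul_apply, h.up_sub x h2, map_sub, inv_ap, P2.tt_y,
      map_neg, map_smul]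
    abel

theorem uu_comm {v : E ≃ₗ[K] E} (hv : v ∈ P2.UU) (hv1 : v ∈ P1.Fx)
    (x : (ι → K) →ₗ[K] (ι → K)) : uu P2 PP x * v = v * uu P2 PP x := by
  obtain ⟨hI, hx2, hu⟩ := hv
  obtain ⟨-, hx1, hy1⟩ := hv1
  refine h.ext5 (fun a => ?_) (fun a => ?_) (fun a => ?_) (fun a => ?_) fun w w1 w2 w3 w4 => ?_
  · rw [LinearEquiv.mul_apply, LinearEquiv.mul_apply, hx1, h.uu_x1, hx1]
  · rw [LinearEquiv.mul_apply, LinearEquiv.mul_apply, hx2, h.uu_x2, hx2]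
  · rw [LinearEquiv.mul_apply, LinearEquiv.mul_apply, hy1, h.uu_y1, map_sub, hy1, hx2]
  · have h1 : uu P2 PP x (v (P2.y a) - P2.y a) = v (P2.y a) - P2.y a := by
      apply h.uu_fix
      · rw [map_sub, P1.py_of_fix hI hx1, sub_self]
      · rw [map_sub, P2.py_of_fix hI hx2, sub_self]
    rw [map_sub] at h1
    rw [LinearEquiv.mul_apply, LinearEquiv.mul_apply, sub_eq_iff_eq_add.mp h1, h.uu_y2, map_add,
      map_smul, hx1]
    abel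
  · obtain ⟨a, ha⟩ := hu w w4
    rw [LinearEquiv.mul_apply, LinearEquiv.mul_apply, sub_eq_iff_eq_add.mp ha, map_add, h.uu_x2,
      h.uu_fix x w2 w4, sub_eq_iff_eq_add.mp ha]

omit h in
/-- the inverse adjoint as an equivalence -/
def adE (θ : K →+* K) (hθ : ∀ c, θ (θ c) = c) (g : (ι → K) ≃ₗ[K] (ι → K)) :
    (ι → K) ≃ₗ[K] (ι → K) :=
  LinearEquiv.ofLinear (adjL θ g) (adjL θ g⁻¹)
    (by
      apply LinearMap.ext
      intro v
      change adjL θ g (adjL θ g⁻¹ v) = v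
      rw [← adjL_mul hθ, mul_inv_cancel, adjL_one hθ])
    (by
      apply LinearMap.ext
      intro v
      change adjL θ g⁻¹ (adjL θ g v) = v
      rw [← adjL_mul hθ, inv_mul_cancel, adjL_one hθ])

theorem uu_D2 (g : (ι → K) ≃ₗ[K] (ι → K)) (x : (ι → K) →ₗ[K] (ι → K)) :
    ∃ x', PP.gl (cj (D2 g)) * uu P2 PP x * (PP.gl (cj (D2 g)))⁻¹ = uu P2 PP x' := by
  have hg2 : PP.gl (cj (D2 g)) = P2.gl g := gl_D2 h.hx h.hy g
  refine ⟨x ∘ₗ adjL Φ.θ g⁻¹, ?_⟩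
  have e1 : ∀ a, ad Φ.θ (x ∘ₗ adjL Φ.θ g⁻¹) a = g (ad Φ.θ x a) := by
    intro a
    apply hh_ext_right Φ.θθ
    intro b
    rw [hh_ad Φ.θθ, LinearMap.comp_apply, ← hh_ad Φ.θθ x]
    have h1 := hh_adjL' Φ.θθ g⁻¹ (ad Φ.θ x a) b
    rw [inv_inv] at h1
    rw [hh_symm Φ.θθ (ad Φ.θ x a) (adjL Φ.θ g⁻¹ b), h1, ← hh_symm Φ.θθ]
  rw [mul_inv_eq_iff_eq_mul, hg2]
  refine h.ext5 (fun a => ?_) (fun a => ?_) (fun a => ?_) (fun a => ?_) fun w w1 w2 w3 w4 => ?_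
  · rw [LinearEquiv.mul_apply, LinearEquiv.mul_apply, h.uu_x1,
      P2.gl_w g (h.cross a).2.2.2.2.1 (h.cross a).2.2.2.2.2.1, h.uu_x1]
  · rw [LinearEquiv.mul_apply, LinearEquiv.mul_apply, h.uu_x2, P2.gl_x, h.uu_x2]
  · rw [LinearEquiv.mul_apply, LinearEquiv.mul_apply, h.uu_y1, map_sub, P2.gl_x,
      P2.gl_w g (h.cross a).2.2.2.2.2.2.1 (h.cross a).2.2.2.2.2.2.2, h.uu_y1, e1]
  · rw [LinearEquiv.mul_apply, LinearEquiv.mul_apply, h.uu_y2, map_add, map_smul, P2.gl_y,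
      P2.gl_w g (h.cross _).2.2.2.2.1 (h.cross _).2.2.2.2.2.1, h.uu_y2, LinearMap.comp_apply,
      ← adjL_mul Φ.θθ, inv_mul_cancel, adjL_one Φ.θθ]
  · rw [LinearEquiv.mul_apply, LinearEquiv.mul_apply, h.uu_fix x w2 w4, P2.gl_w g w3 w4,
      h.uu_fix _ w2 w4]

theorem uu_fac (hI : I ≤ IsoG Φ) (hg : ∀ g, PP.gl g ∈ I) (ht : P2.tt ∈ I)
    (hlo : ∀ y, PP.gl (cj (lo y)) ∈ P2.UU ⊓ I) {u : E ≃ₗ[K] E} (hu : u ∈ P2.UU ⊓ I) :
    ∃ y, ∃ v ∈ P2.UU ⊓ (P1.Fx ⊓ I), ∃ x, u = PP.gl (cj (lo y)) * v * uu P2 PP x := by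
  let y : (ι → K) →ₗ[K] (ι → K) := P2.px ∘ₗ (u.toLinearMap ∘ₗ P1.x - P1.x)
  let z : (ι → K) →ₗ[K] (ι → K) := P2.px ∘ₗ (u.toLinearMap ∘ₗ P1.y - P1.y)
  have hy : ∀ a, u (P1.x a) = P1.x a + P2.x (y a) := fun a => by
    obtain ⟨b, hb⟩ := hu.1.2.2 (P1.x a) (h.cross a).2.2.2.2.2.1
    have h1 : y a = b := by
      change P2.px (u (P1.x a) - P1.x a) = b
      rw [hb, P2.px_x]
    rw [h1, ← hb, add_sub_cancel]
  have hz : ∀ a, u (P1.y a) = P1.y a + P2.x (z a) := fun a => by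
    obtain ⟨b, hb⟩ := hu.1.2.2 (P1.y a) (h.cross a).2.2.2.2.2.2.2
    have h1 : z a = b := by
      change P2.px (u (P1.y a) - P1.y a) = b
      rw [hb, P2.px_x]
    rw [h1, ← hb, add_sub_cancel]
  have hux : ∀ a, u (P2.x a) = P2.x a := hu.1.2.1
  let x : (ι → K) →ₗ[K] (ι → K) := ad Φ.θ (-z)
  have hx : ad Φ.θ x = -z := ad_ad Φ.θθ _
  have hxm := h.uu_mem hI hg ht x
  have hv : (PP.gl (cj (lo y)))⁻¹ * u * (uu P2 PP x)⁻¹ ∈ P2.UU ⊓ I :=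
    (P2.UU ⊓ I).mul_mem ((P2.UU ⊓ I).mul_mem ((P2.UU ⊓ I).inv_mem (hlo y)) hu)
      ((P2.UU ⊓ I).inv_mem hxm)
  refine ⟨y, (PP.gl (cj (lo y)))⁻¹ * u * (uu P2 PP x)⁻¹, ⟨hv.1, ⟨hI hv.2, fun a => ?_,
    fun a => ?_⟩, hv.2⟩, x, ?_⟩
  · have e1 : (uu P2 PP x)⁻¹ (P1.x a) = P1.x a := by
      conv_lhs => rw [← h.uu_x1 x a, ap_inv]
    have e2 : (PP.gl (cj (lo y)))⁻¹ (P1.x a + P2.x (y a)) = P1.x a := by
      rw [← h.lo_x1, ap_inv]
    rw [LinearEquiv.mul_apply, LinearEquiv.mul_apply, e1, hy, e2]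
  · have e1 : (uu P2 PP x)⁻¹ (P1.y a) = P1.y a - P2.x (z a) := by
      have e3 : uu P2 PP x (P1.y a - P2.x (z a)) = P1.y a := by
        rw [map_sub, h.uu_y1, h.uu_x2, hx, LinearMap.neg_apply, map_neg]
        abel
      conv_lhs => rw [← e3, ap_inv]
    have e2 : (PP.gl (cj (lo y)))⁻¹ (P1.y a) = P1.y a := by
      conv_lhs => rw [← h.lo_y1 y a, ap_inv]
    rw [LinearEquiv.mul_apply, LinearEquiv.mul_apply, e1, map_sub, hz, hux, add_sub_cancel_right,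
      e2]
  · rw [mul_assoc, mul_assoc, inv_mul_cancel, mul_one, mul_inv_cancel_left]

theorem t_lo (y : (ι → K) →ₗ[K] (ι → K)) :
    PP.gl (cj sw) * (P2.tt * PP.gl (cj (lo y)) * P2.tt⁻¹) * (PP.gl (cj sw))⁻¹ =
      P2.tt⁻¹ * PP.gl (cj (lo (-(ad Φ.θ y)))) * P2.tt := by
  have hsw : (PP.gl (cj (sw : ((ι → K) × (ι → K)) ≃ₗ[K] ((ι → K) × (ι → K)))))⁻¹ =
      PP.gl (cj sw) := by
    rw [← map_inv, ← map_inv, inv_eq_of_mul_eq_one_right sw_mul_sw]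
  rw [hsw]
  refine h.ext5 (fun a => ?_) (fun a => ?_) (fun a => ?_) (fun a => ?_) fun w w1 w2 w3 w4 => ?_
  · simp only [LinearEquiv.mul_apply]
    rw [h.sw_x1, ti_x2, map_smul, h.lo_y2, map_smul, map_sub, P2.tt_y, h.t_y1, map_smul, map_sub,
      map_smul, h.sw_x2, h.sw_y1, h.t_x1, h.lo_x1, map_add, h.ti_x1, ti_x2, smul_sub, smul_smul,
      mul_comm, Φ.εε, one_smul, LinearMap.neg_apply, map_neg, smul_neg, sub_eq_add_neg]
  · simp only [LinearEquiv.mul_apply]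
    rw [h.sw_x2, h.ti_x1, h.lo_x1, map_add, h.t_x1, P2.tt_x, map_add, h.sw_x1, h.sw_y2, P2.tt_x,
      h.lo_y2, map_sub, ti_y2, h.ti_y1, ad_neg, ad_ad Φ.θθ, LinearMap.neg_apply, map_neg, sub_neg_eq_add]
  · simp only [LinearEquiv.mul_apply]
    rw [h.sw_y1, ti_y2, h.lo_x2, P2.tt_x, h.sw_y2, h.t_y1, h.lo_y1, h.ti_y1]
  · simp only [LinearEquiv.mul_apply]
    rw [h.sw_y2, h.ti_y1, h.lo_y1, h.t_y1, h.sw_y1, P2.tt_y, map_smul, h.lo_x2, map_smul, ti_x2,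
      smul_smul, Φ.εε, one_smul]
  · simp only [LinearEquiv.mul_apply]
    rw [h.gl_w _ w1 w2 w3 w4, ti_w w3 w4, h.gl_w _ w1 w2 w3 w4, P2.tt_w w3 w4,
      h.gl_w _ w1 w2 w3 w4, h.gl_w _ w1 w2 w3 w4, ti_w w3 w4]

end Pr

/-- **The group theory of two neighbouring pairs** (`P1` = outer, `P2` = inner). -/
theorem pd_of [Finite (E ≃ₗ[K] E)] {P1 P2 : Hyp Φ ι} {PP : Hyp Φ (ι ⊕ ι)} (h : Pr P1 P2 PP)
    {I J : Subgroup (E ≃ₗ[K] E)} (hI : I ≤ IsoG Φ) (hJ : J = P1.Fx ⊓ I) (hg : ∀ g, PP.gl g ∈ I)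
    (ht1 : P1.tt ∈ I) (ht2 : P2.tt ∈ I) :
    H568.XT.PD (F := K) (A := ι → K) (PP.gl.comp cj) (P1.UU ⊓ I) (P2.UU ⊓ J) P2.tt := by
  have hD := twoD_of P1 P2 PP h.hx h.hy hI hg ht1
  have e1 := Ur_one (P1 := P1) (P2 := P2) (PP := PP) h.hx hI
  have e2 := Ur_two (P1 := P1) (P2 := P2) (PP := PP) h.hx hI
  have e3 := Ur_two (P1 := P1) (P2 := P2) (PP := PP) h.hx
    (inf_le_right.trans hI : P1.Fx ⊓ I ≤ IsoG Φ)
  have hsw : conjS ((PP.gl.comp cj) sw) (P1.UU ⊓ I) = P2.UU ⊓ I := by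
    rw [← e1, ← e2]
    exact hD.sw_conj
  have hsi : ((PP.gl.comp cj) (sw : ((ι → K) × (ι → K)) ≃ₗ[K] ((ι → K) × (ι → K))))⁻¹ =
      (PP.gl.comp cj) sw := H568.XT.sw_inv _
  subst hJ
  refine
    { up_mem := fun x => by
        have := hD.up_mem x
        rwa [e1] at this
      d1 := fun g => by
        have := hD.D1_Nm g
        rwa [e1] at this
      d2 := fun g => by
        have := hD.D2_Nm g
        rwa [e1] at this
      U0_le := by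
        rw [hsw]
        exact inf_le_inf_left _ inf_le_right
      U0_Nm := by
        have := hD.U0_Nm
        rwa [e1, e3] at this
      U0_d1 := by
        have := hD.U0_comm
        rwa [e3] at this
      d2_U0 := fun g => by
        have := hD.D2_Nm0 g
        rwa [e3] at this
      t_Nm := ?_
      t_d1 := fun g => ?_
      x_mem := fun x => by
        rw [hsw]
        exact h.uu_mem hI hg ht2 x
      x_U0 := fun x v hv => h.uu_comm hv.1 hv.2.1 x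
      x_d2 := fun g x => h.uu_D2 g x
      fac := fun u hu => by
        rw [hsw] at hu
        refine h.uu_fac hI hg ht2 (fun y => ?_) hu
        have := hD.lo_mem y
        rwa [e2] at this
      t_up := fun y => ?_
      t_lo := fun y => ⟨_, h.t_lo y⟩ }
  · rw [← e1]
    refine Ur_Nm' (fun g hg' => hI hg') ht2 fun a => ?_
    rw [TwoD.x1_apply, LinearMap.comp_apply, LinearEquiv.coe_coe, ← h.hx1]
    exact h.t_x1 a
  · have e4 : (PP.gl.comp cj) (D1 g) = P1.gl g := gl_D1 h.hx h.hy g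
    rw [e4]
    exact P2.tt_comm ⟨P1.gl_mem g, fun a => P1.gl_w g (h.cross a).1 (h.cross a).2.1,
      fun a => P1.gl_w g (h.cross a).2.2.1 (h.cross a).2.2.2.1⟩
  · have h1 := h.tup_mem hI hg ht2 y
    rw [← hsw, mem_conjS, hsi] at h1
    rw [hsi]
    exact h1

end Tab

end Vale.Agent.P180.H19.Atwo
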