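import Vale.Agent.P180.H19.AtwoG

/-!
P180, F3 leaf C2/C3 (helper19), part 8: frames.
-/

set_option linter.all false

namespace Vale.Agent.P180.H19.Atwo

open Vale.Agent.P180 Vale.Agent.P180.R2.H799 Vale.Agent.P180.R2.H799.BN
open Vale.Agent.P180.R2.H854 (HForm)
open Vale.Agent.P180.H393.Fm

universe u

section Fr

variable {K E : Type} [Field K] [AddCommGroup E] [Module K E] {ι : Type} [Fintype ι]
  {Φ : HForm K E} {m : ℕ} (F : Frame Φ ι m)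

theorem lft_ee (a b : ι → K) : Frame.lft (ee (a, b)) = a := rfl

theorem rgt_ee (a b : ι → K) : Frame.rgt (ee (a, b)) = b := rfl

variable [DecidableEq ι]

theorem pr_frame (i : ℕ) (hi : i + 1 < m) :
    Pr (F.hyp (i + 1) hi) (F.hyp i (Nat.lt_of_succ_lt hi)) (F.hyp2 i hi) where
  hx _ _ := rfl
  hy _ _ := rfl

omit [Fintype ι] [DecidableEq ι] in
theorem cj_sw : cj (sw : ((ι → K) × (ι → K)) ≃ₗ[K] ((ι → K) × (ι → K))) = Frame.swL := by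
  apply LinearEquiv.ext
  intro v
  funext i
  rcases i with i | i
  · rfl
  · rfl

theorem s_eq (i : ℕ) (hi : i + 1 < m) : F.s i hi = ((F.hyp2 i hi).gl.comp cj) sw := by
  change (F.hyp2 i hi).gl Frame.swL = (F.hyp2 i hi).gl (cj sw)
  rw [cj_sw]

theorem gl2_mem_H (i : ℕ) (hi : i + 1 < m) (g : (ι ⊕ ι → K) ≃ₗ[K] (ι ⊕ ι → K)) :
    (F.hyp2 i hi).gl g ∈ F.H (i + 2) := by
  have hP := pr_frame F i hi
  refine ⟨Hyp.gl_mem _ g, fun j hj hjm => ⟨fun a => ?_, fun a => ?_⟩⟩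
  · obtain ⟨h1, h2, -, -⟩ := F.px_ne hi hjm (by omega) a
    obtain ⟨h3, h4, -, -⟩ := F.px_ne (Nat.lt_of_succ_lt hi) hjm (by omega) a
    exact hP.gl_w g h1 h2 h3 h4
  · obtain ⟨-, -, h1, h2⟩ := F.px_ne hi hjm (by omega) a
    obtain ⟨-, -, h3, h4⟩ := F.px_ne (Nat.lt_of_succ_lt hi) hjm (by omega) a
    exact hP.gl_w g h1 h2 h3 h4

theorem s_mem_H (i : ℕ) (hi : i + 1 < m) : F.s i hi ∈ F.H (i + 2) := gl2_mem_H F i hi _

/-- the two neighbouring pairs commute with the lower group -/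
theorem gl2_comm_H (i : ℕ) (hi : i + 1 < m) (g : (ι ⊕ ι → K) ≃ₗ[K] (ι ⊕ ι → K))
    {h : E ≃ₗ[K] E} (hh : h ∈ F.H i) : (F.hyp2 i hi).gl g * h = h * (F.hyp2 i hi).gl g := by
  refine Hyp.gl_comm _ ⟨hh.1, fun a => ?_, fun a => ?_⟩ g
  · obtain ⟨⟨p, q⟩, rfl⟩ := ee.surjective a
    rw [(pr_frame F i hi).hx, map_add]
    congr 1
    · exact (hh.2 (i + 1) (Nat.le_succ i) hi).1 p
    · exact (hh.2 i le_rfl (Nat.lt_of_succ_lt hi)).1 q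
  · obtain ⟨⟨p, q⟩, rfl⟩ := ee.surjective a
    rw [(pr_frame F i hi).hy, map_add]
    congr 1
    · exact (hh.2 (i + 1) (Nat.le_succ i) hi).2 p
    · exact (hh.2 i le_rfl (Nat.lt_of_succ_lt hi)).2 q

theorem s_comm_H (i : ℕ) (hi : i + 1 < m) {h : E ≃ₗ[K] E} (hh : h ∈ F.H i) :
    F.s i hi * h = h * F.s i hi := gl2_comm_H F i hi _ hh

theorem H_eq' (i : ℕ) (hi : i + 1 < m) : F.H (i + 1) = (F.hyp (i + 1) hi).Fx ⊓ F.H (i + 2) := by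
  rw [inf_comm]
  exact F.H_eq hi

theorem tt_mem_H' (i : ℕ) (hi : i + 1 < m) :
    (F.hyp i (Nat.lt_of_succ_lt hi)).tt ∈ F.H (i + 2) :=
  F.H_mono (Nat.le_succ _) (F.tt_mem_H (Nat.lt_of_succ_lt hi))

theorem s_sq (i : ℕ) (hi : i + 1 < m) : F.s i hi * F.s i hi = 1 := by
  rw [s_eq, ← map_mul, sw_mul_sw, map_one]

/-- the exchange moves the general linear groups -/
theorem gl_s (i : ℕ) (hi : i + 1 < m) (g : (ι → K) ≃ₗ[K] (ι → K)) :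
    (F.hyp (i + 1) hi).gl g * F.s i hi = F.s i hi * (F.hyp i (Nat.lt_of_succ_lt hi)).gl g := by
  have hP := pr_frame F i hi
  rw [← gl_D1 hP.hx hP.hy g, ← gl_D2 hP.hx hP.hy g, s_eq]
  change (F.hyp2 i hi).gl (cj (D1 g)) * (F.hyp2 i hi).gl (cj sw) =
    (F.hyp2 i hi).gl (cj sw) * (F.hyp2 i hi).gl (cj (D2 g))
  rw [← map_mul, ← map_mul, ← map_mul, ← map_mul, D1_mul_sw]

/-- the exchange moves the swaps -/
theorem tt_s (i : ℕ) (hi : i + 1 < m) :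
    (F.hyp (i + 1) hi).tt * F.s i hi = F.s i hi * (F.hyp i (Nat.lt_of_succ_lt hi)).tt := by
  have hP := pr_frame F i hi
  have hc := fun a => hP.cross a
  rw [s_eq]
  refine hP.ext5 (fun a => ?_) (fun a => ?_) (fun a => ?_) (fun a => ?_) fun w w1 w2 w3 w4 => ?_
  all_goals rw [LinearEquiv.mul_apply, LinearEquiv.mul_apply]
  all_goals rw [MonoidHom.comp_apply]
  · rw [hP.sw_x1, hP.t_x1, hP.sw_x1, Hyp.tt_w _ (hc a).1 (hc a).2.1]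
  · rw [hP.sw_x2, Hyp.tt_x, Hyp.tt_x, hP.sw_y2]
  · rw [hP.sw_y1, hP.t_y1, hP.sw_y1, Hyp.tt_w _ (hc a).2.2.1 (hc a).2.2.2.1]
  · rw [hP.sw_y2, Hyp.tt_y, Hyp.tt_y, map_smul, hP.sw_x2]
  · rw [hP.gl_w _ w1 w2 w3 w4, Hyp.tt_w _ w1 w2, Hyp.tt_w _ w3 w4, hP.gl_w _ w1 w2 w3 w4]

/-- **`PD` for a frame** -/
theorem pd_frame [Finite (E ≃ₗ[K] E)] (i : ℕ) (hi : i + 1 < m) :
    H568.XT.PD (F := K) (A := ι → K) ((F.hyp2 i hi).gl.comp cj) (F.U (i + 1) hi)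
      (F.U i (Nat.lt_of_succ_lt hi)) (F.hyp i (Nat.lt_of_succ_lt hi)).tt :=
  pd_of (pr_frame F i hi) (F.H_le _) (H_eq' F i hi) (gl2_mem_H F i hi) (F.tt_mem_H hi)
    (tt_mem_H' F i hi)

end Fr

section Rel

variable {K E : Type} [Field K] [Finite K] [AddCommGroup E] [Module K E] {ι : Type} [Fintype ι]
  [DecidableEq ι] [Nonempty ι] [Finite (E ≃ₗ[K] E)] [Fintype ((ι → K) ≃ₗ[K] (ι → K))]
  {Φ : HForm K E} {m : ℕ} (F : Frame Φ ι m) {k : Type u} [Field k] [CharZero k]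
  {ε : MonoidAlgebra k ((ι → K) ≃ₗ[K] (ι → K))}
  {φ : MonoidAlgebra k ((ι → K) ≃ₗ[K] (ι → K)) → k} {c w : k}

/-- **(C2) for a frame** -/
theorem rel_frame (hε : Eps ε φ c w) (i : ℕ) (hi : i + 1 < m)
    {E1 E0 T : MonoidAlgebra k (E ≃ₗ[K] E)}
    (hE1 : E1 = av k (F.U (i + 1) hi) * mp (F.hyp (i + 1) hi).gl ε)
    (hE0 : E0 = av k (F.U i (Nat.lt_of_succ_lt hi)) * mp (F.hyp i (Nat.lt_of_succ_lt hi)).gl ε)
    (hT : T = E1 * MonoidAlgebra.single (F.s i hi) 1 * E1) :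
    E1 * E1 = E1 ∧ E0 * E0 = E0 ∧ E1 * E0 = E0 * E1 ∧ E1 * T = T ∧ T * E1 = T ∧ E0 * T = T ∧
      T * E0 = T ∧
      T * T = ((Nat.card ((ι → K) →ₗ[K] (ι → K)) : k)⁻¹ * (w * c)) • T +
        (Nat.card ((ι → K) →ₗ[K] (ι → K)) : k)⁻¹ • (E1 * E0) :=
  hypRel (pr_frame F i hi).hx (pr_frame F i hi).hy (F.H_le _) (H_eq' F i hi)
    (gl2_mem_H F i hi) (F.tt_mem_H hi) hε hE1 hE0 (by rw [hT, s_eq]; rfl)

end Rel

end Vale.Agent.P180.H19.Atwo
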