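import Vale.Agent.P180.R2.H471.Hc9
import Vale.Agent.P180.R2.H12.SlT
import Vale.Agent.P180.H337.Idem

/-!
P180 theorem A, block C2b (helper19): the small idempotent `e e_U j` of a block from a Levi
subgroup, by multiplicities of the irreducible characters in characteristic zero.
-/

set_option linter.all false

namespace Vale.Agent.P180.H19

open Subgroup Vale.Agent.P180 Vale.Agent.P180.H768.Gd Vale.Agent.P180.R2.H799
open Vale.Agent.P180.R2.H954.Hc (KK toKK exists_lift exists_rank charZero_KK isUnit_iff_coeff)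
open Vale.Agent.P180.R2.H12.Sl (exists_central_lift mapRingHom_central)
open Vale.Agent.P180.H393 (IsIr ev)
open Vale.Agent.P180.H337 (IrK)

universe u

section MR

variable {R S : Type*} [CommRing R] [CommRing S] {G : Type*} [Group G]

theorem mr_smul (φ : R →+* S) (c : R) (x : MonoidAlgebra R G) :
    MonoidAlgebra.mapRingHom G φ (c • x) = φ c • MonoidAlgebra.mapRingHom G φ x := by
  apply MonoidAlgebra.coeff_injective
  ext y
  rw [MonoidAlgebra.coeff_mapRingHom, MonoidAlgebra.coeff_smul, Finsupp.smul_apply,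
    smul_eq_mul, map_mul, MonoidAlgebra.coeff_smul, Finsupp.smul_apply, smul_eq_mul,
    MonoidAlgebra.coeff_mapRingHom]

theorem mr_inj {φ : R →+* S} (hφ : Function.Injective φ) :
    Function.Injective (MonoidAlgebra.mapRingHom G φ) := by
  intro x y h
  apply MonoidAlgebra.coeff_injective
  ext g
  have h1 := congrArg (fun z => z.coeff g) h
  simp only [MonoidAlgebra.coeff_mapRingHom] at h1
  exact hφ h1

end MR

section

variable {k : Type u} [Field k] [IsAlgClosed k] {p : ℕ} [Fact p.Prime] [CharP k p]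

theorem toKK_inj : Function.Injective (toKK k p) :=
  (algebraMap (FractionRing (WittVector p k)) (KK k p)).injective.comp
    (IsFractionRing.injective (WittVector p k) (FractionRing (WittVector p k)))

/-- the average of a `p'`-subgroup over the Witt vectors -/
theorem exists_av {G : Type} [Group G] [Finite G] (U : Subgroup G) (hpU : ¬ p ∣ Nat.card U) :
    ∃ a : MonoidAlgebra (WittVector p k) G,
      MonoidAlgebra.mapRingHom G (WittVector.constantCoeff (p := p) (R := k)) a = BN.av k U ∧
      MonoidAlgebra.mapRingHom G (toKK k p) a = BN.av (KK k p) U := by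
  have hu : IsUnit (Nat.card U : WittVector p k) := by
    rw [isUnit_iff_coeff, map_natCast]
    intro h
    exact hpU ((CharP.cast_eq_zero_iff k p _).mp h)
  obtain ⟨c, hc⟩ := hu.exists_left_inv
  letI := Fintype.ofFinite U
  refine ⟨c • ∑ v : U, MonoidAlgebra.single (v : G) 1, ?_, ?_⟩
  · rw [mr_smul, map_sum]
    simp only [MonoidAlgebra.mapRingHom_single, map_one]
    have h1 : WittVector.constantCoeff c = ((Nat.card U : ℕ) : k)⁻¹ := by
      apply eq_inv_of_mul_eq_one_left
      rw [← map_natCast (WittVector.constantCoeff (p := p) (R := k)), ← map_mul, hc, map_one]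
    rw [h1]
    rfl
  · rw [mr_smul, map_sum]
    simp only [MonoidAlgebra.mapRingHom_single, map_one]
    have h1 : toKK k p c = ((Nat.card U : ℕ) : KK k p)⁻¹ := by
      apply eq_inv_of_mul_eq_one_left
      rw [← map_natCast (toKK k p), ← map_mul, hc, map_one]
    rw [h1]
    rfl

variable {G : Type} [Group G] [Fintype G]

/-- `ev` at an element with Witt coefficients, coefficientwise -/
theorem ev_mr (χ : G → KK k p) (x : MonoidAlgebra (WittVector p k) G) :
    ev χ (MonoidAlgebra.mapRingHom G (toKK k p) x) = ∑ g, toKK k p (x.coeff g) * χ g := by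
  unfold ev
  refine Finset.sum_congr rfl fun g _ => ?_
  rw [MonoidAlgebra.coeff_mapRingHom]

/-- **(C2b)**, for a central idempotent -/
theorem small_of_fix {U L Q : Subgroup G} (hpU : ¬ p ∣ Nat.card U)
    (hLU : L ≤ normalizer (U : Set G)) (hQL : Q ≤ L) (hQ : IsPGroup p Q)
    (hCU : U ⊓ centralizer (Q : Set G) = ⊥) {e j : MonoidAlgebra k G} (hee : e * e = e)
    (heF : e ∈ Fix (cj k G) ⊤) (hj : j ∈ SubAlg k L) (hjQ : j ∈ Fix (cj k G) Q)
    (hjj : j * j = j) (hbr : br Q j * br Q e ≠ 0) {B N T : ℕ}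
    (hB : Module.finrank k (NN (SubAlg k L) j j) ≤ B)
    (hN : ∀ E : MonoidAlgebra (WittVector p k) G, (∀ x, x * E = E * x) → E * E = E →
      MonoidAlgebra.mapRingHom G (WittVector.constantCoeff (p := p) (R := k)) E = e →
      Nat.card {χ : G → KK k p // IsIr (KK k p) G χ ∧
        ev χ (MonoidAlgebra.mapRingHom G (toKK k p) E) ≠ 0} ≤ N)
    (hT : ∀ χ : G → KK k p, IsIr (KK k p) G χ → ∀ x ∈ SubAlg (KK k p) L, x * x = x →
      ∃ m : ℕ, ev χ (BN.av (KK k p) U * x) = m ∧
        m ≤ T * Module.finrank (KK k p) (NN (SubAlg (KK k p) L) x x)) :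
    ∃ i ∈ Fix (cj k G) Q, i * i = i ∧ e * i = i ∧ br Q i ≠ 0 ∧
      Module.finrank k (NN (⊤ : Subalgebra k (MonoidAlgebra k G)) i i) ≤ N * (T * B) ^ 2 := by
  classical
  have hcz : CharZero (KK k p) := charZero_KK k p
  have hfin : FiniteDimensional k (MonoidAlgebra k G) :=
    Module.Finite.equiv (MonoidAlgebra.coeffLinearEquiv k (M := G) (S := k)).symm
  have hU0 : ((Nat.card U : ℕ) : k) ≠ 0 := fun h => hpU ((CharP.cast_eq_zero_iff k p _).mp h)
  have hec : ∀ z : MonoidAlgebra k G, z * e = e * z := fun z =>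
    commute_of_mem (SubAlg_top z) heF
  have hjc : j * BN.av k U = BN.av k U * j := BN.av_comm hLU hj
  have hQN : Q ≤ normalizer (U : Set G) := hQL.trans hLU
  have haa : BN.av k U * BN.av k U = BN.av k U := BN.av_idem hU0
  have hvv : (BN.av k U * j) * (BN.av k U * j) = BN.av k U * j := by
    calc (BN.av k U * j) * (BN.av k U * j)
        = BN.av k U * (j * BN.av k U) * j := by simp only [mul_assoc]
      _ = (BN.av k U * BN.av k U) * (j * j) := by rw [hjc]; simp only [mul_assoc]
      _ = BN.av k U * j := by rw [haa, hjj]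
  have haQ : BN.av k U ∈ Fix (cj k G) Q := by
    intro x hx
    rw [BN.cj_av, BN.conjS_eq_of_mem_Nm (hQN hx)]
  have hvQ : BN.av k U * j ∈ Fix (cj k G) Q := Subalgebra.mul_mem _ haQ hjQ
  have heQ : e ∈ Fix (cj k G) Q := Fix_mono _ le_top heF
  refine ⟨e * (BN.av k U * j), Subalgebra.mul_mem _ heQ hvQ, ?_, ?_, ?_, ?_⟩
  · calc e * (BN.av k U * j) * (e * (BN.av k U * j))
        = e * ((BN.av k U * j) * e) * (BN.av k U * j) := by simp only [mul_assoc]
      _ = (e * e) * ((BN.av k U * j) * (BN.av k U * j)) := by rw [hec]; simp only [mul_assoc]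
      _ = e * (BN.av k U * j) := by rw [hee, hvv]
  · rw [← mul_assoc, hee]
  · have h1 : br Q (BN.av k U) = ((Nat.card U : ℕ) : k)⁻¹ • 1 := by
      refine BN.br_av hQ hpU ?_
      intro x hx hxc
      have h2 : x ∈ U ⊓ centralizer (Q : Set G) := ⟨hx, hxc⟩
      rwa [hCU, Subgroup.mem_bot] at h2
    rw [← hec, br_mul hQ hvQ heQ, br_mul hQ haQ hjQ, h1, smul_mul_assoc, one_mul,
      smul_mul_assoc]
    exact smul_ne_zero (inv_ne_zero hU0) hbr
  · -- the lifts
    obtain ⟨J, hJJ, hJL, -, hJj⟩ := exists_lift (p := p) (H := L) (Z := (⊥ : Subgroup G)) bot_le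
      (by
        intro h _ z hz
        rw [Subgroup.mem_bot] at hz ⊢
        rw [hz, mul_one, mul_inv_cancel])
      (by
        rw [Subgroup.card_bot]
        exact (Fact.out : p.Prime).one_lt.ne' ∘ Nat.dvd_one.mp) hjj hj
      (by
        intro z hz
        rw [Subgroup.mem_bot] at hz
        rw [hz, ← MonoidAlgebra.one_def, one_mul])
    obtain ⟨E, hEc, hEE, hEe⟩ := exists_central_lift (p := p) hec hee
    obtain ⟨A, hAk, hAK⟩ := exists_av (k := k) (p := p) U hpU
    set K := KK k p with hK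
    set JK : MonoidAlgebra K G := MonoidAlgebra.mapRingHom G (toKK k p) J with hJK
    set EK : MonoidAlgebra K G := MonoidAlgebra.mapRingHom G (toKK k p) E with hEK
    have hJKL : JK ∈ SubAlg K L := by
      intro x hx
      rw [hJK, MonoidAlgebra.coeff_mapRingHom] at hx
      exact hJL x fun h => hx (by rw [h, map_zero])
    have hJKJK : JK * JK = JK := by rw [hJK, ← map_mul, hJJ]
    have hEKc : ∀ x, x * EK = EK * x := fun x => mapRingHom_central _ hEc x
    have hEKEK : EK * EK = EK := by rw [hEK, ← map_mul, hEE]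
    have hUK : ((Nat.card U : ℕ) : K) ≠ 0 := by
      rw [Nat.cast_ne_zero]
      exact Nat.card_pos.ne'
    have hcK : JK * BN.av K U = BN.av K U * JK := BN.av_comm hLU hJKL
    have haaK : BN.av K U * BN.av K U = BN.av K U := BN.av_idem hUK
    have hvvK : (BN.av K U * JK) * (BN.av K U * JK) = BN.av K U * JK := by
      calc (BN.av K U * JK) * (BN.av K U * JK)
          = BN.av K U * (JK * BN.av K U) * JK := by simp only [mul_assoc]
        _ = (BN.av K U * BN.av K U) * (JK * JK) := by rw [hcK]; simp only [mul_assoc]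
        _ = BN.av K U * JK := by rw [haaK, hJKJK]
    have hIIK : (EK * (BN.av K U * JK)) * (EK * (BN.av K U * JK)) = EK * (BN.av K U * JK) := by
      calc EK * (BN.av K U * JK) * (EK * (BN.av K U * JK))
          = EK * ((BN.av K U * JK) * EK) * (BN.av K U * JK) := by simp only [mul_assoc]
        _ = (EK * EK) * ((BN.av K U * JK) * (BN.av K U * JK)) := by
            rw [hEKc]; simp only [mul_assoc]
        _ = EK * (BN.av K U * JK) := by rw [hEKEK, hvvK]
    have hmap : MonoidAlgebra.mapRingHom G (toKK k p) (E * (A * J)) = EK * (BN.av K U * JK) := by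
      rw [map_mul, map_mul, hAK]
    have hII : (E * (A * J)) * (E * (A * J)) = E * (A * J) := by
      apply mr_inj (toKK_inj (k := k) (p := p))
      rw [map_mul, hmap, hIIK]
    -- the dimensions
    obtain ⟨r, hr⟩ := exists_rank (H := (⊤ : Subgroup G)) hII hII
      (fun x _ => Subgroup.mem_top x) (fun x _ => Subgroup.mem_top x)
    have h1 := hr K (toKK k p)
    have h2 := hr k (WittVector.constantCoeff (p := p) (R := k))
    rw [hmap, Vale.Agent.P180.R2.H12.Sl.SubAlg_top] at h1
    rw [map_mul, map_mul, hEe, hAk, hJj, Vale.Agent.P180.R2.H12.Sl.SubAlg_top] at h2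
    obtain ⟨s, hs⟩ := exists_rank (H := L) hJJ hJJ hJL hJL
    have h3 := hs K (toKK k p)
    have h4 := hs k (WittVector.constantCoeff (p := p) (R := k))
    rw [hJj] at h4
    have hBK : Module.finrank K (NN (SubAlg K L) JK JK) ≤ B := by
      rw [h3, ← h4]
      exact hB
    obtain ⟨m, hm1, hm2⟩ := Vale.Agent.P180.H337.exists_ev_nat hIIK
    rw [h2, ← h1, hm2]
    have h5 : ∀ χ : IrK K G, m χ ^ 2 ≤ if ev χ.1 EK ≠ 0 then (T * B) ^ 2 else 0 := by
      intro χ
      split_ifs with h
      · refine Nat.pow_le_pow_left ?_ 2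
        obtain ⟨l, hl1, hl2⟩ := hT χ.1 χ.2 JK hJKL hJKJK
        have h6 := (Vale.Agent.P180.H337.ev_central_ne_iff χ.2 hEKc hEKEK).mp h
          (BN.av K U * JK)
        rw [hm1 χ, hl1] at h6
        have h7 : m χ = l := by exact_mod_cast h6
        rw [h7]
        exact hl2.trans (Nat.mul_le_mul_left _ hBK)
      · rw [not_not] at h
        have h6 := (Vale.Agent.P180.H337.ev_central_eq_zero_iff χ.2 hEKc hEKEK).mp h
          (BN.av K U * JK)
        rw [hm1 χ] at h6
        have h7 : m χ = 0 := by exact_mod_cast h6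
        rw [h7]
        norm_num
    refine (Finset.sum_le_sum fun χ _ => h5 χ).trans ?_
    rw [← Finset.sum_filter, Finset.sum_const, smul_eq_mul]
    refine Nat.mul_le_mul_right _ ?_
    refine le_trans (le_of_eq ?_) (hN E hEc hEE hEe)
    rw [← Fintype.card_subtype, ← Nat.card_eq_fintype_card]
    exact Nat.card_congr (Equiv.subtypeSubtypeEquivSubtypeInter
      (fun χ : G → K => IsIr K G χ) (fun χ : G → K => ev χ EK ≠ 0))

/-- **(C2b)**: the small idempotent of a block. -/
theorem small {U L Q : Subgroup G} (hpU : ¬ p ∣ Nat.card U)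
    (hLU : L ≤ normalizer (U : Set G)) (hQL : Q ≤ L) (hQ : IsPGroup p Q)
    (hCU : U ⊓ centralizer (Q : Set G) = ⊥) {e j : MonoidAlgebra k G}
    (he : IsBlockOf (⊤ : Subgroup G) e) (hj : j ∈ SubAlg k L) (hjQ : j ∈ Fix (cj k G) Q)
    (hjj : j * j = j) (hbr : br Q j * br Q e ≠ 0) {B N T : ℕ}
    (hB : Module.finrank k (NN (SubAlg k L) j j) ≤ B)
    (hN : ∀ E : MonoidAlgebra (WittVector p k) G, (∀ x, x * E = E * x) → E * E = E →
      MonoidAlgebra.mapRingHom G (WittVector.constantCoeff (p := p) (R := k)) E = e →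
      Nat.card {χ : G → KK k p // IsIr (KK k p) G χ ∧
        ev χ (MonoidAlgebra.mapRingHom G (toKK k p) E) ≠ 0} ≤ N)
    (hT : ∀ χ : G → KK k p, IsIr (KK k p) G χ → ∀ x ∈ SubAlg (KK k p) L, x * x = x →
      ∃ m : ℕ, ev χ (BN.av (KK k p) U * x) = m ∧
        m ≤ T * Module.finrank (KK k p) (NN (SubAlg (KK k p) L) x x)) :
    ∃ i ∈ Fix (cj k G) Q, i * i = i ∧ e * i = i ∧ br Q i ≠ 0 ∧
      Module.finrank k (NN (⊤ : Subalgebra k (MonoidAlgebra k G)) i i) ≤ N * (T * B) ^ 2 := by
  exact small_of_fix hpU hLU hQL hQ hCU he.idem he.mem.2 hj hjQ hjj hbr hB hN hT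

end

end Vale.Agent.P180.H19
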