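import Vale.Agent.P180.H19.AtwoC
import Vale.Agent.P180.H568.Inst
import Vale.Agent.P180.H6.EvEps

/-!
P180 (helper19), F3: cuspidality of the test idempotent of a primitive character; the package of
the idempotent.
-/

set_option linter.all false

namespace Vale.Agent.P180.H19.Atwo

open Finset Module Vale.Agent.P180 Vale.Agent.P180.R2.H799 Vale.Agent.P180.R2.H799.BN
open Vale.Agent.P180.H393
open Vale.Agent.P180.H337 (IrK evL evL_apply ev_single exists_ev_nat₂)
open Vale.Agent.P180.H568 (glPSH)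
open Vale.Agent.P180.H6

universe u v

variable {k : Type u} [Field k] [IsAlgClosed k] [CharZero k] {K : Type} [Field K] [Finite K]

section Res

variable {V : Type} [AddCommGroup V] [Module K V] [Finite V]

/-- the radical as a group of homomorphisms -/
theorem exists_radEquiv {A' A1 : Submodule K V} (h : IsCompl A' A1) :
    ∃ e : (A' →ₗ[K] A1) ≃ Rad A1, ∀ f, (e f : V ≃ₗ[K] V) =
      cg (Submodule.prodEquivOfIsCompl A' A1 h) (sk 1 1 f) := by
  set E := Submodule.prodEquivOfIsCompl A' A1 h with hE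
  have hEa : ∀ x : A' × A1, E x = (x.1 : V) + (x.2 : V) := fun x => by
    rw [hE, Submodule.coe_prodEquivOfIsCompl']
  have hg : ∀ (f : A' →ₗ[K] A1) (x : A' × A1),
      cg E (sk 1 1 f) (E x) = E x + (f x.1 : V) := fun f x => by
    rw [cg_apply, E.symm_apply_apply, sk_apply, hEa, hEa]
    change (x.1 : V) + (((x.2 + f x.1 : A1)) : V) = _
    rw [Submodule.coe_add, add_assoc]
  have hmem : ∀ f, cg E (sk 1 1 f) ∈ Rad A1 := fun f => by
    rw [mem_Rad]
    constructor
    · intro v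
      obtain ⟨x, rfl⟩ := E.surjective v
      rw [hg, add_sub_cancel_left]
      exact (f x.1).2
    · intro v hv
      have h1 : v = E ((0 : A'), (⟨v, hv⟩ : A1)) := by
        rw [hEa]
        change v = 0 + v
        rw [zero_add]
      rw [h1, hg]
      change _ + ((f 0 : A1) : V) = _
      rw [map_zero, Submodule.coe_zero, add_zero]
  have hinj : Function.Injective fun f => (⟨cg E (sk 1 1 f), hmem f⟩ : Rad A1) := by
    intro f f' hff
    have h1 : cg E (sk 1 1 f) = cg E (sk 1 1 f') := congrArg Subtype.val hff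
    exact (sk_inj ((cg E).injective h1)).2.2
  have hsurj : Function.Surjective fun f => (⟨cg E (sk 1 1 f), hmem f⟩ : Rad A1) := by
    rintro ⟨g, hg1, hg2⟩
    let f : A' →ₗ[K] A1 :=
      LinearMap.codRestrict A1 (((g : V →ₗ[K] V) - LinearMap.id) ∘ₗ A'.subtype) fun x => hg1 x
    refine ⟨f, Subtype.ext ?_⟩
    change cg E (sk 1 1 f) = g
    apply LinearEquiv.ext
    intro v
    obtain ⟨x, rfl⟩ := E.surjective v
    rw [hg, hEa]
    change (x.1 : V) + (x.2 : V) + (g (x.1 : V) - (x.1 : V)) = g ((x.1 : V) + (x.2 : V))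
    rw [map_add, hg2 _ x.2.2]
    abel
  exact ⟨Equiv.ofBijective _ ⟨hinj, hsurj⟩, fun f => rfl⟩

/-- a cuspidal character has no fixed vectors under a radical -/
theorem ev_av_Rad [DecidableEq (Om k K)] (ρ : Om k K) (hρ : (glPSH k K).Prim ρ)
    {A1 : Submodule K V} (h0 : A1 ≠ ⊥) (h1 : A1 ≠ ⊤) : ev (X ρ V) (av k (Rad A1)) = 0 := by
  obtain ⟨A', hA⟩ := exists_isCompl A1
  have hA' : IsCompl A' A1 := hA.symm
  haveI : Module.Finite K V := Module.Finite.of_finite
  have hpos : 0 < finrank K A1 := by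
    rw [Module.finrank_pos_iff]
    exact Submodule.nontrivial_iff_ne_bot.mpr h0
  have hpos' : 0 < finrank K A' := by
    rw [Module.finrank_pos_iff]
    refine Submodule.nontrivial_iff_ne_bot.mpr fun hb => h1 ?_
    rw [hb] at hA'
    exact eq_top_of_bot_isCompl hA'
  have hone : (glPSH k K).one.deg = 0 := (glPSH k K).deg_one
  have hRes : Res (X ρ (A' × A1)) 1 1 = 0 := by
    rw [res_eq]
    refine Finset.sum_eq_zero fun a ha => Finset.sum_eq_zero fun b hb => ?_
    have hc : cc a b ρ = 0 := by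
      by_contra hne
      rcases hρ.prim a b hne with h | h
      · have := mem_OmS.mp ha
        rw [h] at this
        omega
      · have := mem_OmS.mp hb
        rw [h] at this
        omega
    rw [hc, Nat.cast_zero, zero_mul, zero_mul]
  obtain ⟨e, he⟩ := exists_radEquiv hA'
  have h2 : ∑ f : A' →ₗ[K] A1, X ρ (A' × A1) (sk 1 1 f) = 0 := by
    rw [Res] at hRes
    rcases mul_eq_zero.mp hRes with h | h
    · exact absurd (inv_eq_zero.mp h) (card_ne' (K := k) (A' →ₗ[K] A1))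
    · exact h
  rw [← evL_apply, av, map_smul, map_sum]
  have h3 : ∀ u : Rad A1, evL (X ρ V) (MonoidAlgebra.single (u : V ≃ₗ[K] V) (1 : k)) =
      X ρ V u := fun u => by
    rw [evL_apply, ev_single, one_mul]
  letI := Fintype.ofFinite (Rad A1)
  rw [Finset.sum_congr rfl fun u _ => h3 u, ← Equiv.sum_comp e]
  have h4 : ∀ f, X ρ V (e f : V ≃ₗ[K] V) = X ρ (A' × A1) (sk 1 1 f) := fun f => by
    rw [he, X_cg]
  rw [Finset.sum_congr rfl fun f _ => h4 f, h2, smul_zero]

end Res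

section Cus

variable {ι : Type} [Fintype ι]

/-- **(Cu) Cuspidality of the idempotent of a primitive character.** -/
theorem cusp_of_prim [DecidableEq (Om k K)] (ρ : Om k K) (hρ : (glPSH k K).Prim ρ)
    (hd : Fintype.card ι = ρ.deg) {ε : MonoidAlgebra k ((ι → K) ≃ₗ[K] (ι → K))}
    (hi : ε * ε = ε) (hev : ∀ w : Om k K, w.deg = Fintype.card ι →
      ev (X w (ι → K)) ε = if w = ρ then 1 else 0) :
    ∀ A1 : Submodule K (ι → K), A1 ≠ ⊥ → A1 ≠ ⊤ → ε * av k (Rad A1) = 0 := by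
  classical
  intro A1 h0 h1
  have hai : av k (Rad A1) * av k (Rad A1) = av k (Rad A1) := by
    apply av_idem
    have : Nat.card (Rad A1) ≠ 0 := Nat.card_pos.ne'
    exact_mod_cast this
  obtain ⟨l, m, hl, hm, hlm⟩ := exists_ev_nat₂ hi hai
  have h2 : ∀ χ, l χ * m χ = 0 := by
    intro χ
    obtain ⟨w, hw, hX⟩ := exists_om (K := k) (V := ι → K) χ.2
    rw [Module.finrank_fintype_fun_eq_card] at hw
    by_cases hwr : w = ρ
    · have h3 : ((m χ : ℕ) : k) = 0 := by
        rw [← hm χ, ← hX, hwr]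
        exact ev_av_Rad ρ hρ h0 h1
      rw [Nat.cast_eq_zero] at h3
      rw [h3, mul_zero]
    · have h3 : ((l χ : ℕ) : k) = 0 := by
        rw [← hl χ, ← hX, hev w hw, if_neg hwr]
      rw [Nat.cast_eq_zero] at h3
      rw [h3, zero_mul]
  rw [Finset.sum_eq_zero fun χ _ => h2 χ] at hlm
  haveI : FiniteDimensional k (MonoidAlgebra k ((ι → K) ≃ₗ[K] (ι → K))) :=
    Vale.Agent.P180.R2.H471.Hc.finite_MA
  have h4 : NN (⊤ : Subalgebra k (MonoidAlgebra k ((ι → K) ≃ₗ[K] (ι → K)))) ε (av k (Rad A1)) = ⊥ :=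
    Submodule.finrank_eq_zero.mp hlm
  have h5 : ε * 1 * av k (Rad A1) ∈
      NN (⊤ : Subalgebra k (MonoidAlgebra k ((ι → K) ≃ₗ[K] (ι → K)))) ε (av k (Rad A1)) :=
    mul_mul_mem_NN hi hai Algebra.mem_top Algebra.mem_top Algebra.mem_top
  rw [h4, Submodule.mem_bot, mul_one] at h5
  exact h5

/-- **(Ep) The self-adjoint idempotent of a character.** -/
theorem exists_eps_om [DecidableEq (Om k K)] {F0 : Type v} [Field F0] [IsAlgClosed F0] {σ : F0 →+* F0} (hσ : IsSg σ)
    (j : F0 →+* k) (ρ : Om k K) (hd : Fintype.card ι = ρ.deg) :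
    ∃ ε0 : MonoidAlgebra F0 ((ι → K) ≃ₗ[K] (ι → K)), ε0 * ε0 = ε0 ∧ stG σ ε0 = ε0 ∧ ε0 ≠ 0 ∧
      (∀ z, ∃ c : F0, ε0 * z * ε0 = c • ε0) ∧
      (∀ z, ∃ c : k, mc _ j ε0 * z * mc _ j ε0 = c • mc _ j ε0) ∧
      mc _ j ε0 * mc _ j ε0 = mc _ j ε0 ∧ mc _ j ε0 ≠ 0 ∧
      ∀ w : Om k K, w.deg = Fintype.card ι →
        ev (X w (ι → K)) (mc _ j ε0) = if w = ρ then 1 else 0 := by
  classical
  have hir : IsIr k _ (X ρ (ι → K)) :=
    X_isIr (V := ι → K) (by rw [Module.finrank_fintype_fun_eq_card, hd])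
  obtain ⟨ε, e1, e2, e3, e4, e5, e6, e7, e8, e9⟩ := exists_eps' hσ hir j
  refine ⟨ε, e1, e2, e3, e4, e5, e6, e7, fun w hw => ?_⟩
  by_cases hwr : w = ρ
  · rw [if_pos hwr, hwr, e8]
  · rw [if_neg hwr]
    refine e9 _ (X_isIr (V := ι → K) (by rw [Module.finrank_fintype_fun_eq_card, hw])) fun he => ?_
    exact hwr (X_inj (V := ι → K) (by rw [Module.finrank_fintype_fun_eq_card, hw])
      (by rw [Module.finrank_fintype_fun_eq_card, hd]) he)

/-- the constants -/
theorem eps_pkg {F A : Type} [Field F] [AddCommGroup A] [Module F A] [Finite A]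
    [Fintype (A ≃ₗ[F] A)] {ε : MonoidAlgebra k (A ≃ₗ[F] A)} (hi : ε * ε = ε) (hne : ε ≠ 0)
    (hp : ∀ z, ∃ c : k, ε * z * ε = c • ε)
    (hc : ∀ A1 : Submodule F A, A1 ≠ ⊥ → A1 ≠ ⊤ → ε * av k (Rad A1) = 0) :
    ∃ (φ : MonoidAlgebra k (A ≃ₗ[F] A) → k) (c w : k), Eps ε φ c w ∧ c ≠ 0 ∧ w ≠ 0 := by
  choose φ hφ using hp
  exact ⟨φ, _, _, Eps.mk' hi hne hφ hc⟩

end Cus

end Vale.Agent.P180.H19.Atwo
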