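import Vale.Agent.P180.R2.H799.BN3

/-!
P180 theorem B, block B2 (helper19): the abstract cuspidality lemma: a central idempotent which is
the sum of a family permuted by the group is killed by the averages over the members of a parabolic
system.
-/

set_option linter.all false

namespace Vale.Agent.P180.H19.Cusp

open Vale.Agent.P180 Vale.Agent.P180.R2.H799 Vale.Agent.P180.R2.H799.BN

section Sum

theorem sum_zero {k : Type*} [Field k] {p : ℕ} [Fact p.Prime] [CharP k p] {X : Type*} [Fintype X]
    {P : Type*} [Group P] [MulAction P X] (hP : IsPGroup p P) {M : Type*} [AddCommGroup M]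
    [Module k M] (t : X → M) (ht : ∀ (g : P) x, t (g • x) = t x)
    (hfix : ∀ x : X, ∃ g : P, g • x ≠ x) : ∑ x, t x = 0 := by
  classical
  rw [← Finset.sum_fiberwise_of_maps_to (s := Finset.univ) (t := Finset.univ.image t) (g := t)
    (fun x _ => Finset.mem_image_of_mem t (Finset.mem_univ x))]
  refine Finset.sum_eq_zero fun y _ => ?_
  rw [Finset.sum_congr rfl (fun x hx => (Finset.mem_filter.mp hx).2), Finset.sum_const]
  letI act : MulAction P {x // t x = y} :=
    { smul := fun g x => ⟨g • x.1, by rw [ht, x.2]⟩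
      one_smul := fun x => Subtype.ext (one_smul P x.1)
      mul_smul := fun g h x => Subtype.ext (mul_smul g h x.1) }
  have h1 := hP.card_modEq_card_fixedPoints {x // t x = y}
  have h2 : IsEmpty (MulAction.fixedPoints P {x // t x = y}) := ⟨fun x => by
    obtain ⟨g, hg⟩ := hfix x.1.1
    exact hg (congrArg Subtype.val (x.2 g))⟩
  have h2' : Nat.card (MulAction.fixedPoints P {x // t x = y}) = 0 := Nat.card_of_isEmpty
  rw [h2'] at h1
  have h3 : p ∣ Nat.card {x // t x = y} := (Nat.modEq_zero_iff_dvd).mp h1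
  have h4 : (Finset.univ.filter fun x => t x = y).card = Nat.card {x // t x = y} := by
    rw [Nat.card_eq_fintype_card, Fintype.card_subtype]
  rw [h4, ← Nat.cast_smul_eq_nsmul k, (CharP.cast_eq_zero_iff k p _).mpr h3, zero_smul]

end Sum

section

variable {k : Type*} [Field k] {p : ℕ} [Fact p.Prime] [CharP k p] {H : Type*} [Group H] [Finite H]

/-- elements of `N(V)` which are central `p`-elements modulo `V` -/
def Am (p : ℕ) {H : Type*} [Group H] (V : Subgroup H) (z : H) : Prop :=
  z ∈ Nm V ∧ (∀ y ∈ Nm V, z * y * z⁻¹ * y⁻¹ ∈ V) ∧ ∃ m : ℕ, z ^ p ^ m ∈ V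

/-- group elements commute with the average -/
theorem single_av {V : Subgroup H} {z : H} (hz : z ∈ Nm V) :
    MonoidAlgebra.single z (1 : k) * av k V = av k V * MonoidAlgebra.single z 1 := by
  rw [single_mul_av, conjS_eq_of_mem_Nm hz]

theorem single_fix {V : Subgroup H} {x : MonoidAlgebra k H} (hx : av k V * x = x) {v : H}
    (hv : v ∈ V) : MonoidAlgebra.single v (1 : k) * x = x := by
  rw [← hx, ← mul_assoc, av_left V hv]

theorem single_mul' (g h : H) : MonoidAlgebra.single g (1 : k) * MonoidAlgebra.single h 1 =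
    MonoidAlgebra.single (g * h) 1 := by
  rw [MonoidAlgebra.single_mul_single, one_mul]

theorem exists_fixed {V : Subgroup H} (hV : ((Nat.card V : ℕ) : k) ≠ 0) {c : MonoidAlgebra k H}
    (hcc : c * c = c) (h0 : av k V * c ≠ 0) : ∃ n : MonoidAlgebra k H, n ≠ 0 ∧ av k V * n = n ∧
      n * c = n ∧ ∀ z, Am p V z → MonoidAlgebra.single z (1 : k) * n = n := by
  classical
  have _ := Fintype.ofFinite H
  have key : ∀ T : Finset H, (∀ z ∈ T, Am p V z) → ∃ n : MonoidAlgebra k H, n ≠ 0 ∧
      av k V * n = n ∧ n * c = n ∧ ∀ z ∈ T, MonoidAlgebra.single z (1 : k) * n = n := by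
    intro T
    induction T using Finset.induction_on with
    | empty =>
      intro _
      refine ⟨av k V * c, h0, ?_, ?_, fun z hz => absurd hz (Finset.notMem_empty z)⟩
      · rw [← mul_assoc, av_idem hV]
      · rw [mul_assoc, hcc]
    | insert z T hzT ih =>
      intro hT
      obtain ⟨n, hn0, hn1, hn2, hn3⟩ := ih fun y hy => hT y (Finset.mem_insert_of_mem hy)
      obtain ⟨hz1, hz2, m, hz3⟩ := hT z (Finset.mem_insert_self z T)
      set u : MonoidAlgebra k H := MonoidAlgebra.single z 1 - 1 with hu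
      -- the powers of `u` preserve the conditions
      have hstep : ∀ x : MonoidAlgebra k H, (av k V * x = x ∧ x * c = x ∧
          ∀ y ∈ T, MonoidAlgebra.single y (1 : k) * x = x) →
          (av k V * (u * x) = u * x ∧ (u * x) * c = u * x ∧
          ∀ y ∈ T, MonoidAlgebra.single y (1 : k) * (u * x) = u * x) := by
        rintro x ⟨h1, h2, h3⟩
        have hzx : av k V * (MonoidAlgebra.single z 1 * x) = MonoidAlgebra.single z 1 * x := by
          rw [← mul_assoc, ← single_av hz1, mul_assoc, h1]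
        refine ⟨?_, ?_, ?_⟩
        · rw [hu, sub_mul, one_mul, mul_sub, hzx, h1]
        · rw [mul_assoc, h2]
        · intro y hy
          rw [hu, sub_mul, one_mul, mul_sub, h3 y hy]
          congr 1
          have hyN : y ∈ Nm V := (hT y (Finset.mem_insert_of_mem hy)).1
          have h4 : (z * y * z⁻¹ * y⁻¹)⁻¹ ∈ V := V.inv_mem (hz2 y hyN)
          have h5 : y * z = (z * y * z⁻¹ * y⁻¹)⁻¹ * (z * y) := by group
          set v : H := (z * y * z⁻¹ * y⁻¹)⁻¹ with hv
          calc MonoidAlgebra.single y (1 : k) * (MonoidAlgebra.single z 1 * x)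
              = MonoidAlgebra.single (y * z) 1 * x := by rw [← mul_assoc, single_mul']
            _ = MonoidAlgebra.single v 1 * (MonoidAlgebra.single z 1 *
                  (MonoidAlgebra.single y 1 * x)) := by
                rw [h5, ← single_mul', ← single_mul']; simp only [mul_assoc]
            _ = MonoidAlgebra.single z 1 * x := by rw [h3 y hy]; exact single_fix hzx h4
      have hpow : ∀ i : ℕ, av k V * (u ^ i * n) = u ^ i * n ∧ (u ^ i * n) * c = u ^ i * n ∧
          ∀ y ∈ T, MonoidAlgebra.single y (1 : k) * (u ^ i * n) = u ^ i * n := by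
        intro i
        induction i with
        | zero => rw [pow_zero, one_mul]; exact ⟨hn1, hn2, hn3⟩
        | succ i ihi =>
          rw [pow_succ', mul_assoc]
          exact hstep _ ihi
      have hnil : u ^ p ^ m * n = 0 := by
        have hch : CharP (MonoidAlgebra k H) p := charP_of_injective_algebraMap
          (FaithfulSMul.algebraMap_injective k (MonoidAlgebra k H)) p
        rw [hu, sub_pow_char_pow_of_commute p m (Commute.one_right _), one_pow,
          MonoidAlgebra.single_pow, one_pow, sub_mul, one_mul, single_fix hn1 hz3, sub_self]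
      have hex : ∃ i, u ^ i * n = 0 := ⟨_, hnil⟩
      set i := Nat.find hex with hi
      have hi0 : i ≠ 0 := by
        intro h
        have := Nat.find_spec hex
        rw [← hi, h, pow_zero, one_mul] at this
        exact hn0 this
      obtain ⟨l, hl⟩ := Nat.exists_eq_succ_of_ne_zero hi0
      have h5 : u ^ l * n ≠ 0 := fun h => by
        have := Nat.find_min' hex h
        omega
      have h6 : u * (u ^ l * n) = 0 := by
        rw [← mul_assoc, ← pow_succ']
        have := Nat.find_spec hex
        rw [← hi, hl] at this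
        exact this
      refine ⟨u ^ l * n, h5, (hpow l).1, (hpow l).2.1, ?_⟩
      intro y hy
      rcases Finset.mem_insert.mp hy with rfl | hy
      · rw [hu, sub_mul, one_mul, sub_eq_zero] at h6
        exact h6
      · exact (hpow l).2.2 y hy
  obtain ⟨n, h1, h2, h3, h4⟩ := key (Finset.univ.filter fun z => Am p V z)
    (fun z hz => (Finset.mem_filter.mp hz).2)
  exact ⟨n, h1, h2, h3, fun z hz => h4 z (Finset.mem_filter.mpr ⟨Finset.mem_univ z, hz⟩)⟩

/-- transport of `Am` -/
theorem Am.transfer {V V' : Subgroup H} (h1 : ∀ x ∈ V, x ∈ Nm V' → x ∈ V')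
    (h2 : ∀ y ∈ Nm V', ∃ v ∈ V', ∃ y1, y1 ∈ Nm V ∧ y1 ∈ Nm V' ∧ y = v * y1) {z v z1 : H}
    (hz : Am p V z) (hv : v ∈ V) (hz1 : z1 ∈ Nm V) (hz1' : z1 ∈ Nm V') (he : z = v * z1) :
    Am p V' z1 := by
  obtain ⟨hzN, hzc, m, hzm⟩ := hz
  refine ⟨hz1', ?_, m, ?_⟩
  · intro y hy
    obtain ⟨v', hv', y1, hy1, hy1', rfl⟩ := h2 y hy
    have h3 : z1 * y1 * z1⁻¹ * y1⁻¹ ∈ V := by
      refine comm_mod (w := v) (u := 1) hz1 hy1 hv V.one_mem ?_
      rw [← he, one_mul]
      exact hzc y1 hy1
    have h4 : z1 * y1 * z1⁻¹ * y1⁻¹ ∈ V' := h1 _ h3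
      ((Nm V').mul_mem ((Nm V').mul_mem ((Nm V').mul_mem hz1' hy1') ((Nm V').inv_mem hz1'))
        ((Nm V').inv_mem hy1'))
    have e1 : z1 * (v' * y1) * z1⁻¹ * (v' * y1)⁻¹ =
        (z1 * v' * z1⁻¹) * (z1 * y1 * z1⁻¹ * y1⁻¹) * v'⁻¹ := by group
    rw [e1]
    exact V'.mul_mem (V'.mul_mem (Nm_mul_mem hz1' hv') h4) (V'.inv_mem hv')
  · obtain ⟨w, hw, hw2⟩ := pow_mod hv hz1 (p ^ m)
    refine h1 _ ?_ ((Nm V').pow_mem hz1' _)
    have e1 : z1 ^ p ^ m = w⁻¹ * z ^ p ^ m := by rw [he, hw2, inv_mul_cancel_left]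
    rw [e1]
    exact V.mul_mem (V.inv_mem hw) hzm

theorem Am.conj {V : Subgroup H} {g z : H} (h : Am p (conjS g V) z) : Am p V (g⁻¹ * z * g) := by
  obtain ⟨h1, h2, m, h3⟩ := h
  refine ⟨mem_Nm_conjS.mp h1, ?_, m, ?_⟩
  · intro y hy
    have h4 : g * y * g⁻¹ ∈ Nm (conjS g V) := by
      rw [mem_Nm_conjS]
      have : g⁻¹ * (g * y * g⁻¹) * g = y := by group
      rwa [this]
    have h5 := mem_conjS.mp (h2 _ h4)
    have e1 : g⁻¹ * z * g * y * (g⁻¹ * z * g)⁻¹ * y⁻¹ =
        g⁻¹ * (z * (g * y * g⁻¹) * z⁻¹ * (g * y * g⁻¹)⁻¹) * g := by group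
    rw [e1]
    exact h5
  · have h4 := mem_conjS.mp h3
    have e1 : (g⁻¹ * z * g) ^ p ^ m = g⁻¹ * z ^ p ^ m * g := by
      have := conj_pow (a := g⁻¹) (b := z) (i := p ^ m)
      rw [inv_inv] at this
      exact this
    rw [e1]
    exact h4

variable (𝒱 : ParSys p H)

/-- **Abstract cuspidality lemma (B2).** -/
theorem cusp {X : Type*} [Fintype X] [MulAction H X] {a : X → MonoidAlgebra k H}
    (ha : ∀ h x, MonoidAlgebra.single h 1 * a x = a (h • x) * MonoidAlgebra.single h 1)
    {c : MonoidAlgebra k H} (hc : c = ∑ x, a x) (hcc : c * c = c)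
    (hz : ∀ V ∈ 𝒱.car, V ≠ ⊥ → ∃ z ∈ Subgroup.normalizer (V : Set H),
      (∀ y ∈ Subgroup.normalizer (V : Set H), z * y * z⁻¹ * y⁻¹ ∈ V) ∧
      (∃ m : ℕ, z ^ p ^ m = 1) ∧ ∀ x : X, z • x ≠ x) :
    ∀ V ∈ 𝒱.car, V ≠ ⊥ → av k V * c = 0 := by
  classical
  by_contra hcon
  push Not at hcon
  have hcard : ∀ V ∈ 𝒱.car, ((Nat.card V : ℕ) : k) ≠ 0 := fun V hV h =>
    𝒱.card V hV ((CharP.cast_eq_zero_iff k p _).mp h)
  have hcs : ∀ h : H, MonoidAlgebra.single h 1 * c = c * MonoidAlgebra.single h 1 := by
    intro h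
    rw [hc, Finset.mul_sum, Finset.sum_mul, Finset.sum_congr rfl fun x _ => ha h x]
    exact Equiv.sum_comp (MulAction.toPerm h) (fun x => a x * MonoidAlgebra.single h (1 : k))
  have hcc' : ∀ y : MonoidAlgebra k H, y * c = c * y := by
    intro y
    induction y using MonoidAlgebra.induction_linear with
    | zero => rw [zero_mul, mul_zero]
    | add x y hx hy => rw [add_mul, mul_add, hx, hy]
    | single g r =>
      have h6 : MonoidAlgebra.single g r = r • MonoidAlgebra.single g (1 : k) := by
        rw [MonoidAlgebra.smul_single, smul_eq_mul, mul_one]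
      rw [h6, smul_mul_assoc, mul_smul_comm, hcs]
  -- a maximal member
  obtain ⟨V, hmax⟩ := (Set.toFinite {V : Subgroup H | V ∈ 𝒱.car ∧ V ≠ ⊥ ∧ av k V * c ≠ 0}).exists_maximal
    (by
      obtain ⟨V, h1, h2, h3⟩ := hcon
      exact ⟨V, h1, h2, h3⟩)
  obtain ⟨hV, hV0, hVc⟩ := hmax.prop
  have hbig : ∀ W ∈ 𝒱.car, V < W → av k W * c = 0 := by
    intro W hW hlt
    by_contra h
    have h1 := hmax.le_of_ge (show W ∈ {V : Subgroup H | V ∈ 𝒱.car ∧ V ≠ ⊥ ∧ av k V * c ≠ 0} from
      ⟨hW, fun h0 => by rw [h0] at hlt; exact not_lt_bot hlt, h⟩) hlt.le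
    exact absurd h1 (not_le_of_gt hlt)
  obtain ⟨n, hn0, hn1, hn2, hn3⟩ := exists_fixed (p := p) (hcard V hV) hcc hVc
  have hn2' : c * n = n := by rw [← hcc', hn2]
  -- elements of `Am V` fix all `e_V g n`
  have hfix : ∀ z, Am p V z → ∀ g : H, MonoidAlgebra.single z (1 : k) *
      (av k V * (MonoidAlgebra.single g 1 * n)) = av k V * (MonoidAlgebra.single g 1 * n) := by
    intro z hzA g
    set V' : Subgroup H := conjS g V with hV'
    have hV'c : V' ∈ 𝒱.car := 𝒱.conj V hV g
    have hgn : av k V' * (MonoidAlgebra.single g 1 * n) = MonoidAlgebra.single g 1 * n := by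
      rw [← mul_assoc, ← single_mul_av, mul_assoc, hn1]
    have hgc : c * (MonoidAlgebra.single g 1 * n) = MonoidAlgebra.single g 1 * n := by
      rw [← mul_assoc, ← hcs, mul_assoc, hn2']
    by_cases hA : Nm V ⊓ V' ≤ V
    · by_cases hB : Nm V' ⊓ V ≤ V'
      · -- associated case
        have e1 : V ⊔ (Nm V ⊓ V') = V := sup_eq_left.mpr hA
        have e2 : V' ⊔ (Nm V' ⊓ V) = V' := sup_eq_left.mpr hB
        have h1 := 𝒱.norm V hV V' hV'c
        have h2 := 𝒱.norm V' hV'c V hV
        change Nm (V ⊔ (Nm V ⊓ V')) = V ⊔ (Nm V ⊓ Nm V') at h1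
        change Nm (V' ⊔ (Nm V' ⊓ V)) = V' ⊔ (Nm V' ⊓ Nm V) at h2
        rw [e1] at h1
        rw [e2] at h2
        have hzN : z ∈ V ⊔ (Nm V ⊓ Nm V') := h1 ▸ hzA.1
        obtain ⟨v, hv, z1, hz1, hze⟩ := mem_sup_Nm (K := Nm V ⊓ Nm V') inf_le_left hzN
        have h3 : Am p V' z1 := by
          refine Am.transfer (V := V) (fun x hx hx' => hB ⟨hx', hx⟩) ?_ hzA hv hz1.1 hz1.2 hze
          intro y hy
          have hyN : y ∈ V' ⊔ (Nm V' ⊓ Nm V) := h2 ▸ hy
          obtain ⟨w, hw, y1, hy1, hye⟩ := mem_sup_Nm (K := Nm V' ⊓ Nm V) inf_le_left hyN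
          exact ⟨w, hw, y1, hy1.2, hy1.1, hye⟩
        have h4 := hn3 _ (Am.conj h3)
        have h5 : MonoidAlgebra.single z1 (1 : k) * (MonoidAlgebra.single g 1 * n) =
            MonoidAlgebra.single g 1 * n := by
          have e3 : z1 * g = g * (g⁻¹ * z1 * g) := by group
          rw [← mul_assoc, single_mul', e3, ← single_mul', mul_assoc, h4]
        calc MonoidAlgebra.single z (1 : k) * (av k V * (MonoidAlgebra.single g 1 * n))
            = MonoidAlgebra.single v 1 * ((MonoidAlgebra.single z1 1 * av k V) *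
                (MonoidAlgebra.single g 1 * n)) := by
              rw [hze, ← single_mul']; simp only [mul_assoc]
          _ = (MonoidAlgebra.single v 1 * av k V) * (MonoidAlgebra.single z1 1 *
                (MonoidAlgebra.single g 1 * n)) := by
              rw [single_av hz1.1]; simp only [mul_assoc]
          _ = av k V * (MonoidAlgebra.single g 1 * n) := by rw [av_left V hv, h5]
      · -- `V` meets `N(V')` outside `V'`
        have h0 : av k V * (MonoidAlgebra.single g 1 * n) = 0 := by
          set K' : Subgroup H := Nm V' ⊓ V with hK'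
          set W : Subgroup H := V' ⊔ K' with hW
          have hWc : W ∈ 𝒱.car := 𝒱.star V' hV'c V hV
          have hlt : V' < W := lt_of_le_of_ne le_sup_left fun h => hB (by
            rw [h]; exact le_sup_right)
          have hK0 : ((Nat.card K' : ℕ) : k) ≠ 0 := by
            intro h
            apply hcard V hV
            obtain ⟨d, hd⟩ := Subgroup.card_dvd_of_le (inf_le_right : K' ≤ V)
            rw [hd, Nat.cast_mul, h, zero_mul]
          have h1 : av k V * av k V' = av k V * av k W := by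
            calc av k V * av k V' = av k V * av k K' * av k V' := by
                  rw [av_le_right (k := k) hK0 (inf_le_right : K' ≤ V)]
              _ = av k V * av k W := by
                  rw [mul_assoc, av_sup' (hcard V' hV'c) hK0 (hcard W hWc) inf_le_left
                    le_sup_left le_sup_right (fun w hw => mem_sup_Nm inf_le_left hw)]
          have h2 : av k W * c = 0 := by
            have h3 : conjS g⁻¹ W ∈ 𝒱.car := 𝒱.conj W hWc g⁻¹
            have h4 : V < conjS g⁻¹ W := by
              refine lt_of_le_not_ge (fun x hx => ?_) fun hle => ?_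
              · rw [mem_conjS, inv_inv]
                apply hlt.le
                rw [hV', mem_conjS]
                have e3 : g⁻¹ * (g * x * g⁻¹) * g = x := by group
                rwa [e3]
              · apply hlt.not_ge
                intro w hw
                rw [hV', mem_conjS]
                apply hle
                rw [mem_conjS, inv_inv]
                have e3 : g * (g⁻¹ * w * g) * g⁻¹ = w := by group
                rwa [e3]
            have h5 := hbig _ h3 h4
            have h6 := single_mul_av (k := k) W g⁻¹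
            calc av k W * c = MonoidAlgebra.single g 1 * (MonoidAlgebra.single g⁻¹ 1 * av k W) *
                  c := by
                  rw [← mul_assoc, single_mul', mul_inv_cancel, ← MonoidAlgebra.one_def, one_mul]
              _ = MonoidAlgebra.single g 1 * (av k (conjS g⁻¹ W) * (MonoidAlgebra.single g⁻¹ 1 *
                  c)) := by rw [h6]; simp only [mul_assoc]
              _ = MonoidAlgebra.single g 1 * ((av k (conjS g⁻¹ W) * c) *
                  MonoidAlgebra.single g⁻¹ 1) := by rw [hcs]; simp only [mul_assoc]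
              _ = 0 := by rw [h5, zero_mul, mul_zero]
          rw [← hgn, ← mul_assoc, h1, ← hgc, mul_assoc, ← mul_assoc (av k W), h2, zero_mul,
            mul_zero]
        rw [h0, mul_zero]
    · have h0 : av k V * (MonoidAlgebra.single g 1 * n) = 0 := by
        set K' : Subgroup H := Nm V ⊓ V' with hK'
        set W : Subgroup H := V ⊔ K' with hW
        have hWc : W ∈ 𝒱.car := 𝒱.star V hV V' hV'c
        have hlt : V < W := lt_of_le_of_ne le_sup_left fun h => hA (by
          rw [h]; exact le_sup_right)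
        have hK0 : ((Nat.card K' : ℕ) : k) ≠ 0 := by
          intro h
          apply hcard V' hV'c
          obtain ⟨d, hd⟩ := Subgroup.card_dvd_of_le (inf_le_right : K' ≤ V')
          rw [hd, Nat.cast_mul, h, zero_mul]
        have h1 : av k V * av k V' = av k W * av k V' := by
          calc av k V * av k V' = av k V * (av k K' * av k V') := by
                rw [av_le_left (k := k) hK0 (inf_le_right : K' ≤ V')]
            _ = av k W * av k V' := by
                rw [← mul_assoc, av_sup (hcard V hV) hK0 (hcard W hWc) inf_le_left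
                  le_sup_left le_sup_right (fun w hw => mem_sup_Nm inf_le_left hw)]
        rw [← hgn, ← mul_assoc, h1, mul_assoc, hgn, ← hgc, ← mul_assoc, hbig W hWc hlt, zero_mul]
      rw [h0, mul_zero]
  have hfix' : ∀ z, Am p V z → ∀ y : MonoidAlgebra k H, MonoidAlgebra.single z (1 : k) *
      (av k V * (y * n)) = av k V * (y * n) := by
    intro z hzA y
    induction y using MonoidAlgebra.induction_linear with
    | zero => simp only [zero_mul, mul_zero]
    | add x y hx hy => rw [add_mul, mul_add, mul_add, hx, hy]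
    | single g r =>
      have h6 : MonoidAlgebra.single g r = r • MonoidAlgebra.single g (1 : k) := by
        rw [MonoidAlgebra.smul_single, smul_eq_mul, mul_one]
      rw [h6, smul_mul_assoc, mul_smul_comm, mul_smul_comm, hfix z hzA g]
  obtain ⟨z, hzN, hzc, ⟨m, hzm⟩, hzx⟩ := hz V hV hV0
  have hzA : Am p V z := ⟨hzN, hzc, m, by rw [hzm]; exact V.one_mem⟩
  -- the terms
  set t : X → MonoidAlgebra k H := fun x => av k V * (a x * n) with ht
  have ht1 : ∀ x, t (z • x) = t x := by
    intro x
    have h1 : MonoidAlgebra.single z (1 : k) * t x = t (z • x) := by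
      calc MonoidAlgebra.single z (1 : k) * (av k V * (a x * n))
          = (MonoidAlgebra.single z 1 * av k V) * (a x * n) := by rw [mul_assoc]
        _ = av k V * ((MonoidAlgebra.single z 1 * a x) * n) := by
            rw [single_av hzN]; simp only [mul_assoc]
        _ = av k V * (a (z • x) * (MonoidAlgebra.single z 1 * n)) := by
            rw [ha]; simp only [mul_assoc]
        _ = av k V * (a (z • x) * n) := by rw [hn3 z hzA]
    rw [← h1, ht]
    exact hfix' z hzA _
  have hP : IsPGroup p (Subgroup.zpowers z) := by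
    rintro ⟨_, i, rfl⟩
    refine ⟨m, Subtype.ext ?_⟩
    change (z ^ i) ^ p ^ m = 1
    rw [← zpow_natCast, ← zpow_mul, mul_comm, zpow_mul, zpow_natCast, hzm, one_zpow]
  have ht2 : ∀ (g : Subgroup.zpowers z) (x : X), t (g • x) = t x := by
    rintro ⟨_, i, rfl⟩ x
    change t (z ^ i • x) = t x
    have h1 : ∀ (j : ℕ) (x : X), t (z ^ j • x) = t x := by
      intro j
      induction j with
      | zero => intro x; rw [pow_zero, one_smul]
      | succ j ih => intro x; rw [pow_succ, mul_smul, ih, ht1]
    rcases i with i | i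
    · rw [Int.ofNat_eq_natCast, zpow_natCast]
      exact h1 i x
    · rw [zpow_negSucc]
      have h2 := h1 (i + 1) ((z ^ (i + 1))⁻¹ • x)
      rw [smul_inv_smul] at h2
      exact h2.symm
  have h7 := sum_zero (k := k) hP t ht2 (fun x => ⟨⟨z, Subgroup.mem_zpowers z⟩, hzx x⟩)
  apply hn0
  rw [← hn1, ← hn2', hc, Finset.sum_mul, Finset.mul_sum]
  exact h7

/-- coefficients of `e_V c` -/
theorem av_mul_coeff (V : Subgroup H) [Fintype V] (c : MonoidAlgebra k H) (h : H) :
    (av k V * c).coeff h = ((Nat.card V : ℕ) : k)⁻¹ * ∑ v : V, c.coeff ((v : H) * h) := by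
  classical
  have e1 : av k V = (((Nat.card V : ℕ) : k)⁻¹) • ∑ v : V, MonoidAlgebra.single (v : H) 1 := by
    have h0 : Fintype.ofFinite V = (inferInstance : Fintype V) := Subsingleton.elim _ _
    unfold av
    rw [h0]
  rw [e1, smul_mul_assoc, MonoidAlgebra.coeff_smul, Finsupp.smul_apply, smul_eq_mul,
    Finset.sum_mul, MonoidAlgebra.coeff_sum, Finsupp.finset_sum_apply]
  congr 1
  have e2 : ∀ v : V, (MonoidAlgebra.single (v : H) (1 : k) * c).coeff h =
      c.coeff ((v : H)⁻¹ * h) := by
    intro v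
    rw [MonoidAlgebra.coeff_single_mul_apply, one_mul]
  rw [Finset.sum_congr rfl fun v _ => e2 v]
  exact Equiv.sum_comp (Equiv.inv V) (fun v : V => c.coeff ((v : H) * h))

/-- **(B2)**, coefficient form. -/
theorem cusp_coeff {X : Type*} [Fintype X] [MulAction H X] {a : X → MonoidAlgebra k H}
    (ha : ∀ h x, MonoidAlgebra.single h 1 * a x = a (h • x) * MonoidAlgebra.single h 1)
    {c : MonoidAlgebra k H} (hc : c = ∑ x, a x) (hcc : c * c = c)
    (hz : ∀ V ∈ 𝒱.car, V ≠ ⊥ → ∃ z ∈ Subgroup.normalizer (V : Set H),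
      (∀ y ∈ Subgroup.normalizer (V : Set H), z * y * z⁻¹ * y⁻¹ ∈ V) ∧
      (∃ m : ℕ, z ^ p ^ m = 1) ∧ ∀ x : X, z • x ≠ x)
    {V : Subgroup H} [Fintype V] (hV : V ∈ 𝒱.car) (hV0 : V ≠ ⊥) (h : H) :
    ∑ v : V, c.coeff ((v : H) * h) = 0 := by
  have h1 := congrArg (fun y => y.coeff h) (cusp 𝒱 ha hc hcc hz V hV hV0)
  simp only [av_mul_coeff] at h1
  have h2 : ((Nat.card V : ℕ) : k)⁻¹ ≠ 0 := inv_ne_zero fun h =>
    𝒱.card V hV ((CharP.cast_eq_zero_iff k p _).mp h)
  exact (mul_eq_zero.mp h1).resolve_left h2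

end

end Vale.Agent.P180.H19.Cusp
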