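import Vale.Agent.P180.H19.Hom

/-!
P180, leaf B2b (ii) (helper19): the field generated by a linear equivalence with irreducible
minimal polynomial.
-/

set_option linter.all false

namespace Vale.Agent.P180.H19.Hom

open Module Polynomial Vale.Agent.P180.H951

section

variable {F V : Type} [Field F] [AddCommGroup V] [Module F V]

/-- **The field generated by `x`.** -/
theorem exists_ext [Finite V] [Nontrivial V] (x : V ≃ₗ[F] V)
    (h : Irreducible (minpoly F (tE x))) :
    ∃ (E : Type) (_ : Field E) (_ : Finite E) (_ : Algebra F E) (_ : Module E V)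
      (_ : IsScalarTower F E V) (ζ : E), (∀ v, x v = ζ • v) ∧ Algebra.adjoin F {ζ} = ⊤ ∧
        Nat.card E = Nat.card F ^ (minpoly F (tE x)).natDegree := by
  haveI hF : Finite F := by
    obtain ⟨v, hv⟩ := exists_ne (0 : V)
    exact Finite.of_injective (fun c : F => c • v) (smul_left_injective F hv)
  haveI hfd : Module.Finite F V := Module.Finite.of_finite
  haveI : Fact (Irreducible (minpoly F (tE x))) := ⟨h⟩
  have hint : IsIntegral F (tE x) := Algebra.IsIntegral.isIntegral _
  have hmon : (minpoly F (tE x)).Monic := minpoly.monic hint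
  let Φ : AdjoinRoot (minpoly F (tE x)) →ₐ[F] End F V :=
    Ideal.Quotient.liftₐ (Ideal.span {minpoly F (tE x)}) (aeval (tE x)) (by
      intro a ha
      obtain ⟨b, rfl⟩ := Ideal.mem_span_singleton'.mp ha
      rw [map_mul, minpoly.aeval, mul_zero])
  have hΦ : Φ (AdjoinRoot.root _) = tE x := by
    change aeval (tE x) X = tE x
    rw [aeval_X]
  letI mod : Module (AdjoinRoot (minpoly F (tE x))) V := Module.compHom V Φ.toRingHom
  haveI tow : IsScalarTower F (AdjoinRoot (minpoly F (tE x))) V := by
    refine ⟨fun c e v => ?_⟩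
    change Φ (c • e) v = c • Φ e v
    rw [map_smul]
    rfl
  haveI fdE : Module.Finite F (AdjoinRoot (minpoly F (tE x))) := hmon.finite_adjoinRoot
  haveI finE : Finite (AdjoinRoot (minpoly F (tE x))) := Module.finite_of_finite F
  refine ⟨AdjoinRoot (minpoly F (tE x)), inferInstance, finE, inferInstance, mod, tow,
    AdjoinRoot.root _, ?_, ?_, ?_⟩
  · intro v
    change x v = Φ (AdjoinRoot.root _) v
    rw [hΦ]
    rfl
  · exact AdjoinRoot.adjoinRoot_eq_top
  · rw [Module.natCard_eq_pow_finrank (K := F)]
    congr 1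
    exact (AdjoinRoot.powerBasis' hmon).finrank

end

end Vale.Agent.P180.H19.Hom
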