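import Vale.Agent.P180.H951.Dec
import Mathlib.FieldTheory.Fixed
import Mathlib.NumberTheory.Padics.PadicVal.Basic

/-!
P180, project F, leaf G1 (helper19): a field automorphism of `p`-power order does not centralise a
noncentral abelian defect group.
-/

set_option linter.all false

namespace Vale.Agent.P180.H19.Gal

open Module Polynomial Vale.Agent.P180.H951

/-- `p ^ (a + 1)` divides `r ^ p - 1` if `p ^ a` divides `r - 1`, `a ≥ 1` -/
theorem pow_succ_dvd {p a r : ℕ} [Fact p.Prime] (ha : 1 ≤ a) (hr : 1 ≤ r) (h : p ^ a ∣ r - 1) :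
    p ^ (a + 1) ∣ r ^ p - 1 := by
  have h1 : (∑ i ∈ Finset.range p, r ^ i) * (r - 1) = r ^ p - 1 := geom_sum_mul_of_one_le hr p
  rw [← h1, pow_succ, mul_comm (∑ i ∈ Finset.range p, r ^ i)]
  refine Nat.mul_dvd_mul h ?_
  rw [← CharP.cast_eq_zero_iff (ZMod p) p]
  have h2 : (r : ZMod p) = 1 := by
    have h3 : p ∣ r - 1 := (dvd_pow_self p (by omega)).trans h
    have h4 : ((r - 1 : ℕ) : ZMod p) = 0 := (CharP.cast_eq_zero_iff (ZMod p) p _).mpr h3
    rw [Nat.cast_sub hr, Nat.cast_one, sub_eq_zero] at h4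
    exact h4
  push_cast
  rw [h2]
  simp

section FL

variable {E : Type*} [Field E] [Finite E] {p : ℕ} [hp : Fact p.Prime]

/-- a `p`-element of a finite field -/
theorem dvd_card_of_ne {u : E} (hu : u ≠ 1) {n : ℕ} (hn : u ^ p ^ n = 1) : p ∣ Nat.card E - 1 := by
  have := Fintype.ofFinite E
  have h0 : u ≠ 0 := by
    rintro rfl
    rw [zero_pow (pow_ne_zero _ hp.out.ne_zero)] at hn
    exact zero_ne_one hn
  have h1 : u ^ (Nat.card E - 1) = 1 := by
    rw [Nat.card_eq_fintype_card]; exact FiniteField.pow_card_sub_one_eq_one u h0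
  obtain ⟨j, -, hj⟩ := (Nat.dvd_prime_pow hp.out).mp (orderOf_dvd_of_pow_eq_one hn)
  have h2 := orderOf_dvd_of_pow_eq_one h1
  rw [hj] at h2
  rcases Nat.eq_zero_or_pos j with h3 | h3
  · rw [h3, pow_zero, orderOf_eq_one_iff] at hj
    exact absurd hj hu
  · exact (dvd_pow_self p (by omega)).trans h2

/-- an element of order `p ^ a` -/
theorem exists_orderOf {a : ℕ} (h : p ^ a ∣ Nat.card E - 1) : ∃ ζ : E, orderOf ζ = p ^ a := by
  obtain ⟨g, hg⟩ := IsCyclic.exists_ofOrder_eq_natCard (α := Eˣ)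
  have hc : Nat.card Eˣ = Nat.card E - 1 := Nat.card_units E
  rw [hc] at hg
  have hpos : 0 < Nat.card E - 1 := by
    have := Finite.one_lt_card (α := E)
    omega
  obtain ⟨b, hb⟩ := h
  have hb0 : b ≠ 0 := by
    rintro rfl
    rw [mul_zero] at hb
    omega
  refine ⟨((g ^ b : Eˣ) : E), ?_⟩
  rw [orderOf_units, orderOf_pow_of_dvd hb0 (by rw [hg, hb]; exact dvd_mul_left _ _), hg, hb]
  exact Nat.mul_div_cancel _ (Nat.pos_of_ne_zero hb0)

/-- **An automorphism of `p`-power order of a finite field which fixes the `p`-elements is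
trivial, if there are nontrivial `p`-elements.** -/
theorem aut_eq_one {τ : E ≃+* E} {m : ℕ} (hτ : τ ^ p ^ m = 1)
    (hfix : ∀ u : E, (∃ n : ℕ, u ^ p ^ n = 1) → τ u = u) (hne : p ∣ Nat.card E - 1) : τ = 1 := by
  by_contra h1
  obtain ⟨t, -, ht⟩ := (Nat.dvd_prime_pow hp.out).mp (orderOf_dvd_of_pow_eq_one hτ)
  have ht0 : t ≠ 0 := by
    rintro rfl
    rw [pow_zero, orderOf_eq_one_iff] at ht
    exact h1 ht
  obtain ⟨s, rfl⟩ := Nat.exists_eq_succ_of_ne_zero ht0
  set τ' : RingAut E := τ ^ p ^ s with hτ'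
  have hord : orderOf τ' = p := by
    rw [hτ', orderOf_pow_of_dvd (pow_ne_zero _ hp.out.ne_zero) (by rw [ht]; exact pow_dvd_pow p (Nat.le_succ s)),
      ht, Nat.succ_eq_add_one, pow_succ, Nat.mul_div_cancel_left _ (pow_pos hp.out.pos _)]
  have hfix' : ∀ u : E, (∃ n : ℕ, u ^ p ^ n = 1) → τ' u = u := by
    intro u hu
    have h2 : ∀ i : ℕ, (τ ^ i : RingAut E) u = u := by
      intro i
      induction i with
      | zero => rfl
      | succ i ih => rw [pow_succ, RingAut.mul_apply, hfix u hu, ih]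
    exact h2 _
  let G : Subgroup (RingAut E) := Subgroup.zpowers τ'
  have hGf : Finite G := by
    have : IsOfFinOrder τ' := by
      rw [← orderOf_pos_iff, hord]
      exact hp.out.pos
    exact Nat.finite_of_card_ne_zero (by rw [Nat.card_zpowers, hord]; exact hp.out.ne_zero)
  have hGft := Fintype.ofFinite G
  have hGc : Nat.card G = p := by rw [Nat.card_zpowers, hord]
  have hfr : Module.finrank (FixedPoints.subfield G E) E = p := by
    rw [FixedPoints.finrank_eq_card G E, ← Nat.card_eq_fintype_card, hGc]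
  have hE : Nat.card E = Nat.card (FixedPoints.subfield G E) ^ p := by
    rw [Module.natCard_eq_pow_finrank (K := FixedPoints.subfield G E) (V := E), hfr]
  -- the exact power
  have hEpos : Nat.card E - 1 ≠ 0 := by
    have := Finite.one_lt_card (α := E)
    omega
  set a := padicValNat p (Nat.card E - 1) with ha
  have ha1 : 1 ≤ a := one_le_padicValNat_of_dvd hEpos hne
  have hda : p ^ a ∣ Nat.card E - 1 := pow_padicValNat_dvd
  have hnda : ¬ p ^ (a + 1) ∣ Nat.card E - 1 := pow_succ_padicValNat_not_dvd hEpos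
  obtain ⟨ζ, hζ⟩ := exists_orderOf (E := E) hda
  have hζ1 : ζ ^ p ^ a = 1 := by rw [← hζ]; exact pow_orderOf_eq_one ζ
  have hζF : ζ ∈ FixedPoints.subfield G E := by
    rintro ⟨g, hg⟩
    obtain ⟨i, rfl⟩ := Subgroup.mem_zpowers_iff.mp hg
    change (τ' ^ i) ζ = ζ
    have h3 : τ' ∈ MulAction.stabilizer (RingAut E) ζ := hfix' ζ ⟨a, hζ1⟩
    exact MulAction.mem_stabilizer_iff.mp (Subgroup.zpow_mem _ h3 i)
  have hF0 : p ^ a ∣ Nat.card (FixedPoints.subfield G E) - 1 := by
    have hft := Fintype.ofFinite (FixedPoints.subfield G E)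
    have h0 : (⟨ζ, hζF⟩ : FixedPoints.subfield G E) ≠ 0 := by
      intro h
      have h2 : ζ = 0 := congrArg Subtype.val h
      rw [h2, zero_pow (pow_ne_zero _ hp.out.ne_zero)] at hζ1
      exact zero_ne_one hζ1
    have h2 := FiniteField.pow_card_sub_one_eq_one _ h0
    have h3 : ζ ^ (Nat.card (FixedPoints.subfield G E) - 1) = 1 := by
      have := congrArg Subtype.val h2
      rw [Nat.card_eq_fintype_card]
      exact this
    rw [← hζ]
    exact orderOf_dvd_of_pow_eq_one h3
  apply hnda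
  rw [hE]
  exact pow_succ_dvd ha1 Nat.card_pos hF0

end FL

end Vale.Agent.P180.H19.Gal
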