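import Vale.Agent.P180.H19.Gal

/-!
P180, project F, leaf G1 (helper19), part 2: the statement for a finite reduced commutative algebra.
-/

set_option linter.all false

namespace Vale.Agent.P180.H19.Gal

section FI

variable {B : Type*} [CommRing B]

/-- an idempotent whose corner is a field -/
structure FI (e : B) : Prop where
  idem : e * e = e
  ne : e ≠ 0
  inv : ∀ b, b * e = 0 ∨ ∃ y, b * y * e = e

theorem exists_FI [Finite B] [IsReduced B] {b : B} (hb : b ≠ 0) : ∃ e, FI e ∧ b * e ≠ 0 := by
  classical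
  have hart : IsArtinianRing B := inferInstance
  let ψ := IsArtinianRing.equivPi B
  have h1 : ψ b ≠ 0 := by
    rw [Ne, map_eq_zero_iff ψ ψ.injective]
    exact hb
  obtain ⟨I, hI⟩ := Function.ne_iff.mp h1
  have hI' : ψ b I ≠ 0 := hI
  have hfield : IsField (B ⧸ I.asIdeal) :=
    (Ideal.Quotient.maximal_ideal_iff_isField_quotient _).mp I.isMaximal
  have hnt : Nontrivial (B ⧸ I.asIdeal) := hfield.nontrivial
  let e : B := ψ.symm (Pi.single I 1)
  have he : ψ e = Pi.single I 1 := ψ.apply_symm_apply _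
  have key : ∀ c, ψ (c * e) = Pi.single I (ψ c I) := by
    intro c
    rw [map_mul, he]
    funext J
    rw [Pi.mul_apply]
    by_cases hJ : J = I
    · subst hJ
      rw [Pi.single_eq_same, Pi.single_eq_same, mul_one]
    · rw [Pi.single_eq_of_ne hJ, Pi.single_eq_of_ne hJ, mul_zero]
  refine ⟨e, ⟨?_, ?_, ?_⟩, ?_⟩
  · apply ψ.injective
    rw [key, he, Pi.single_eq_same]
  · intro h
    have h2 := congrFun he I
    rw [h, map_zero, Pi.zero_apply, Pi.single_eq_same] at h2
    exact zero_ne_one h2
  · intro c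
    by_cases hc : ψ c I = 0
    · left
      apply ψ.injective
      rw [key, hc, map_zero, Pi.single_zero]
    · right
      obtain ⟨y, hy⟩ := hfield.mul_inv_cancel hc
      refine ⟨ψ.symm (Pi.single I y), ?_⟩
      apply ψ.injective
      rw [key, map_mul, ψ.apply_symm_apply, Pi.mul_apply, Pi.single_eq_same, hy, he]
  · intro h
    have h2 := congrFun (key b) I
    rw [h, map_zero, Pi.zero_apply, Pi.single_eq_same] at h2
    exact hI' h2.symm

theorem FI.eq_of_mul_ne {e f : B} (he : FI e) (hf : FI f) (h : e * f ≠ 0) : e = f := by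
  have h1 : e * f = f := by
    obtain ⟨y, hy⟩ := (hf.inv e).resolve_left h
    calc e * f = e * (e * y * f) := by rw [hy]
      _ = (e * e) * y * f := by ring
      _ = f := by rw [he.idem, hy]
  have h2 : f * e = e := by
    obtain ⟨y, hy⟩ := (he.inv f).resolve_left (by rwa [mul_comm])
    calc f * e = f * (f * y * e) := by rw [hy]
      _ = (f * f) * y * e := by ring
      _ = e := by rw [hf.idem, hy]
  rw [← h2, mul_comm, h1]

theorem FI.map {e : B} (he : FI e) (τ : B ≃+* B) : FI (τ e) := by
  refine ⟨by rw [← map_mul, he.idem], fun h => he.ne ?_, fun b => ?_⟩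
  · exact (map_eq_zero_iff τ τ.injective).mp h
  · rcases he.inv (τ.symm b) with h | ⟨y, hy⟩
    · left
      have := congrArg τ h
      rwa [map_mul, τ.apply_symm_apply, map_zero] at this
    · right
      refine ⟨τ y, ?_⟩
      have := congrArg τ hy
      rwa [map_mul, map_mul, τ.apply_symm_apply] at this

theorem FI.pow {e : B} (he : FI e) (b : B) (k : ℕ) :
    (b * e + (1 - e)) ^ k = b ^ k * e + (1 - e) := by
  induction k with
  | zero => rw [pow_zero, pow_zero, one_mul]; ring
  | succ k ih =>
    rw [pow_succ, ih]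
    have h1 : (b ^ k * e + (1 - e)) * (b * e + (1 - e)) =
        b ^ k * b * (e * e) + b ^ k * (e - e * e) + b * (e - e * e) + (1 - e - (e - e * e)) := by
      ring
    rw [h1, he.idem, pow_succ]
    ring

/-- the annihilator -/
def FI.ann (e : B) : Ideal B where
  carrier := {b | b * e = 0}
  add_mem' := by
    intro a b ha hb
    change (a + b) * e = 0
    rw [add_mul]
    change a * e = 0 at ha
    change b * e = 0 at hb
    rw [ha, hb, add_zero]
  zero_mem' := zero_mul e
  smul_mem' := by
    intro c a ha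
    change c * a * e = 0
    change a * e = 0 at ha
    rw [mul_assoc, ha, mul_zero]

theorem FI.mem_ann {e b : B} : b ∈ FI.ann e ↔ b * e = 0 := Iff.rfl

theorem FI.isMaximal {e : B} (he : FI e) : (FI.ann e).IsMaximal := by
  rw [Ideal.isMaximal_iff]
  refine ⟨?_, ?_⟩
  · rw [FI.mem_ann, one_mul]
    exact he.ne
  · intro J x hJ hx hxJ
    rw [FI.mem_ann] at hx
    obtain ⟨y, hy⟩ := (he.inv x).resolve_left hx
    have h1 : x * y - 1 ∈ J := hJ (by rw [FI.mem_ann, sub_mul, hy, one_mul, sub_self])
    have h2 : (1 : B) = y * x - (x * y - 1) := by ring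
    rw [h2]
    exact J.sub_mem (J.mul_mem_left y hxJ) h1

variable {K : Type*} [Field K] [Algebra K B] {p : ℕ} [hp : Fact p.Prime]

theorem FI.alg_mul_eq {e : B} (he : e ≠ 0) {c d : K}
    (h : algebraMap K B c * e = algebraMap K B d * e) : c = d := by
  by_contra hne
  have h1 : algebraMap K B (c - d) * e = 0 := by rw [map_sub, sub_mul, h, sub_self]
  have h2 : c - d ≠ 0 := sub_ne_zero.mpr hne
  apply he
  calc e = algebraMap K B ((c - d)⁻¹ * (c - d)) * e := by
        rw [inv_mul_cancel₀ h2, map_one, one_mul]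
    _ = algebraMap K B (c - d)⁻¹ * (algebraMap K B (c - d) * e) := by rw [map_mul, mul_assoc]
    _ = 0 := by rw [h1, mul_zero]

/-- **one component** -/
theorem FI.core [Finite B] {σ : K ≃+* K} {τ : RingAut B} {m : ℕ}
    (hτ : ∀ c, τ (algebraMap K B c) = algebraMap K B (σ c)) (hτm : τ ^ p ^ m = 1) {e : B}
    (he : FI e) (hτe : τ e = e)
    (hfix : ∀ b : B, (∃ n : ℕ, b ^ p ^ n * e = e) → τ b * e = b * e)
    (hne : ∃ b : B, b * e ≠ e ∧ ∃ n : ℕ, b ^ p ^ n * e = e) : σ = 1 := by
  have hmax := he.isMaximal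
  let I := FI.ann e
  letI : Field (B ⧸ I) := Ideal.Quotient.field I
  haveI : Finite (B ⧸ I) := Finite.of_surjective _ Ideal.Quotient.mk_surjective
  have hmk : ∀ b, Ideal.Quotient.mk I b = 0 ↔ b * e = 0 := fun b => Ideal.Quotient.eq_zero_iff_mem
  have hmk' : ∀ b c, Ideal.Quotient.mk I b = Ideal.Quotient.mk I c ↔ b * e = c * e := fun b c => by
    rw [← sub_eq_zero, ← map_sub, hmk, sub_mul, sub_eq_zero]
  have hI : I = I.map (τ : B →+* B) := by
    have h1 : I.map (τ : B →+* B) = I.comap (τ.symm : B →+* B) := Ideal.map_comap_of_equiv τ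
    rw [h1]
    ext b
    rw [Ideal.mem_comap]
    change b * e = 0 ↔ τ.symm b * e = 0
    constructor
    · intro h
      apply τ.injective
      rw [map_mul, map_zero, hτe]
      have : τ (τ.symm b) = b := τ.apply_symm_apply b
      rw [this, h]
    · intro h
      have := congrArg τ h
      rw [map_mul, map_zero, hτe] at this
      have h2 : τ (τ.symm b) = b := τ.apply_symm_apply b
      rwa [h2] at this
  let τ' : RingAut (B ⧸ I) := Ideal.quotientEquiv I I τ hI
  have hτ' : ∀ b, τ' (Ideal.Quotient.mk I b) = Ideal.Quotient.mk I (τ b) := fun b => rfl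
  have hpow : ∀ (i : ℕ) b, (τ' ^ i) (Ideal.Quotient.mk I b) = Ideal.Quotient.mk I ((τ ^ i) b) := by
    intro i
    induction i with
    | zero => intro b; rfl
    | succ i ih =>
      intro b
      rw [pow_succ, pow_succ, RingAut.mul_apply, RingAut.mul_apply, hτ', ih]
  have h1 : τ' = 1 := by
    refine aut_eq_one (p := p) (m := m) ?_ ?_ ?_
    · apply RingEquiv.ext
      intro u
      obtain ⟨b, rfl⟩ := Ideal.Quotient.mk_surjective u
      have := hpow (p ^ m) b
      rw [hτm] at this
      exact this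
    · rintro u ⟨n, hn⟩
      obtain ⟨b, rfl⟩ := Ideal.Quotient.mk_surjective u
      rw [hτ', hmk']
      apply hfix b
      refine ⟨n, ?_⟩
      rw [← map_pow, ← map_one (Ideal.Quotient.mk I), hmk', one_mul] at hn
      exact hn
    · obtain ⟨b, hb, n, hn⟩ := hne
      refine dvd_card_of_ne (u := Ideal.Quotient.mk I b) ?_ (n := n) ?_
      · rw [← map_one (Ideal.Quotient.mk I), Ne, hmk', one_mul]
        exact hb
      · rw [← map_pow, ← map_one (Ideal.Quotient.mk I), hmk', one_mul]
        exact hn
  apply RingEquiv.ext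
  intro c
  have h2 : Ideal.Quotient.mk I (algebraMap K B (σ c)) = Ideal.Quotient.mk I (algebraMap K B c) := by
    rw [← hτ, ← hτ', h1]
    rfl
  rw [hmk'] at h2
  exact FI.alg_mul_eq he.ne h2

end FI

section Abs

variable {K B : Type*} [Field K] [Finite K] [CommRing B] [Finite B] [IsReduced B] [Nontrivial B]
  [Algebra K B] {p : ℕ} [hp : Fact p.Prime]

omit [Finite K] in
/-- an automorphism of `p`-power order fixes the elements of order `p` -/
theorem sigma_fix {c : K} (hc : orderOf c = p) {σ : RingAut K} {m : ℕ} (hσ : σ ^ p ^ m = 1) :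
    σ c = c := by
  have hprim : IsPrimitiveRoot c p := by rw [← hc]; exact IsPrimitiveRoot.orderOf c
  haveI : NeZero p := ⟨hp.out.ne_zero⟩
  obtain ⟨j, -, hj⟩ := hprim.eq_pow_of_pow_eq_one (ξ := σ c) (by
    rw [← map_pow, hprim.pow_eq_one, map_one])
  have h1 : ∀ i : ℕ, (σ ^ i) c = c ^ j ^ i := by
    intro i
    induction i with
    | zero => rw [pow_zero, pow_zero, pow_one]; rfl
    | succ i ih => rw [pow_succ, RingAut.mul_apply, ← hj, map_pow, ih, ← pow_mul, pow_succ]
  have h2 := h1 (p ^ m)
  rw [hσ] at h2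
  have hc0 : c ≠ 0 := by
    rintro rfl
    have := hprim.pow_eq_one
    rw [zero_pow hp.out.ne_zero] at this
    exact zero_ne_one this
  obtain ⟨u, rfl⟩ : ∃ u : Kˣ, (u : K) = c := ⟨Units.mk0 c hc0, rfl⟩
  rw [orderOf_units] at hc
  have h3 : u ^ 1 = u ^ j ^ p ^ m := by
    apply Units.ext
    rw [pow_one, Units.val_pow_eq_pow_val]
    exact h2
  rw [pow_eq_pow_iff_modEq, hc, ← ZMod.natCast_eq_natCast_iff] at h3
  push_cast at h3
  rw [ZMod.pow_card_pow] at h3
  have h4 : u ^ j = u ^ 1 := by
    rw [pow_eq_pow_iff_modEq, hc, ← ZMod.natCast_eq_natCast_iff]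
    push_cast
    exact h3.symm
  rw [← hj, ← Units.val_pow_eq_pow_val, h4, pow_one]

/-- a scalar which corrects the determinant -/
theorem exists_scalar {d : ℕ} (hd : ¬ p ∣ d) (δ : B →* K)
    (hδ : ∀ c : K, δ (algebraMap K B c) = c ^ d) {u : B} {n : ℕ} (hu : u ^ p ^ n = 1) :
    ∃ l : K, l ≠ 0 ∧ (u * algebraMap K B l) ^ p ^ n = 1 ∧ δ (u * algebraMap K B l) = 1 := by
  have h1 : δ u ^ p ^ n = 1 := by rw [← map_pow, hu, map_one]
  have h0 : δ u ≠ 0 := by
    intro h
    rw [h, zero_pow (pow_ne_zero _ hp.out.ne_zero)] at h1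
    exact zero_ne_one h1
  have h2 : d.Coprime (orderOf (δ u)) := by
    obtain ⟨j, -, hj⟩ := (Nat.dvd_prime_pow hp.out).mp (orderOf_dvd_of_pow_eq_one h1)
    rw [hj]
    exact Nat.Coprime.pow_right _ (((Nat.Prime.coprime_iff_not_dvd hp.out).mpr hd).symm)
  obtain ⟨s, hs⟩ := exists_pow_eq_self_of_coprime h2
  refine ⟨((δ u) ^ s)⁻¹, inv_ne_zero (pow_ne_zero _ h0), ?_, ?_⟩
  · rw [mul_pow, hu, one_mul, ← map_pow, inv_pow, ← pow_mul, mul_comm s, pow_mul, h1, one_pow,
      inv_one, map_one]
  · rw [map_mul, hδ, inv_pow, ← pow_mul, mul_comm s, pow_mul, hs, mul_inv_cancel₀ h0]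

/-- **The abstract statement.** -/
theorem abs_eq_one (hp2 : p ≠ 2) {d : ℕ} (hd : ¬ p ∣ d ∨ ¬ p ∣ Nat.card K - 1) (δ : B →* K)
    (hδ : ∀ c : K, δ (algebraMap K B c) = c ^ d) {σ : RingAut K} {m : ℕ} (hσ : σ ^ p ^ m = 1)
    {τ : RingAut B} (hτ : ∀ c, τ (algebraMap K B c) = algebraMap K B (σ c)) (hτm : τ ^ p ^ m = 1)
    (hfix : ∀ u : B, (∃ n : ℕ, u ^ p ^ n = 1) → δ u = 1 → τ u = u)
    (hne : ∃ u : B, u ≠ 1 ∧ ∃ n : ℕ, u ^ p ^ n = 1)
    (hnf : p ∣ Nat.card K - 1 → ¬ p ∣ d → ¬ IsField B) : σ = 1 := by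
  by_cases hpK : p ∣ Nat.card K - 1
  · have hpd : ¬ p ∣ d := hd.resolve_right (fun h => h hpK)
    -- a proper component
    obtain ⟨e, he, he1⟩ : ∃ e : B, FI e ∧ e ≠ 1 := by
      by_contra hcon
      push Not at hcon
      apply hnf hpK hpd
      refine ⟨⟨0, 1, zero_ne_one⟩, mul_comm, fun {a} ha => ?_⟩
      obtain ⟨e, he, hae⟩ := exists_FI ha
      have h1 := hcon e he
      subst h1
      obtain ⟨y, hy⟩ := (he.inv a).resolve_left hae
      exact ⟨y, by rw [mul_one] at hy; exact hy⟩
    have he1' : 1 - e ≠ 0 := sub_ne_zero.mpr (Ne.symm he1)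
    obtain ⟨c, hc⟩ := exists_orderOf (E := K) (p := p) (a := 1) (by rw [pow_one]; exact hpK)
    rw [pow_one] at hc
    have hcp : c ^ p = 1 := by rw [← hc]; exact pow_orderOf_eq_one c
    have hc1 : c ≠ 1 := by
      rintro rfl
      rw [orderOf_one] at hc
      exact hp.out.one_lt.ne hc
    by_cases hτe : τ e = e
    · refine FI.core (p := p) hτ hτm he hτe ?_ ?_
      · rintro b ⟨n, hn⟩
        have hU : (b * e + (1 - e)) ^ p ^ n = 1 := by rw [he.pow, hn]; ring
        obtain ⟨l, hl0, hl1, hl2⟩ := exists_scalar hpd δ hδ hU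
        have h1 := hfix _ ⟨n, hl1⟩ hl2
        rw [map_mul, hτ, map_add, map_mul, map_sub, map_one, hτe] at h1
        have h2 : (τ b * e + (1 - e)) * (1 - e) = 1 - e := by
          have : (τ b * e + (1 - e)) * (1 - e) = τ b * (e - e * e) + (1 - e - (e - e * e)) := by
            ring
          rw [this, he.idem]; ring
        have h3 : (b * e + (1 - e)) * (1 - e) = 1 - e := by
          have : (b * e + (1 - e)) * (1 - e) = b * (e - e * e) + (1 - e - (e - e * e)) := by
            ring
          rw [this, he.idem]; ring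
        have h4 : algebraMap K B (σ l) * (1 - e) = algebraMap K B l * (1 - e) := by
          calc algebraMap K B (σ l) * (1 - e)
              = ((τ b * e + (1 - e)) * algebraMap K B (σ l)) * (1 - e) := by
                rw [mul_right_comm, h2, mul_comm]
            _ = ((b * e + (1 - e)) * algebraMap K B l) * (1 - e) := by rw [h1]
            _ = algebraMap K B l * (1 - e) := by rw [mul_right_comm, h3, mul_comm]
        have h5 : σ l = l := FI.alg_mul_eq he1' h4
        rw [h5] at h1
        have h6 : algebraMap K B l * algebraMap K B l⁻¹ = 1 := by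
          rw [← map_mul, mul_inv_cancel₀ hl0, map_one]
        have h7 : τ b * e + (1 - e) = b * e + (1 - e) := by
          calc τ b * e + (1 - e) = ((τ b * e + (1 - e)) * algebraMap K B l) * algebraMap K B l⁻¹ := by
                rw [mul_assoc, h6, mul_one]
            _ = ((b * e + (1 - e)) * algebraMap K B l) * algebraMap K B l⁻¹ := by rw [h1]
            _ = _ := by rw [mul_assoc, h6, mul_one]
        exact add_right_cancel h7
      · refine ⟨algebraMap K B c, fun h => hc1 ?_, 1, ?_⟩
        · apply FI.alg_mul_eq (B := B) he.ne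
          rw [h, map_one, one_mul]
        · rw [pow_one, ← map_pow, hcp, map_one, one_mul]
    · exfalso
      have hee : e * τ e = 0 := by
        by_contra h
        exact hτe (he.eq_of_mul_ne (he.map τ) h).symm
      have hU : (algebraMap K B c * e + (1 - e)) ^ p ^ 1 = 1 := by
        rw [he.pow, pow_one, ← map_pow, hcp, map_one]; ring
      obtain ⟨l, hl0, hl1, hl2⟩ := exists_scalar hpd δ hδ hU
      have h1 := hfix _ ⟨1, hl1⟩ hl2
      rw [map_mul, hτ, map_add, map_mul, map_sub, map_one, hτ] at h1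
      have h2 : (algebraMap K B (σ c) * τ e + (1 - τ e)) * e = e := by
        have : (algebraMap K B (σ c) * τ e + (1 - τ e)) * e =
          algebraMap K B (σ c) * (e * τ e) + e - e * τ e := by ring
        rw [this, hee]; ring
      have h3 : (algebraMap K B c * e + (1 - e)) * e = algebraMap K B c * e := by
        have : (algebraMap K B c * e + (1 - e)) * e =
          algebraMap K B c * (e * e) + (e - e * e) := by ring
        rw [this, he.idem]; ring
      have h4 : (algebraMap K B (σ c) * τ e + (1 - τ e)) * τ e = algebraMap K B (σ c) * τ e := by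
        have h5 := (he.map τ).idem
        have : (algebraMap K B (σ c) * τ e + (1 - τ e)) * τ e =
          algebraMap K B (σ c) * (τ e * τ e) + (τ e - τ e * τ e) := by ring
        rw [this, h5]; ring
      have h5 : (algebraMap K B c * e + (1 - e)) * τ e = τ e := by
        have : (algebraMap K B c * e + (1 - e)) * τ e =
          algebraMap K B c * (e * τ e) + τ e - e * τ e := by ring
        rw [this, hee]; ring
      have h6 : algebraMap K B (σ l) * e = algebraMap K B (c * l) * e := by
        calc algebraMap K B (σ l) * e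
            = ((algebraMap K B (σ c) * τ e + (1 - τ e)) * algebraMap K B (σ l)) * e := by
              rw [mul_right_comm, h2, mul_comm]
          _ = ((algebraMap K B c * e + (1 - e)) * algebraMap K B l) * e := by rw [h1]
          _ = algebraMap K B (c * l) * e := by rw [mul_right_comm, h3, map_mul]; ring
      have h7 : algebraMap K B (σ c * σ l) * τ e = algebraMap K B l * τ e := by
        calc algebraMap K B (σ c * σ l) * τ e
            = ((algebraMap K B (σ c) * τ e + (1 - τ e)) * algebraMap K B (σ l)) * τ e := by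
              rw [mul_right_comm, h4, map_mul]; ring
          _ = ((algebraMap K B c * e + (1 - e)) * algebraMap K B l) * τ e := by rw [h1]
          _ = algebraMap K B l * τ e := by rw [mul_right_comm, h5, mul_comm]
      have h8 : σ l = c * l := FI.alg_mul_eq he.ne h6
      have h9 : σ c * σ l = l := FI.alg_mul_eq (he.map τ).ne h7
      rw [sigma_fix hc hσ, h8, ← mul_assoc] at h9
      have h10 : c * c = 1 := mul_right_cancel₀ hl0 (by rw [h9, one_mul])
      have h11 : p ∣ 2 := by
        rw [← hc]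
        exact orderOf_dvd_of_pow_eq_one (by rw [pow_two]; exact h10)
      exact hp2 ((Nat.prime_dvd_prime_iff_eq hp.out Nat.prime_two).mp h11)
  · -- the determinant does not matter
    have hfix' : ∀ u : B, (∃ n : ℕ, u ^ p ^ n = 1) → τ u = u := by
      rintro u ⟨n, hn⟩
      refine hfix u ⟨n, hn⟩ ?_
      by_contra h1
      exact hpK (dvd_card_of_ne h1 (n := n) (by rw [← map_pow, hn, map_one]))
    obtain ⟨u, hu1, n, hn⟩ := hne
    obtain ⟨e, he, hue⟩ := exists_FI (sub_ne_zero.mpr hu1)
    have hU : (u * e + (1 - e)) ^ p ^ n = 1 := by rw [he.pow, hn]; ring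
    have h1 := hfix' _ ⟨n, hU⟩
    rw [map_add, map_mul, map_sub, map_one] at h1
    have h2 : (τ u - 1) * (τ e * e) = (u - 1) * e := by
      have h3 : (τ u - 1) * τ e = (u - 1) * e := by
        have : (τ u - 1) * τ e = (τ u * τ e + (1 - τ e)) - 1 := by ring
        rw [this, h1]; ring
      calc (τ u - 1) * (τ e * e) = ((τ u - 1) * τ e) * e := by ring
        _ = (u - 1) * (e * e) := by rw [h3]; ring
        _ = (u - 1) * e := by rw [he.idem]
    have hτe : τ e = e := by
      refine (he.map τ).eq_of_mul_ne he fun h => hue ?_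
      rw [← h2, h, mul_zero]
    refine FI.core (p := p) hτ hτm he hτe ?_ ⟨u, ?_, n, by rw [hn, one_mul]⟩
    · rintro b ⟨n, hn⟩
      have hU : (b * e + (1 - e)) ^ p ^ n = 1 := by rw [he.pow, hn]; ring
      have h1 := hfix' _ ⟨n, hU⟩
      rw [map_add, map_mul, map_sub, map_one, hτe] at h1
      exact add_right_cancel h1
    · intro h
      apply hue
      rw [sub_mul, h, one_mul, sub_self]

end Abs

end Vale.Agent.P180.H19.Gal
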