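import Vale.Agent.P180.H19.GalB
import Vale.Agent.P180.H805.LF

/-!
P180, project F, leaf G1 (helper19), part 3: a semilinear map of `p`-power order which commutes with a
noncentral abelian defect group is linear.
-/

set_option linter.all false

namespace Vale.Agent.P180.H19.Gal

open Module Vale.Agent.P180.H951

section

variable {K V : Type} [Field K] [AddCommGroup V] [Module K V]

theorem symm_smul {σ : K ≃+* K} {x : V ≃+ V} (hx : ∀ (c : K) v, x (c • v) = σ c • x v) (c : K)
    (v : V) : x.symm (c • v) = σ.symm c • x.symm v := by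
  apply x.injective
  rw [hx, x.apply_symm_apply, x.apply_symm_apply, σ.apply_symm_apply]

/-- conjugation by a semilinear bijection -/
def conjT {σ : K ≃+* K} (x : V ≃+ V) (hx : ∀ (c : K) v, x (c • v) = σ c • x v) :
    End K V ≃+* End K V where
  toFun b :=
    { toFun := fun v => x (b (x.symm v))
      map_add' := fun u v => by rw [map_add, map_add, map_add]
      map_smul' := fun c v => by
        rw [symm_smul hx, map_smul, hx, σ.apply_symm_apply]
        rfl }
  invFun b :=
    { toFun := fun v => x.symm (b (x v))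
      map_add' := fun u v => by rw [map_add, map_add, map_add]
      map_smul' := fun c v => by
        rw [hx, map_smul, symm_smul hx, σ.symm_apply_apply]
        rfl }
  left_inv b := by
    apply LinearMap.ext
    intro v
    change x.symm (x (b (x.symm (x v)))) = b v
    rw [x.symm_apply_apply, x.symm_apply_apply]
  right_inv b := by
    apply LinearMap.ext
    intro v
    change x (x.symm (b (x (x.symm v)))) = b v
    rw [x.apply_symm_apply, x.apply_symm_apply]
  map_mul' a b := by
    apply LinearMap.ext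
    intro v
    change x (a (b (x.symm v))) = x (a (x.symm (x (b (x.symm v)))))
    rw [x.symm_apply_apply]
  map_add' a b := by
    apply LinearMap.ext
    intro v
    change x (a (x.symm v) + b (x.symm v)) = _
    rw [map_add]
    rfl

theorem conjT_apply {σ : K ≃+* K} (x : V ≃+ V) (hx : ∀ (c : K) v, x (c • v) = σ c • x v)
    (b : End K V) (v : V) : conjT x hx b v = x (b (x.symm v)) := rfl

theorem conjT_symm_apply {σ : K ≃+* K} (x : V ≃+ V) (hx : ∀ (c : K) v, x (c • v) = σ c • x v)
    (b : End K V) (v : V) : (conjT x hx).symm b v = x.symm (b (x v)) := rfl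

theorem conjT_algebraMap {σ : K ≃+* K} (x : V ≃+ V) (hx : ∀ (c : K) v, x (c • v) = σ c • x v)
    (c : K) : conjT x hx (algebraMap K (End K V) c) = algebraMap K (End K V) (σ c) := by
  apply LinearMap.ext
  intro v
  rw [conjT_apply, Module.algebraMap_end_apply, Module.algebraMap_end_apply, hx,
    x.apply_symm_apply]

theorem conjT_symm_algebraMap {σ : K ≃+* K} (x : V ≃+ V)
    (hx : ∀ (c : K) v, x (c • v) = σ c • x v) (c : K) :
    (conjT x hx).symm (algebraMap K (End K V) c) = algebraMap K (End K V) (σ.symm c) := by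
  rw [RingEquiv.symm_apply_eq, conjT_algebraMap, σ.apply_symm_apply]

theorem conjT_tE {σ : K ≃+* K} (x : V ≃+ V) (hx : ∀ (c : K) v, x (c • v) = σ c • x v)
    {q : V ≃ₗ[K] V} (hq : ∀ v, x (q v) = q (x v)) : conjT x hx (tE q) = tE q := by
  apply LinearMap.ext
  intro v
  rw [conjT_apply]
  change x (q (x.symm v)) = q v
  rw [hq, x.apply_symm_apply]

variable (Q : Subgroup (V ≃ₗ[K] V))

/-- the set of the endomorphisms -/
def qs : Set (End K V) := Set.range fun q : Q => tE (q : V ≃ₗ[K] V)

theorem adjoin_le_span : ∀ b ∈ Algebra.adjoin K (qs Q), b ∈ Submodule.span K (qs Q) := by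
  intro b hb
  have h1 : b ∈ (Algebra.adjoin K (qs Q)).toSubmodule := hb
  rw [Algebra.adjoin_eq_span] at h1
  refine Submodule.span_mono ?_ h1
  intro a ha
  induction ha using Submonoid.closure_induction with
  | mem a ha => exact ha
  | one => exact ⟨1, rfl⟩
  | mul a b _ _ ha hb =>
    obtain ⟨q, rfl⟩ := ha
    obtain ⟨q', rfl⟩ := hb
    exact ⟨q * q', map_mul tE _ _⟩

end

section

variable {K V : Type} [Field K] [Finite K] [AddCommGroup V] [Module K V] [Finite V]
  {p : ℕ} [hp : Fact p.Prime] {Q : Subgroup (V ≃ₗ[K] V)}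

/-- **(G1)** A semilinear bijection of `p`-power order (modulo linear maps) which commutes with a
noncentral abelian `p`-subgroup `Q` of the special linear group is linear, if `Q` contains the
`p`-elements of determinant one in the linear span of `Q`. -/
theorem sigma_eq_one (hp2 : p ≠ 2) (hpK : ¬ p ∣ Nat.card K)
    (hd : ¬ p ∣ Module.finrank K V ∨ ¬ p ∣ Nat.card K - 1) (hQ : IsPGroup p Q)
    (hab : ∀ x ∈ Q, ∀ y ∈ Q, x * y = y * x)
    (hns : ¬ ∀ x ∈ Q, ∃ c : K, ∀ v, x v = c • v)
    (hmax : ∀ v : V ≃ₗ[K] V, tE v ∈ Submodule.span K (Set.range fun q : Q =>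
      tE (q : V ≃ₗ[K] V)) → LinearEquiv.det v = 1 → (∃ n : ℕ, v ^ p ^ n = 1) → v ∈ Q)
    {σ : K ≃+* K} {m : ℕ} (hσ : (σ : RingAut K) ^ p ^ m = 1) (x : V ≃+ V)
    (hx : ∀ (c : K) v, x (c • v) = σ c • x v) (hxQ : ∀ q ∈ Q, ∀ v, x (q v) = q (x v)) :
    (σ : RingAut K) = 1 := by
  classical
  have hfd : Module.Finite K V := Module.Finite.of_finite
  have hfE : Finite (End K V) := Module.finite_of_finite K
  haveI hfG : Finite (V ≃ₗ[K] V) := Finite.of_injective _ tE_injective
  push Not at hns
  obtain ⟨q0, hq0, hq0c⟩ := hns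
  have hVnt : Nontrivial V := by
    by_contra h
    rw [not_nontrivial_iff_subsingleton] at h
    obtain ⟨v, hv⟩ := hq0c 0
    exact hv (Subsingleton.elim _ _)
  have hcomm : ∀ a ∈ qs Q, ∀ b ∈ qs Q, a * b = b * a := by
    rintro _ ⟨a, rfl⟩ _ ⟨b, rfl⟩
    change tE (a : V ≃ₗ[K] V) * tE (b : V ≃ₗ[K] V) = tE (b : V ≃ₗ[K] V) * tE (a : V ≃ₗ[K] V)
    rw [← map_mul, ← map_mul, hab a a.2 b b.2]
  let B : Subalgebra K (End K V) := Algebra.adjoin K (qs Q)
  letI : CommRing B := Algebra.adjoinCommRingOfComm K hcomm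
  haveI : Finite B := Subtype.finite
  haveI : Nontrivial B := inferInstance
  have hqB : ∀ q ∈ Q, tE q ∈ B := fun q hq => Algebra.subset_adjoin ⟨⟨q, hq⟩, rfl⟩
  -- reduced
  haveI hred : IsReduced B := by
    obtain ⟨l, hl⟩ := CharP.exists K
    have hlp : l.Prime := CharP.char_is_prime K l
    haveI : Fact l.Prime := ⟨hlp⟩
    obtain ⟨a, ha⟩ : ∃ a, Nat.card K = l ^ a := by
      haveI := Fintype.ofFinite K
      obtain ⟨a, -, ha⟩ := FiniteField.card K l
      exact ⟨a, by rw [Nat.card_eq_fintype_card]; exact ha⟩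
    have hfQ : Finite Q := inferInstance
    obtain ⟨t, ht⟩ := IsPGroup.iff_card.mp hQ
    have hcop : (Nat.card K).Coprime (Nat.card Q) := by
      rw [ht]
      exact (Nat.Coprime.pow_left t ((Nat.Prime.coprime_iff_not_dvd hp.out).mpr hpK)).symm
    haveI : CharP B l := charP_of_injective_algebraMap (algebraMap K B).injective l
    let r := a * Nat.totient (Nat.card Q)
    have hr : ∃ s, l ^ r = 1 + Nat.card Q * s := by
      have h1 : l ^ r ≡ 1 [MOD Nat.card Q] := by
        change l ^ (a * _) ≡ _ [MOD _]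
        rw [pow_mul, ← ha]
        exact Nat.ModEq.pow_totient hcop
      obtain ⟨s, hs⟩ := (Nat.modEq_iff_dvd' (Nat.one_le_pow _ _ hlp.pos)).mp h1.symm
      exact ⟨s, by rw [← hs]; have := Nat.one_le_pow r l hlp.pos; omega⟩
    obtain ⟨s, hs⟩ := hr
    have key : ∀ b ∈ B, b ^ l ^ r = b := by
      have h2 : ∀ b : B, b ^ l ^ r = b := by
        rintro ⟨b, hb⟩
        induction hb using Algebra.adjoin_induction with
        | mem b hb =>
          obtain ⟨q, rfl⟩ := hb
          apply Subtype.ext
          change tE (q : V ≃ₗ[K] V) ^ l ^ r = tE (q : V ≃ₗ[K] V)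
          rw [hs, pow_add, pow_one, pow_mul, ← map_pow]
          have : (q : V ≃ₗ[K] V) ^ Nat.card Q = 1 := congrArg Subtype.val (pow_card_eq_one' (x := q))
          rw [this, map_one, one_pow, mul_one]
        | algebraMap c =>
          apply Subtype.ext
          change algebraMap K (End K V) c ^ l ^ r = algebraMap K (End K V) c
          rw [← map_pow]
          congr 1
          change c ^ l ^ (a * _) = c
          rw [pow_mul, ← ha]
          haveI := Fintype.ofFinite K
          rw [Nat.card_eq_fintype_card]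
          exact FiniteField.pow_card_pow _ c
        | add b b' hb hb' h h' =>
          have h3 := add_pow_char_pow (R := B) (p := l) (n := r) (⟨b, hb⟩ : B) ⟨b', hb'⟩
          rw [h, h'] at h3
          exact h3
        | mul b b' hb hb' h h' =>
          have h3 := mul_pow (⟨b, hb⟩ : B) ⟨b', hb'⟩ (l ^ r)
          rw [h, h'] at h3
          exact h3
      intro b hb
      exact congrArg Subtype.val (h2 ⟨b, hb⟩)
    refine ⟨fun b hb => ?_⟩
    have h2 : ∀ j : ℕ, b ^ (l ^ r) ^ j = b := by
      intro j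
      induction j with
      | zero => rw [pow_zero, pow_one]
      | succ j ih =>
        rw [pow_succ, pow_mul, ih]
        exact Subtype.ext (key b b.2)
    obtain ⟨j, hj⟩ := hb
    have h3 : 1 < l ^ r := by
      have h4 : l ^ r = Nat.card K ^ Nat.totient (Nat.card Q) := by
        change l ^ (a * _) = _
        rw [pow_mul, ← ha]
      rw [h4]
      exact Nat.one_lt_pow (Nat.totient_pos.mpr Nat.card_pos).ne' Finite.one_lt_card
    have h4 : j ≤ (l ^ r) ^ j := (Nat.lt_pow_self h3).le
    rw [← h2 j]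
    exact pow_eq_zero_of_le h4 hj
  -- the automorphism
  have hTB : ∀ b ∈ B, conjT x hx b ∈ B := by
    intro b hb
    induction hb using Algebra.adjoin_induction with
    | mem b hb =>
      obtain ⟨q, rfl⟩ := hb
      change conjT x hx (tE (q : V ≃ₗ[K] V)) ∈ B
      rw [conjT_tE x hx (hxQ q q.2)]
      exact hqB q q.2
    | algebraMap c => rw [conjT_algebraMap]; exact B.algebraMap_mem _
    | add b b' _ _ h h' => rw [map_add]; exact B.add_mem h h'
    | mul b b' _ _ h h' => rw [map_mul]; exact B.mul_mem h h'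
  have hTB' : ∀ b ∈ B, (conjT x hx).symm b ∈ B := by
    intro b hb
    induction hb using Algebra.adjoin_induction with
    | mem b hb =>
      obtain ⟨q, rfl⟩ := hb
      have h1 : (conjT x hx).symm (tE (q : V ≃ₗ[K] V)) = tE (q : V ≃ₗ[K] V) := by
        rw [RingEquiv.symm_apply_eq, conjT_tE x hx (hxQ q q.2)]
      change (conjT x hx).symm (tE (q : V ≃ₗ[K] V)) ∈ B
      rw [h1]
      exact hqB q q.2
    | algebraMap c => rw [conjT_symm_algebraMap]; exact B.algebraMap_mem _
    | add b b' _ _ h h' => rw [map_add]; exact B.add_mem h h'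
    | mul b b' _ _ h h' => rw [map_mul]; exact B.mul_mem h h'
  let τ : RingAut B :=
    { toFun := fun b => ⟨conjT x hx b, hTB b b.2⟩
      invFun := fun b => ⟨(conjT x hx).symm b, hTB' b b.2⟩
      left_inv := fun b => Subtype.ext ((conjT x hx).symm_apply_apply _)
      right_inv := fun b => Subtype.ext ((conjT x hx).apply_symm_apply _)
      map_mul' := fun a b => Subtype.ext (map_mul (conjT x hx) _ _)
      map_add' := fun a b => Subtype.ext (map_add (conjT x hx) _ _) }
  have hτ : ∀ c, τ (algebraMap K B c) = algebraMap K B (σ c) := fun c =>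
    Subtype.ext (conjT_algebraMap x hx c)
  have hτq : ∀ q (hq : q ∈ Q), τ ⟨tE q, hqB q hq⟩ = ⟨tE q, hqB q hq⟩ := fun q hq =>
    Subtype.ext (conjT_tE x hx (hxQ q hq))
  have hτi : ∀ (i : ℕ) c, (τ ^ i) (algebraMap K B c) = algebraMap K B (((σ : RingAut K) ^ i) c) := by
    intro i
    induction i with
    | zero => intro c; rfl
    | succ i ih => intro c; rw [pow_succ, pow_succ, RingAut.mul_apply, RingAut.mul_apply, hτ, ih]
  have hτqi : ∀ (i : ℕ) q (hq : q ∈ Q), (τ ^ i) ⟨tE q, hqB q hq⟩ = ⟨tE q, hqB q hq⟩ := by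
    intro i
    induction i with
    | zero => intro q hq; rfl
    | succ i ih => intro q hq; rw [pow_succ, RingAut.mul_apply, hτq q hq, ih q hq]
  have hτm : τ ^ p ^ m = 1 := by
    apply RingEquiv.ext
    rintro ⟨b, hb⟩
    induction hb using Algebra.adjoin_induction with
    | mem b hb =>
      obtain ⟨q, rfl⟩ := hb
      exact hτqi _ q q.2
    | algebraMap c =>
      have h1 := hτi (p ^ m) c
      rw [hσ] at h1
      exact h1
    | add b b' hb hb' h h' =>
      have h3 := map_add (τ ^ p ^ m) (⟨b, hb⟩ : B) ⟨b', hb'⟩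
      rw [h, h'] at h3
      exact h3
    | mul b b' hb hb' h h' =>
      have h3 := map_mul (τ ^ p ^ m) (⟨b, hb⟩ : B) ⟨b', hb'⟩
      rw [h, h'] at h3
      exact h3
  -- the determinant
  let δ : B →* K := (LinearMap.det : (V →ₗ[K] V) →* K).comp B.val.toRingHom.toMonoidHom
  have hδ : ∀ c : K, δ (algebraMap K B c) = c ^ Module.finrank K V := by
    intro c
    change LinearMap.det (algebraMap K (End K V) c) = _
    rw [Algebra.algebraMap_eq_smul_one, LinearMap.det_smul]
    change _ * LinearMap.det (1 : V →ₗ[K] V) = _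
    rw [map_one, mul_one]
  obtain ⟨n0, hn0⟩ := hQ ⟨q0, hq0⟩
  have hn0' : q0 ^ p ^ n0 = 1 := congrArg Subtype.val hn0
  refine abs_eq_one hp2 hd δ hδ hσ hτ hτm ?_ ⟨⟨tE q0, hqB q0 hq0⟩, ?_, n0, ?_⟩ ?_
  · rintro ⟨u, hu⟩ ⟨n, hn⟩ hdu
    have hn' : u ^ p ^ n = 1 := congrArg Subtype.val hn
    obtain ⟨t, ht⟩ := Nat.exists_eq_succ_of_ne_zero (pow_ne_zero n hp.out.ne_zero)
    have h1 : u * u ^ t = 1 := by rw [← pow_succ', ← Nat.succ_eq_add_one, ← ht, hn']
    have h2 : u ^ t * u = 1 := by rw [← pow_succ, ← Nat.succ_eq_add_one, ← ht, hn']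
    let v : V ≃ₗ[K] V := LinearEquiv.ofLinear u (u ^ t) h1 h2
    have hv : tE v = u := rfl
    have hvQ : v ∈ Q := by
      refine hmax v ?_ ?_ ⟨n, ?_⟩
      · rw [hv]
        exact adjoin_le_span Q u hu
      · apply Units.ext
        rw [LinearEquiv.coe_det]
        exact hdu
      · apply tE_injective
        rw [map_pow, hv, hn', map_one]
    exact Subtype.ext (conjT_tE x hx (hxQ v hvQ))
  · intro h
    have h1 : tE q0 = 1 := congrArg Subtype.val h
    obtain ⟨v, hv⟩ := hq0c 1
    apply hv
    rw [one_smul]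
    exact congrArg (fun a : End K V => a v) h1
  · apply Subtype.ext
    change tE q0 ^ p ^ n0 = 1
    rw [← map_pow, hn0', map_one]
  · intro hpK1 hpd hBf
    apply hpd
    letI : Field B := hBf.toField
    have h1 : p ∣ Module.finrank K B := by
      refine H805.p_dvd_finrank hpK1 ⟨⟨tE q0, hqB q0 hq0⟩, ⟨n0, ?_⟩, ?_⟩
      · apply Subtype.ext
        change tE q0 ^ p ^ n0 = 1
        rw [← map_pow, hn0', map_one]
      · rintro ⟨c, hc⟩
        obtain ⟨v, hv⟩ := hq0c c
        apply hv
        have h2 : algebraMap K (End K V) c = tE q0 := congrArg Subtype.val hc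
        have h3 := congrArg (fun a : End K V => a v) h2
        rw [Module.algebraMap_end_apply] at h3
        exact h3.symm
    have h2 := Module.finrank_mul_finrank K B V
    rw [← h2]
    exact h1.mul_right _

end

end Vale.Agent.P180.H19.Gal
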