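import Vale.Agent.P180.H951.Dec

/-!
P180, leaf B2b (ii-c) (helper19): a homogeneous group of linear equivalences generates a field: the
minimal polynomial of an element conjugate into it is irreducible, and each element other than 1 has
no fixed vector other than 0.
-/

set_option linter.all false

namespace Vale.Agent.P180.H19.Hom

open Module Polynomial Vale.Agent.P180.H951

section

variable {F V : Type} [Field F] [AddCommGroup V] [Module F V] {D : Subgroup (V ≃ₗ[F] V)}

/-- a polynomial in an element of `D` is in the span of `D` -/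
theorem aeval_mem_span {y : V ≃ₗ[F] V} (hy : y ∈ D) (P : F[X]) :
    aeval (tE y) P ∈ Submodule.span F (Set.range fun q : D => tE (q : V ≃ₗ[F] V)) := by
  rw [aeval_eq_sum_range]
  refine Submodule.sum_mem _ fun i _ => Submodule.smul_mem _ _ (Submodule.subset_span ?_)
  exact ⟨⟨y ^ i, D.pow_mem hy i⟩, map_pow tE y i⟩

/-- a polynomial in a conjugate -/
theorem aeval_conj (x g : V ≃ₗ[F] V) (P : F[X]) :
    aeval (tE (g⁻¹ * x * g)) P = tE g⁻¹ * aeval (tE x) P * tE g := by
  rw [map_mul, map_mul]
  induction P using Polynomial.induction_on' with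
  | add P Q hP hQ => rw [map_add, map_add, hP, hQ, mul_add, add_mul]
  | monomial n c =>
    rw [aeval_monomial, aeval_monomial]
    have h1 : (tE g⁻¹ * tE x * tE g) ^ n = tE g⁻¹ * tE x ^ n * tE g := by
      induction n with
      | zero => rw [pow_zero, pow_zero, mul_one, tE_inv_mul]
      | succ n ih =>
        rw [pow_succ, ih, pow_succ]
        calc tE g⁻¹ * tE x ^ n * tE g * (tE g⁻¹ * tE x * tE g)
            = tE g⁻¹ * tE x ^ n * (tE g * tE g⁻¹) * tE x * tE g := by simp only [mul_assoc]
          _ = _ := by rw [tE_mul_inv, mul_one]; simp only [mul_assoc]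
    rw [h1]
    calc algebraMap F (End F V) c * (tE g⁻¹ * tE x ^ n * tE g)
        = (algebraMap F (End F V) c * tE g⁻¹) * tE x ^ n * tE g := by simp only [mul_assoc]
      _ = _ := by rw [Algebra.commutes]; simp only [mul_assoc]

/-- each polynomial in an element conjugate into `D` is zero or injective -/
theorem aeval_zero_or {x g : V ≃ₗ[F] V} (hD : HomOn D ⊤) (hx : g⁻¹ * x * g ∈ D) (P : F[X]) :
    aeval (tE x) P = 0 ∨ ∀ v, aeval (tE x) P v = 0 → v = 0 := by
  have h1 : ∀ v, aeval (tE x) P v = g (aeval (tE (g⁻¹ * x * g)) P (g⁻¹ v)) := by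
    intro v
    rw [aeval_conj]
    change _ = g (g⁻¹ (aeval (tE x) P (g (g⁻¹ v))))
    have h2 : ∀ w, g (g⁻¹ w) = w := fun w => g.apply_symm_apply w
    rw [h2, h2]
  rcases hD.2 _ (aeval_mem_span hx P) with h | h
  · left
    apply LinearMap.ext
    intro v
    rw [h1, h _ Submodule.mem_top, map_zero]
    rfl
  · right
    intro v hv
    rw [h1] at hv
    have h3 := g.map_eq_zero_iff.mp hv
    have h4 := h _ Submodule.mem_top h3
    exact (g⁻¹).map_eq_zero_iff.mp h4

/-- **The minimal polynomial of an element conjugate into a homogeneous group is irreducible.** -/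
theorem irreducible_minpoly [Finite V] [Nontrivial V] {x g : V ≃ₗ[F] V} (hD : HomOn D ⊤)
    (hx : g⁻¹ * x * g ∈ D) : Irreducible (minpoly F (tE x)) := by
  have hfd : Module.Finite F V := Module.Finite.of_finite
  have hint : IsIntegral F (tE x) := Algebra.IsIntegral.isIntegral _
  refine (Polynomial.irreducible_of_monic (minpoly.monic hint) (minpoly.ne_one F _)).2
    fun f h hf hh he => ?_
  rw [← hf.isUnit_iff, ← hh.isUnit_iff]
  by_contra hcon
  push Not at hcon
  have heval := congr_arg (Polynomial.aeval (tE x)) he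
  rw [minpoly.aeval, map_mul] at heval
  have hz : aeval (tE x) f = 0 ∨ aeval (tE x) h = 0 := by
    rcases aeval_zero_or hD hx f with h1 | h1
    · exact Or.inl h1
    · right
      apply LinearMap.ext
      intro v
      have h2 : (aeval (tE x) f * aeval (tE x) h) v = 0 := by rw [heval]; rfl
      exact h1 _ h2
  rcases hz with hz | hz
  · exact minpoly.aeval_ne_zero_of_dvdNotUnit_minpoly hint hf
      ⟨hf.ne_zero, h, hcon.2, he.symm⟩ hz
  · refine minpoly.aeval_ne_zero_of_dvdNotUnit_minpoly hint hh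
      ⟨hh.ne_zero, f, hcon.1, ?_⟩ hz
    rw [mul_comm, he]

/-- **an element of `D` other than 1 has no fixed vector other than 0** -/
theorem free (hD : HomOn D ⊤) {d : V ≃ₗ[F] V} (hd : d ∈ D) (hd1 : d ≠ 1) {v : V}
    (hv : d v = v) : v = 0 := by
  have h1 : tE d - tE 1 ∈ Submodule.span F (Set.range fun q : D => tE (q : V ≃ₗ[F] V)) :=
    Submodule.sub_mem _ (Submodule.subset_span ⟨⟨d, hd⟩, rfl⟩)
      (Submodule.subset_span ⟨1, rfl⟩)
  rcases hD.2 _ h1 with h | h
  · exfalso
    apply hd1
    apply LinearEquiv.ext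
    intro w
    have h2 : d w - w = 0 := h w Submodule.mem_top
    exact sub_eq_zero.mp h2
  · refine h v Submodule.mem_top ?_
    change d v - v = 0
    rw [hv, sub_self]

/-- an element other than 1 with a fixed vector is not conjugate into `D` -/
theorem not_mem_of_fix (hD : HomOn D ⊤) {z : V ≃ₗ[F] V} (hz : z ≠ 1) {v : V} (hv0 : v ≠ 0)
    (hv : z v = v) (g : V ≃ₗ[F] V) : g⁻¹ * z * g ∉ D := by
  intro hg
  have h1 : g⁻¹ * z * g ≠ 1 := by
    intro h
    apply hz
    have : z = g * (g⁻¹ * z * g) * g⁻¹ := by group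
    rw [this, h]
    group
  have h2 : (g⁻¹ * z * g) (g⁻¹ v) = g⁻¹ v := by
    change g⁻¹ (z (g (g⁻¹ v))) = g⁻¹ v
    have h3 : g (g⁻¹ v) = v := g.apply_symm_apply v
    rw [h3, hv]
  have h3 := free hD hg h1 h2
  exact hv0 ((g⁻¹).map_eq_zero_iff.mp h3)

/-- `x v = ζ • v` for the root `ζ` of the minimal polynomial -/
theorem ne_one_of_conj {x g : V ≃ₗ[F] V} (hx : x ≠ 1) : g⁻¹ * x * g ≠ 1 := by
  intro h
  apply hx
  have : x = g * (g⁻¹ * x * g) * g⁻¹ := by group
  rw [this, h]
  group

/-- an element other than 1 conjugate into `D` has no fixed vector other than 0 -/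
theorem free_conj (hD : HomOn D ⊤) {x g : V ≃ₗ[F] V} (hx : g⁻¹ * x * g ∈ D) (hx1 : x ≠ 1) {v : V}
    (hv : x v = v) : v = 0 := by
  by_contra hv0
  exact not_mem_of_fix hD hx1 hv0 hv g hx

end

end Vale.Agent.P180.H19.Hom
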