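import Vale.Agent.P180.R2.H589.Sch.ChrMain

/-!
P180, lemma M (helper19): central extensions of `SL(n, K)`, `n ≥ 5`: canonical lifts of the
transvections and the Steinberg relations.
-/

set_option linter.all false

namespace Vale.Agent.P180.H19.Mul

open Subgroup Matrix Vale.Agent.P180.R2.H589.Sch
open scoped commutatorElement

section SL

variable {K : Type*} [Field K] {n : ℕ}

theorem tv_comm {i j k : Fin n} (hij : i ≠ j) (hjk : j ≠ k) (hik : i ≠ k) (s t : K) :
    ⁅(tv hij s : GS n K), tv hjk t⁆ = tv hik (s * t) := by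
  rw [commutatorElement_def, mul_inv_eq_iff_eq_mul, mul_inv_eq_iff_eq_mul]
  apply ext_mulVec
  intro v
  simp only [coe_mul_mulVec, tv_mulVec]
  funext l
  simp only [Pi.add_apply, Pi.single_eq_same, Pi.single_eq_of_ne hik.symm,
    Pi.single_eq_of_ne hjk.symm, Pi.single_apply]
  split_ifs <;> ring

theorem tv_commute {i j k l : Fin n} (hij : i ≠ j) (hkl : k ≠ l) (hjk : j ≠ k) (hil : i ≠ l)
    (s t : K) : (tv hij s : GS n K) * tv hkl t = tv hkl t * tv hij s := by
  apply ext_mulVec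
  intro v
  simp only [coe_mul_mulVec, tv_mulVec]
  funext x
  simp only [Pi.add_apply, Pi.single_eq_of_ne hil.symm, Pi.single_eq_of_ne hjk, add_zero]
  ring

/-- the element interchanging two coordinates up to scalars -/
def wv {m m' : Fin n} (h : m ≠ m') (u : K) : GS n K :=
  tv h u * tv h.symm (-u⁻¹) * tv h u

theorem wv_mulVec {m m' : Fin n} (h : m ≠ m') {u : K} (hu : u ≠ 0) (v : Fin n → K) :
    ((wv h u : GS n K) : Matrix (Fin n) (Fin n) K) *ᵥ v =
      fun l => if l = m then u * v m' else if l = m' then -u⁻¹ * v m else v l := by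
  unfold wv
  simp only [coe_mul_mulVec, tv_mulVec]
  funext l
  simp only [Pi.add_apply, Pi.single_eq_same, Pi.single_eq_of_ne h, Pi.single_eq_of_ne h.symm]
  by_cases h1 : l = m
  · subst h1
    simp only [if_true, Pi.single_eq_same, Pi.single_eq_of_ne h]
    field_simp
    ring
  · by_cases h2 : l = m'
    · subst h2
      simp only [if_neg h1, if_true, Pi.single_eq_same, Pi.single_eq_of_ne h1]
      field_simp
      ring
    · simp only [if_neg h1, if_neg h2, Pi.single_eq_of_ne h1, Pi.single_eq_of_ne h2]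
      ring

theorem wv_left {i m m' : Fin n} (him : i ≠ m) (him' : i ≠ m') (h : m ≠ m') {u : K} (hu : u ≠ 0)
    (s : K) : wv h u * tv him s * (wv h u)⁻¹ = tv him' (-u * s) := by
  rw [mul_inv_eq_iff_eq_mul]
  apply ext_mulVec
  intro v
  simp only [coe_mul_mulVec, tv_mulVec, wv_mulVec h hu]
  funext l
  simp only [Pi.add_apply, Pi.single_eq_of_ne him.symm, Pi.single_eq_of_ne him'.symm, if_true,
    if_neg h.symm]
  by_cases h1 : l = m
  · subst h1
    simp only [if_true, Pi.single_eq_of_ne him.symm]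
    ring
  · by_cases h2 : l = m'
    · subst h2
      simp only [if_neg h1, if_true, Pi.single_eq_of_ne him'.symm]
      ring
    · simp only [if_neg h1, if_neg h2]
      by_cases h3 : l = i
      · subst h3
        simp only [Pi.single_eq_same]
        field_simp
      · simp only [Pi.single_eq_of_ne h3]

theorem wv_right {j m m' : Fin n} (hmj : m ≠ j) (hmj' : m' ≠ j) (h : m ≠ m') {u : K} (hu : u ≠ 0)
    (r : K) : wv h u * tv hmj r * (wv h u)⁻¹ = tv hmj' (-u⁻¹ * r) := by
  rw [mul_inv_eq_iff_eq_mul]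
  apply ext_mulVec
  intro v
  simp only [coe_mul_mulVec, tv_mulVec, wv_mulVec h hu]
  funext l
  simp only [Pi.add_apply, Pi.single_eq_same, Pi.single_eq_of_ne h, Pi.single_eq_of_ne h.symm,
    if_neg hmj.symm, if_neg hmj'.symm]
  by_cases h1 : l = m
  · subst h1
    simp only [if_true, Pi.single_eq_of_ne h]
    ring
  · by_cases h2 : l = m'
    · subst h2
      simp only [if_neg h1, if_true, Pi.single_eq_same]
      ring
    · simp only [if_neg h1, if_neg h2, Pi.single_eq_of_ne h1, Pi.single_eq_of_ne h2]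

theorem wv_commute {i j m m' : Fin n} (hij : i ≠ j) (h : m ≠ m') (h1 : m ≠ i) (h2 : m ≠ j)
    (h3 : m' ≠ i) (h4 : m' ≠ j) (u s : K) :
    wv h u * tv hij s = tv hij s * wv h u := by
  have e1 := tv_commute (K := K) h hij h3 h2 u s
  have e2 := tv_commute (K := K) h.symm hij h1 h4 (-u⁻¹) s
  unfold wv
  rw [mul_assoc, e1, ← mul_assoc, mul_assoc _ (tv h.symm (-u⁻¹)), e2, ← mul_assoc, e1]
  simp only [mul_assoc]

theorem exists_fresh (hn : 5 ≤ n) (i j k l : Fin n) : ∃ m, m ≠ i ∧ m ≠ j ∧ m ≠ k ∧ m ≠ l := by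
  classical
  by_contra hcon
  push Not at hcon
  have h1 : (Finset.univ : Finset (Fin n)) ⊆ {i, j, k, l} := by
    intro m _
    simp only [Finset.mem_insert, Finset.mem_singleton]
    by_cases a : m = i
    · exact Or.inl a
    by_cases b : m = j
    · exact Or.inr (Or.inl b)
    by_cases c : m = k
    · exact Or.inr (Or.inr (Or.inl c))
    exact Or.inr (Or.inr (Or.inr (hcon m a b c)))
  have h2 := Finset.card_le_card h1
  rw [Finset.card_univ, Fintype.card_fin] at h2
  have h3 : ({i, j, k, l} : Finset (Fin n)).card ≤ 4 := Finset.card_le_four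
  omega

end SL

section Lift

variable {K : Type*} [Field K] {n : ℕ} {E : Type*} [Group E] {f : E →* GS n K}

theorem commute_comm (hk : f.ker ≤ center E) {y a b : E} (ha : f y * f a = f a * f y)
    (hb : f y * f b = f b * f y) : y * ⁅a, b⁆ = ⁅a, b⁆ * y := by
  have h1 : y * ⁅a, b⁆ * y⁻¹ = ⁅y * a * y⁻¹, y * b * y⁻¹⁆ := by
    rw [commutatorElement_def, commutatorElement_def]
    group
  have h2 : ⁅y * a * y⁻¹, y * b * y⁻¹⁆ = ⁅a, b⁆ := by
    refine comm_congr hk ?_ ?_
    · rw [map_mul, map_mul, map_inv, ha, mul_inv_cancel_right]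
    · rw [map_mul, map_mul, map_inv, hb, mul_inv_cancel_right]
  rw [h2] at h1
  exact mul_inv_eq_iff_eq_mul.mp h1

variable (hn : 5 ≤ n) (hf : Function.Surjective f) (hk : f.ker ≤ center E)

include hf hk

/-- a lift of a transvection commutes with everything that commutes with two factors -/
theorem lift_comm' {i j m : Fin n} (hij : i ≠ j) (him : i ≠ m) (hmj : m ≠ j) {t : K} {x y : E}
    (hx : f x = tv hij t) (h1 : f y * tv him t = tv him t * f y)
    (h2 : f y * tv hmj 1 = tv hmj 1 * f y) : y * x = x * y := by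
  obtain ⟨a, ha⟩ := hf (tv him t)
  obtain ⟨b, hb⟩ := hf (tv hmj 1)
  have h3 : f (⁅a, b⁆⁻¹ * x) = 1 := by
    rw [map_mul, map_inv, map_commutatorElement, ha, hb, tv_comm him hmj hij, mul_one, hx,
      inv_mul_cancel]
  have h4 := mem_center_iff.mp (hk (MonoidHom.mem_ker.mpr h3)) y
  have h5 := commute_comm hk (y := y) (a := a) (b := b) (by rw [ha]; exact h1)
    (by rw [hb]; exact h2)
  have h6 : x = ⁅a, b⁆ * (⁅a, b⁆⁻¹ * x) := by rw [mul_inv_cancel_left]
  rw [h6, ← mul_assoc, h5, mul_assoc, h4, ← mul_assoc]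

include hn

theorem lift_comm {i j k l : Fin n} (hij : i ≠ j) (hkl : k ≠ l) (hjk : j ≠ k) (hil : i ≠ l)
    {s t : K} {x y : E} (hx : f x = tv hij s) (hy : f y = tv hkl t) : x * y = y * x := by
  obtain ⟨m, hmi, hmj, hmk, hml⟩ := exists_fresh hn i j k l
  symm
  refine lift_comm' hf hk hij hmi.symm hmj hx ?_ ?_
  · rw [hy]
    exact tv_commute hkl hmi.symm hil.symm hmk.symm t s
  · rw [hy]
    exact tv_commute hkl hmj hml.symm hjk.symm t 1

theorem y_eq {i j m m' : Fin n} (hij : i ≠ j) (him : i ≠ m) (hmj : m ≠ j) (him' : i ≠ m')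
    (hmj' : m' ≠ j) (h : m ≠ m') {s r s' r' : K} (hs : s ≠ 0) (hs' : s' ≠ 0)
    (he : s * r = s' * r') {a b a' b' : E} (ha : f a = tv him s) (hb : f b = tv hmj r)
    (ha' : f a' = tv him' s') (hb' : f b' = tv hmj' r') : ⁅a, b⁆ = ⁅a', b'⁆ := by
  have hu : -(s' * s⁻¹) ≠ 0 := neg_ne_zero.mpr (mul_ne_zero hs' (inv_ne_zero hs))
  obtain ⟨w, hw⟩ := hf (wv h (-(s' * s⁻¹)))
  obtain ⟨m0, h1, h2, h3, h4⟩ := exists_fresh hn i j m m'
  have hx : f ⁅a, b⁆ = tv hij (s * r) := by
    rw [map_commutatorElement, ha, hb, tv_comm him hmj hij]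
  have h5 : w * ⁅a, b⁆ = ⁅a, b⁆ * w := by
    refine lift_comm' hf hk hij h1.symm h2 hx ?_ ?_
    · rw [hw]
      exact wv_commute h1.symm h him.symm h3.symm him'.symm h4.symm _ _
    · rw [hw]
      exact wv_commute h2 h h3.symm hmj h4.symm hmj' _ _
  have h6 : ⁅w * a * w⁻¹, w * b * w⁻¹⁆ = ⁅a, b⁆ := by
    have h7 : w * ⁅a, b⁆ * w⁻¹ = ⁅w * a * w⁻¹, w * b * w⁻¹⁆ := by
      rw [commutatorElement_def, commutatorElement_def]
      group
    rw [← h7, h5, mul_inv_cancel_right]
  rw [← h6]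
  refine comm_congr hk ?_ ?_
  · rw [map_mul, map_mul, map_inv, hw, ha, wv_left him him' h hu, ha']
    congr 1
    field_simp
  · rw [map_mul, map_mul, map_inv, hw, hb, wv_right hmj hmj' h hu, hb']
    congr 1
    rw [inv_neg, neg_neg, mul_inv, inv_inv]
    field_simp
    linear_combination he

omit hn hf in
theorem comm_one_left {a b : E} (h : f a = 1) : ⁅a, b⁆ = 1 := by
  have h1 := mem_center_iff.mp (hk (MonoidHom.mem_ker.mpr h)) b
  rw [commutatorElement_def, ← h1]
  group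

omit hn hf in
theorem comm_one_right {a b : E} (h : f b = 1) : ⁅a, b⁆ = 1 := by
  have h1 := mem_center_iff.mp (hk (MonoidHom.mem_ker.mpr h)) a
  rw [commutatorElement_def, h1]
  group

omit hf hk hn in
theorem tv_zero {i j : Fin n} (hij : i ≠ j) : (tv hij (0 : K) : GS n K) = 1 :=
  SpecialLinearGroup.transvection_coeff_zero hij

theorem y_ind {i j m m' : Fin n} (hij : i ≠ j) (him : i ≠ m) (hmj : m ≠ j) (him' : i ≠ m')
    (hmj' : m' ≠ j) {s r s' r' : K}
    (he : s * r = s' * r') {a b a' b' : E} (ha : f a = tv him s) (hb : f b = tv hmj r)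
    (ha' : f a' = tv him' s') (hb' : f b' = tv hmj' r') : ⁅a, b⁆ = ⁅a', b'⁆ := by
  have h0 : ∀ {m : Fin n} (him : i ≠ m) (hmj : m ≠ j) {s r : K} {a b : E}, f a = tv him s →
      f b = tv hmj r → s * r = 0 → ⁅a, b⁆ = 1 := by
    intro m him hmj s r a b ha hb h
    rcases mul_eq_zero.mp h with h | h
    · exact comm_one_left hk (by rw [ha, h, tv_zero])
    · exact comm_one_right hk (by rw [hb, h, tv_zero])
  by_cases h1 : s * r = 0
  · rw [h0 him hmj ha hb h1, h0 him' hmj' ha' hb' (he ▸ h1)]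
  · have hs : s ≠ 0 := fun h => h1 (by rw [h, zero_mul])
    have hs' : s' ≠ 0 := fun h => h1 (by rw [he, h, zero_mul])
    obtain ⟨m0, h2, h3, h4, h5⟩ := exists_fresh hn i j m m'
    obtain ⟨a0, ha0⟩ := hf (tv h2.symm s)
    obtain ⟨b0, hb0⟩ := hf (tv h3 r)
    rw [y_eq hn hf hk hij him hmj h2.symm h3 h4.symm hs hs rfl ha hb ha0 hb0]
    exact y_eq hn hf hk hij h2.symm h3 him' hmj' h5 hs hs' he ha0 hb0 ha' hb'

/-- **the canonical lifts** -/
theorem exists_X : ∃ X : ∀ i j : Fin n, i ≠ j → K → E,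
    (∀ i j hij t, f (X i j hij t) = tv hij t) ∧
    (∀ i j hij s t, X i j hij (s + t) = X i j hij s * X i j hij t) ∧
    (∀ i m j (him : i ≠ m) (hmj : m ≠ j) (hij : i ≠ j) s t (a b : E), f a = tv him s →
      f b = tv hmj t → ⁅a, b⁆ = X i j hij (s * t)) := by
  have h1 : ∀ (i j : Fin n) (hij : i ≠ j) (t : K), ∃ x : E, f x = tv hij t ∧
      ∀ m (him : i ≠ m) (hmj : m ≠ j) (s r : K) (a b : E), f a = tv him s → f b = tv hmj r →
        s * r = t → ⁅a, b⁆ = x := by
    intro i j hij t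
    obtain ⟨m, h2, h3, -, -⟩ := exists_fresh hn i j i j
    obtain ⟨a, ha⟩ := hf (tv h2.symm 1)
    obtain ⟨b, hb⟩ := hf (tv h3 t)
    refine ⟨⁅a, b⁆, ?_, ?_⟩
    · rw [map_commutatorElement, ha, hb, tv_comm h2.symm h3 hij, one_mul]
    · intro m' him' hmj' s r a' b' ha' hb' he
      exact y_ind hn hf hk hij him' hmj' h2.symm h3 (by rw [he, one_mul]) ha' hb' ha hb
  choose X hX1 hX2 using h1
  refine ⟨X, hX1, ?_, ?_⟩
  · intro i j hij s t
    obtain ⟨m, h2, h3, -, -⟩ := exists_fresh hn i j i j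
    obtain ⟨a, ha⟩ := hf (tv h2.symm 1)
    obtain ⟨b, hb⟩ := hf (tv h3 s)
    obtain ⟨b', hb'⟩ := hf (tv h3 t)
    rw [← hX2 i j hij (s + t) m h2.symm h3 1 (s + t) a (b * b') ha
      (by rw [map_mul, hb, hb', tv_mul]) (one_mul _),
      ← hX2 i j hij s m h2.symm h3 1 s a b ha hb (one_mul _),
      ← hX2 i j hij t m h2.symm h3 1 t a b' ha hb' (one_mul _)]
    have h4 : ⁅a, b'⁆ * b = b * ⁅a, b'⁆ := by
      refine lift_comm hn hf hk hij h3 h3.symm hij (s := 1 * t) (t := s) ?_ hb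
      rw [map_commutatorElement, ha, hb', tv_comm h2.symm h3 hij]
    calc ⁅a, b * b'⁆ = ⁅a, b⁆ * (b * ⁅a, b'⁆) * b⁻¹ := by
          rw [commutatorElement_def, commutatorElement_def, commutatorElement_def]
          group
      _ = ⁅a, b⁆ * ⁅a, b'⁆ := by rw [← h4]; group
  · intro i m j him hmj hij s t a b ha hb
    exact hX2 i j hij (s * t) m him hmj s t a b ha hb rfl

end Lift

end Vale.Agent.P180.H19.Mul
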