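import Vale.Agent.P180.H19.MulA

/-!
P180, lemma M (helper19): the unitriangular group lifts to every central extension of `SL(n, K)`,
`n ≥ 5`; the kernel of a finite perfect central extension has order prime to the characteristic.
-/

set_option linter.all false

namespace Vale.Agent.P180.H19.Mul

open Subgroup Matrix Vale.Agent.P180.R2.H589.Sch
open scoped commutatorElement

section UT

variable {K : Type*} [Field K] {n : ℕ}

theorem mul_entry (g h : GS n K) (a b : Fin n) : (g * h) a b = ∑ c, g a c * h c b := by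
  change ((g : Matrix (Fin n) (Fin n) K) * (h : Matrix (Fin n) (Fin n) K)) a b = _
  rw [Matrix.mul_apply]

theorem one_entry (a b : Fin n) : (1 : GS n K) a b = if a = b then 1 else 0 := by
  change (1 : Matrix (Fin n) (Fin n) K) a b = _
  rw [Matrix.one_apply]

theorem pos_inj {a b i j : Fin n} (h : (a : ℕ) * n + b = (i : ℕ) * n + j) : a = i ∧ b = j := by
  have hb := b.2
  have hj := j.2
  rcases lt_trichotomy (a : ℕ) i with h1 | h1 | h1
  · exfalso
    have e1 : ((a : ℕ) + 1) * n ≤ (i : ℕ) * n := Nat.mul_le_mul_right n h1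
    have e3 : ((a : ℕ) + 1) * n = (a : ℕ) * n + n := by ring
    omega
  · have h2 : a = i := Fin.ext h1
    subst h2
    exact ⟨rfl, Fin.ext (by omega)⟩
  · exfalso
    have e1 : ((i : ℕ) + 1) * n ≤ (a : ℕ) * n := Nat.mul_le_mul_right n h1
    have e3 : ((i : ℕ) + 1) * n = (i : ℕ) * n + n := by ring
    omega

theorem mul_tv {i j : Fin n} (hij : i ≠ j) (c : K) (g : GS n K) (a b : Fin n) :
    (g * tv hij c) a b = g a b + if b = j then g a i * c else 0 := by
  have h1 : (g * tv hij c) a b = ((g : Matrix (Fin n) (Fin n) K) *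
      ((1 : Matrix (Fin n) (Fin n) K) + Matrix.single i j c)) a b := rfl
  rw [h1, Matrix.mul_add, Matrix.mul_one, Matrix.add_apply]
  congr 1
  split_ifs with h
  · rw [h, Matrix.mul_single_apply_same]
  · rw [Matrix.mul_single_apply_of_ne _ _ _ _ _ h]

theorem tv_mul' {i j : Fin n} (hij : i ≠ j) (c : K) (g : GS n K) (a b : Fin n) :
    (tv hij c * g) a b = g a b + if a = i then c * g j b else 0 := by
  have h1 : (tv hij c * g) a b = (((1 : Matrix (Fin n) (Fin n) K) + Matrix.single i j c) *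
      (g : Matrix (Fin n) (Fin n) K)) a b := rfl
  rw [h1, Matrix.add_mul, Matrix.one_mul, Matrix.add_apply]
  congr 1
  split_ifs with h
  · rw [h, Matrix.single_mul_apply_same]
  · rw [Matrix.single_mul_apply_of_ne _ _ _ _ _ h]

/-- unitriangular, with zeros at the positions before `N` -/
def QQ (N : ℕ) (g : GS n K) : Prop := (∀ i, g i i = 1) ∧ (∀ i j, j < i → g i j = 0) ∧
  ∀ i j : Fin n, i < j → (i : ℕ) * n + j < N → g i j = 0

theorem QQ_one (N : ℕ) : QQ N (1 : GS n K) := by
  refine ⟨fun i => ?_, fun i j h => ?_, fun i j h _ => ?_⟩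
  · rw [one_entry, if_pos rfl]
  · rw [one_entry, if_neg h.ne']
  · rw [one_entry, if_neg h.ne]

theorem QQ_mul {N : ℕ} {g h : GS n K} (hg : QQ N g) (hh : QQ N h) : QQ N (g * h) := by
  obtain ⟨g1, g2, g3⟩ := hg
  obtain ⟨h1, h2, h3⟩ := hh
  refine ⟨fun i => ?_, fun i j hij => ?_, fun i j hij hN => ?_⟩
  · rw [mul_entry, Finset.sum_eq_single i]
    · rw [g1, h1, mul_one]
    · intro c _ hc
      rcases lt_or_gt_of_ne hc with h | h
      · rw [g2 i c h, zero_mul]
      · rw [h2 c i h, mul_zero]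
    · intro h
      exact absurd (Finset.mem_univ i) h
  · rw [mul_entry]
    refine Finset.sum_eq_zero fun c _ => ?_
    rcases lt_or_ge c i with h | h
    · rw [g2 i c h, zero_mul]
    · rw [h2 c j (lt_of_lt_of_le hij h), mul_zero]
  · rw [mul_entry]
    refine Finset.sum_eq_zero fun c _ => ?_
    rcases lt_trichotomy c i with h | h | h
    · rw [g2 i c h, zero_mul]
    · rw [h, h3 i j hij hN, mul_zero]
    · rcases le_or_gt c j with h' | h'
      · have hcN : (i : ℕ) * n + c < N := by
          have : (c : ℕ) ≤ j := h'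
          omega
        rw [g3 i c h hcN, zero_mul]
      · rw [h2 c j h', mul_zero]

variable [Finite K]

/-- the subgroup -/
def UQ (n : ℕ) (K : Type*) [Field K] [Finite K] (N : ℕ) : Subgroup (GS n K) where
  carrier := {g | QQ N g}
  one_mem' := QQ_one N
  mul_mem' := fun hg hh => QQ_mul hg hh
  inv_mem' := by
    intro g hg
    have h1 : ∀ m : ℕ, QQ N (g ^ m) := by
      intro m
      induction m with
      | zero => rw [pow_zero]; exact QQ_one N
      | succ m ih => rw [pow_succ]; exact QQ_mul ih hg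
    have h2 : g⁻¹ ∈ (Submonoid.powers g : Set (GS n K)) := by
      rw [(isOfFinOrder_of_finite g).powers_eq_zpowers]
      exact Subgroup.inv_mem _ (Subgroup.mem_zpowers g)
    obtain ⟨m, hm⟩ := h2
    change QQ N g⁻¹
    rw [← hm]
    exact h1 m

theorem mem_UQ {N : ℕ} {g : GS n K} : g ∈ UQ n K N ↔ QQ N g := Iff.rfl

theorem tv_mem_UQ {N : ℕ} {i j : Fin n} (hij : i < j) (hN : N ≤ (i : ℕ) * n + j) (c : K) :
    tv hij.ne c ∈ UQ n K N := by
  have key : ∀ a b : Fin n, (tv hij.ne c : GS n K) a b = (1 : GS n K) a b +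
      if b = j then (1 : GS n K) a i * c else 0 := by
    intro a b
    rw [← mul_tv hij.ne c 1 a b, one_mul]
  refine ⟨fun a => ?_, fun a b hab => ?_, fun a b hab hN' => ?_⟩
  · rw [key, one_entry, if_pos rfl]
    split_ifs with h
    · rw [one_entry, if_neg (by rw [h]; exact hij.ne'), zero_mul, add_zero]
    · rw [add_zero]
  · rw [key, one_entry, if_neg hab.ne', zero_add]
    split_ifs with h
    · rw [one_entry, if_neg, zero_mul]
      rintro rfl
      rw [h] at hab
      exact absurd hab (not_lt_of_gt hij)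
    · rfl
  · rw [key, one_entry, if_neg hab.ne, zero_add]
    split_ifs with h
    · rw [one_entry, if_neg, zero_mul]
      rintro rfl
      rw [h] at hN'
      omega
    · rfl

/-- the coordinate at position `N` -/
theorem UQ_step {N : ℕ} {i j : Fin n} (hij : i < j) (hN : (i : ℕ) * n + j = N) {g : GS n K}
    (hg : g ∈ UQ n K N) : g * tv hij.ne (-(g i j)) ∈ UQ n K (N + 1) := by
  obtain ⟨g1, g2, g3⟩ := hg
  refine ⟨fun a => ?_, fun a b hab => ?_, fun a b hab hN' => ?_⟩
  · rw [mul_tv, g1]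
    split_ifs with h
    · rw [h, g2 j i hij, zero_mul, add_zero]
    · rw [add_zero]
  · rw [mul_tv, g2 a b hab, zero_add]
    split_ifs with h
    · rw [g2 a i (lt_trans hij (h ▸ hab)), zero_mul]
    · rfl
  · rw [mul_tv]
    split_ifs with h
    · subst h
      rcases lt_trichotomy a i with h1 | h1 | h1
      · have e1 : ((a : ℕ) + 1) * n ≤ (i : ℕ) * n := Nat.mul_le_mul_right n h1
        have e2 : (i : ℕ) < n := i.2
        have e3 : ((a : ℕ) + 1) * n = (a : ℕ) * n + n := by ring
        have e4 : (b : ℕ) < n := b.2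
        rw [g3 a b hab (by omega), g3 a i h1 (by omega), zero_mul, add_zero]
      · rw [h1, g1, one_mul, add_neg_cancel]
      · exfalso
        have e1 : ((i : ℕ) + 1) * n ≤ (a : ℕ) * n := Nat.mul_le_mul_right n h1
        have e3 : ((i : ℕ) + 1) * n = (i : ℕ) * n + n := by ring
        have e4 : (b : ℕ) < n := b.2
        omega
    · have h2 : (a : ℕ) * n + b < N := by
        rcases Nat.lt_succ_iff_lt_or_eq.mp hN' with h3 | h3
        · exact h3
        · exact absurd (pos_inj (h3.trans hN.symm)).2 h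
      rw [g3 a b hab h2, zero_add]

theorem UQ_step' {N : ℕ} (h0 : ∀ i j : Fin n, i < j → (i : ℕ) * n + j ≠ N) {g : GS n K}
    (hg : g ∈ UQ n K N) : g ∈ UQ n K (N + 1) := by
  obtain ⟨g1, g2, g3⟩ := hg
  refine ⟨g1, g2, fun a b hab hN => g3 a b hab ?_⟩
  have := h0 a b hab
  omega

end UT

section Idx

variable {K : Type*} [Field K] [Finite K] {n : ℕ}

theorem blk_surj (hn : 1 ≤ n) : Function.Surjective (blk n K) := by
  intro B
  refine tv_induction hn (fun B => ∃ g, blk n K g = B) ?_ ⟨1, map_one _⟩ ?_ B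
  · intro i j hij c
    exact ⟨_, blk_tv hij c⟩
  · rintro A B ⟨g, rfl⟩ ⟨h, rfl⟩
    exact ⟨g * h, map_mul _ _ _⟩

theorem UQ_le_St : UQ (n + 1) K 0 ≤ St n K := by
  intro g hg
  rw [mem_St, nat_apply, o1, Matrix.mulVec_single_one]
  funext i
  change g i 0 = _
  rw [Pi.single_apply]
  split_ifs with h
  · rw [h]
    exact hg.1 0
  · exact hg.2.1 i 0 (Fin.pos_of_ne_zero h)

theorem UQ_blk : (UQ (n + 1) K 0).subgroupOf (St n K) = (UQ n K 0).comap (blk n K) := by
  ext g
  rw [mem_subgroupOf, mem_comap, mem_UQ, mem_UQ]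
  constructor
  · rintro ⟨h1, h2, -⟩
    refine ⟨fun i => ?_, fun i j hij => ?_, fun i j _ h => absurd h (Nat.not_lt_zero _)⟩
    · rw [blk_apply]
      exact h1 i.succ
    · rw [blk_apply]
      exact h2 i.succ j.succ (Fin.succ_lt_succ_iff.mpr hij)
  · rintro ⟨h1, h2, -⟩
    refine ⟨fun i => ?_, fun i j hij => ?_, fun i j _ h => absurd h (Nat.not_lt_zero _)⟩
    · refine Fin.cases ?_ (fun i => ?_) i
      · have := col0 g.2 0
        rwa [o1_zero] at this
      · have := h1 i
        rwa [blk_apply] at this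
    · revert hij
      refine Fin.cases ?_ (fun i => ?_) i
      · intro h
        exact absurd h (Fin.not_lt_zero j)
      · refine Fin.cases ?_ (fun j => ?_) j
        · intro _
          exact col0_succ g.2 i
        · intro h
          have := h2 i j (Fin.succ_lt_succ_iff.mp h)
          rwa [blk_apply] at this

variable {p : ℕ} [Fact p.Prime] [CharP K p]

theorem UQ_index : ∀ {n : ℕ}, 1 ≤ n → ¬ p ∣ (UQ n K 0).index := by
  intro n hn
  induction n, hn using Nat.le_induction with
  | base =>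
    have h1 : UQ 1 K 0 = ⊤ := by
      rw [eq_top_iff]
      intro g _
      refine ⟨fun i => ?_, fun i j h => absurd h (by omega), fun i j h => absurd h (by omega)⟩
      have hd := g.2
      rw [Matrix.det_fin_one] at hd
      have hi : i = 0 := Subsingleton.elim _ _
      rw [hi]
      exact hd
    rw [h1, Subgroup.index_top]
    exact (Fact.out : p.Prime).one_lt.ne' ∘ Nat.dvd_one.mp
  | succ n hn ih =>
    intro hd
    rw [← relIndex_mul_index (UQ_le_St (K := K) (n := n))] at hd
    rcases (Fact.out : p.Prime).dvd_mul.mp hd with h | h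
    · apply ih
      rw [relIndex, UQ_blk, index_comap_of_surjective _ (blk_surj hn)] at h
      exact h
    · have h1 := not_dvd_index (p := p) (K := K) hn (E := GS (n + 1) K) (f := MonoidHom.id _)
        Function.surjective_id
      rw [comap_id] at h1
      exact h1 h

end Idx

section Lift

variable {K : Type*} [Field K] [Finite K] {n : ℕ} {E : Type*} [Group E] {f : E →* GS n K}
variable {X : ∀ i j : Fin n, i ≠ j → K → E}

/-- the subgroup generated by the lifts at the positions from `N` on -/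
def UX (X : ∀ i j : Fin n, i ≠ j → K → E) (N : ℕ) : Subgroup E :=
  closure {x | ∃ (i j : Fin n) (h : i < j) (t : K), N ≤ (i : ℕ) * n + j ∧ x = X i j h.ne t}

theorem X_mem {N : ℕ} {i j : Fin n} (h : i < j) (t : K) (hN : N ≤ (i : ℕ) * n + j) :
    X i j h.ne t ∈ UX X N := subset_closure ⟨i, j, h, t, hN, rfl⟩

theorem UX_le {N : ℕ} : UX X (N + 1) ≤ UX X N := by
  refine closure_mono ?_
  rintro x ⟨i, j, h, t, hN, rfl⟩
  exact ⟨i, j, h, t, by omega, rfl⟩

theorem UX_top : UX X (n * n) = ⊥ := by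
  rw [eq_bot_iff, UX, closure_le]
  rintro x ⟨i, j, h, t, hN, rfl⟩
  exfalso
  have h1 : ((i : ℕ) + 1) * n ≤ n * n := Nat.mul_le_mul_right n i.2
  have h2 : ((i : ℕ) + 1) * n = (i : ℕ) * n + n := by ring
  have h3 := j.2
  omega

theorem UX_step' {N : ℕ} (h0 : ∀ i j : Fin n, i < j → (i : ℕ) * n + j ≠ N) :
    UX X N = UX X (N + 1) := by
  refine le_antisymm ?_ UX_le
  refine closure_mono ?_
  rintro x ⟨i, j, h, t, hN, rfl⟩
  have := h0 i j h
  exact ⟨i, j, h, t, by omega, rfl⟩

variable (hn : 5 ≤ n) (hf : Function.Surjective f) (hk : f.ker ≤ center E)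
variable (hX1 : ∀ i j hij t, f (X i j hij t) = tv hij t)
  (hX2 : ∀ i j hij s t, X i j hij (s + t) = X i j hij s * X i j hij t)
  (hX3 : ∀ i m j (him : i ≠ m) (hmj : m ≠ j) (hij : i ≠ j) s t (a b : E), f a = tv him s →
      f b = tv hmj t → ⁅a, b⁆ = X i j hij (s * t))

include hX1 in
theorem UX_map {N : ℕ} : ∀ x ∈ UX X N, f x ∈ UQ n K N := by
  intro x hx
  have h1 : UX X N ≤ (UQ n K N).comap f := by
    refine (closure_le _).mpr ?_
    rintro x ⟨i, j, h, t, hN, rfl⟩
    change f _ ∈ UQ n K N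
    rw [hX1]
    exact tv_mem_UQ h hN t
  exact h1 hx

include hX2 in
theorem X_zero {i j : Fin n} (hij : i ≠ j) : X i j hij 0 = 1 := by
  have h := hX2 i j hij 0 0
  rw [add_zero] at h
  exact (mul_eq_left.mp h.symm)

include hX2 in
theorem X_neg {i j : Fin n} (hij : i ≠ j) (t : K) : (X i j hij t)⁻¹ = X i j hij (-t) := by
  rw [inv_eq_iff_mul_eq_one, ← hX2, add_neg_cancel, X_zero hX2]

include hn hf hk hX1 hX2 hX3

theorem conj_UX {N : ℕ} {i j : Fin n} (hij : i < j) (hN : (i : ℕ) * n + j = N) (t : K) {u : E}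
    (hu : u ∈ UX X (N + 1)) : X i j hij.ne t * u * (X i j hij.ne t)⁻¹ ∈ UX X (N + 1) := by
  have h1 : UX X (N + 1) ≤ (UX X (N + 1)).comap (MulAut.conj (X i j hij.ne t)).toMonoidHom := by
    refine (closure_le _).mpr ?_
    rintro x ⟨a, b, h, s, hab, rfl⟩
    change X i j hij.ne t * X a b h.ne s * (X i j hij.ne t)⁻¹ ∈ UX X (N + 1)
    have hmem : X a b h.ne s ∈ UX X (N + 1) := X_mem h s hab
    by_cases hja : j = a
    · subst hja
      have h2 := hX3 i j b hij.ne h.ne (lt_trans hij h).ne t s _ _ (hX1 i j hij.ne t)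
        (hX1 j b h.ne s)
      have h3 : X i j hij.ne t * X j b h.ne s * (X i j hij.ne t)⁻¹ =
          ⁅X i j hij.ne t, X j b h.ne s⁆ * X j b h.ne s := by
        rw [commutatorElement_def]
        group
      rw [h3, h2]
      refine (UX X (N + 1)).mul_mem (X_mem (lt_trans hij h) _ ?_) hmem
      have : (j : ℕ) < b := h
      omega
    · have hib : i ≠ b := by
        rintro rfl
        have e1 : ((a : ℕ) + 1) * n ≤ (i : ℕ) * n := Nat.mul_le_mul_right n h
        have e3 : ((a : ℕ) + 1) * n = (a : ℕ) * n + n := by ring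
        have e4 := i.2
        omega
      have h2 := lift_comm hn hf hk hij.ne h.ne hja hib (hX1 i j hij.ne t) (hX1 a b h.ne s)
      rw [h2, mul_inv_cancel_right]
      exact hmem
  exact h1 hu

theorem UX_decomp {N : ℕ} {i j : Fin n} (hij : i < j) (hN : (i : ℕ) * n + j = N) {x : E}
    (hx : x ∈ UX X N) : ∃ t, ∃ u ∈ UX X (N + 1), x = X i j hij.ne t * u := by
  unfold UX at hx
  induction hx using closure_induction with
  | mem x hx =>
    obtain ⟨a, b, h, s, hab, rfl⟩ := hx
    by_cases h0 : (a : ℕ) * n + b = N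
    · obtain ⟨rfl, rfl⟩ := pos_inj (h0.trans hN.symm)
      exact ⟨s, 1, one_mem _, (mul_one _).symm⟩
    · refine ⟨0, _, X_mem h s (by omega), ?_⟩
      rw [X_zero hX2, one_mul]
  | one => exact ⟨0, 1, one_mem _, by rw [X_zero hX2, mul_one]⟩
  | mul x y _ _ hx hy =>
    obtain ⟨t, u, hu, rfl⟩ := hx
    obtain ⟨t', u', hu', rfl⟩ := hy
    refine ⟨t + t', (X i j hij.ne (-t') * u * (X i j hij.ne (-t'))⁻¹) * u',
      mul_mem (conj_UX hn hf hk hX1 hX2 hX3 hij hN _ hu) hu', ?_⟩
    rw [hX2, ← X_neg hX2]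
    group
  | inv x _ hx =>
    obtain ⟨t, u, hu, rfl⟩ := hx
    refine ⟨-t, X i j hij.ne t * u⁻¹ * (X i j hij.ne t)⁻¹,
      conj_UX hn hf hk hX1 hX2 hX3 hij hN _ (inv_mem hu), ?_⟩
    rw [← X_neg hX2]
    group

theorem UX_inj : ∀ d N : ℕ, N + d = n * n → ∀ x ∈ UX X N, f x = 1 → x = 1 := by
  intro d
  induction d with
  | zero =>
    intro N hN x hx _
    rw [add_zero] at hN
    rw [hN, UX_top, mem_bot] at hx
    exact hx
  | succ d ih =>
    intro N hN x hx hfx
    by_cases h0 : ∀ i j : Fin n, i < j → (i : ℕ) * n + j ≠ N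
    · rw [UX_step' h0] at hx
      exact ih (N + 1) (by omega) x hx hfx
    · push Not at h0
      obtain ⟨i, j, hij, hNe⟩ := h0
      obtain ⟨t, u, hu, rfl⟩ := UX_decomp hn hf hk hX1 hX2 hX3 hij hNe hx
      have h1 := UX_map hX1 u hu
      rw [map_mul, hX1] at hfx
      have h2 := tv_mul' hij.ne t (f u) i j
      rw [hfx, one_entry, if_neg hij.ne, if_pos rfl, h1.2.2 i j hij (by omega), h1.1 j,
        zero_add, mul_one] at h2
      rw [← h2, tv_zero, one_mul] at hfx
      rw [← h2, X_zero hX2, one_mul]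
      exact ih (N + 1) (by omega) u hu hfx

omit hk hX2 hX3 hn hf in
theorem UX_surj : ∀ d N : ℕ, N + d = n * n → ∀ g ∈ UQ n K N, ∃ x ∈ UX X N, f x = g := by
  intro d
  induction d with
  | zero =>
    intro N hN g hg
    refine ⟨1, one_mem _, ?_⟩
    rw [map_one]
    symm
    apply Matrix.SpecialLinearGroup.ext
    intro i j
    rw [one_entry]
    rcases lt_trichotomy i j with h | h | h
    · rw [if_neg h.ne]
      apply hg.2.2 i j h
      have h1 : ((i : ℕ) + 1) * n ≤ n * n := Nat.mul_le_mul_right n i.2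
      have h2 : ((i : ℕ) + 1) * n = (i : ℕ) * n + n := by ring
      have h3 := j.2
      omega
    · rw [if_pos h, h]
      exact hg.1 j
    · rw [if_neg h.ne']
      exact hg.2.1 i j h
  | succ d ih =>
    intro N hN g hg
    by_cases h0 : ∀ i j : Fin n, i < j → (i : ℕ) * n + j ≠ N
    · obtain ⟨x, hx, hfx⟩ := ih (N + 1) (by omega) g (UQ_step' h0 hg)
      exact ⟨x, UX_le hx, hfx⟩
    · push Not at h0
      obtain ⟨i, j, hij, hNe⟩ := h0
      obtain ⟨x, hx, hfx⟩ := ih (N + 1) (by omega) _ (UQ_step hij hNe hg)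
      refine ⟨x * X i j hij.ne (g i j), mul_mem (UX_le hx) (X_mem hij _ hNe.ge), ?_⟩
      rw [map_mul, hfx, hX1, mul_assoc, tv_mul, neg_add_cancel, tv_zero, mul_one]

end Lift

section Main

variable {K : Type*} [Field K] [Finite K] {p : ℕ} [Fact p.Prime] [CharP K p] {n : ℕ}

/-- **The `p`-part of the kernel** of a perfect central extension of `SL(n, K)`, `n ≥ 5`. -/
theorem chrClaim5 (hn : 5 ≤ n) : ChrClaim n K p := by
  intro E _ _ f hf hk hE a ha hpa
  obtain ⟨X, hX1, hX2, hX3⟩ := exists_X hn hf hk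
  set H : Subgroup E := (UQ n K 0).comap f with hH
  have hidx : ¬ p ∣ H.index := by
    rw [hH, index_comap_of_surjective _ hf]
    exact UQ_index (by omega)
  have haH : a ∈ H := by
    change f a ∈ UQ n K 0
    rw [ha]
    exact one_mem _
  have h1 := mem_commutator_of_central hE hidx (hk (MonoidHom.mem_ker.mpr ha)) haH hpa
  have h2 : ⁅H, H⁆ ≤ UX X 0 := by
    rw [commutator_le]
    intro x hx y hy
    obtain ⟨x', hx', hxx⟩ := UX_surj (f := f) hX1 (n * n) 0 (by omega) _ hx
    obtain ⟨y', hy', hyy⟩ := UX_surj (f := f) hX1 (n * n) 0 (by omega) _ hy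
    rw [comm_congr hk hxx.symm hyy.symm, commutatorElement_def]
    exact mul_mem (mul_mem (mul_mem hx' hy') (inv_mem hx')) (inv_mem hy')
  exact UX_inj hn hf hk hX1 hX2 hX3 (n * n) 0 (by omega) a (h2 h1) ha

end Main

end Vale.Agent.P180.H19.Mul
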