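import Vale.Agent.P180.H19.MulB
import Vale.Agent.P180.R2.H589.Sch.Main

/-!
P180, lemma M (helper19): finite perfect groups `L` with `L/Z(L) ≅ PSL(n, K)`, `n ≥ 5`, are
quotients of `SL(n, K)`; the reduction to the claim `CopClaim` (the part of the kernel of order
prime to the characteristic).
-/

set_option linter.all false

namespace Vale.Agent.P180.H19.Mul

open Subgroup Vale.Agent.P180.R2.H589.Sch

section

variable {K : Type*} [Field K]

/-- `SL(n, K)` is perfect, `n ≥ 5`, every field. -/
theorem sl_perfect5 {n : ℕ} (hn : 5 ≤ n) :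
    commutator (Matrix.SpecialLinearGroup (Fin n) K) = ⊤ := by
  rw [eq_top_iff]
  intro A _
  refine tv_induction (by omega) (fun A => A ∈ commutator (GS n K)) ?_ (Subgroup.one_mem _)
    (fun _ _ => Subgroup.mul_mem _) A
  intro i j hij c
  obtain ⟨m, h1, h2, -, -⟩ := exists_fresh hn i j i j
  have h3 := tv_comm h1.symm h2 hij (1 : K) c
  rw [one_mul] at h3
  rw [← h3, commutator_def]
  exact commutator_mem_commutator (mem_top _) (mem_top _)

variable [Finite K]

/-- A finite perfect central extension of `SL(n, K)`, `n ≥ 5`, is trivial (from the claim on the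
part of order prime to the characteristic). -/
theorem sl_injective5_of {n : ℕ} (hn : 5 ≤ n) (hcop : CopClaim n K (ringChar K)) {E : Type}
    [Group E] [Finite E]
    (hperf : commutator E = ⊤) (f : E →* Matrix.SpecialLinearGroup (Fin n) K)
    (hf : Function.Surjective f) (hk : f.ker ≤ center E) : Function.Injective f := by
  haveI hp : Fact (ringChar K).Prime := ⟨CharP.char_is_prime K (ringChar K)⟩
  set p := ringChar K with hpdef
  -- the kernel has order prime to `p`
  have h1 : ¬ p ∣ Nat.card f.ker := by
    intro hd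
    obtain ⟨w, hw⟩ := exists_prime_orderOf_dvd_card' p hd
    have h2 : (w : E) = 1 := by
      refine chrClaim5 (p := p) hn E f hf hk hperf w w.2 ⟨1, ?_⟩
      have h3 : w ^ p = 1 := by rw [← hw]; exact pow_orderOf_eq_one w
      rw [pow_one]
      exact congrArg Subtype.val h3
    have h3 : w = 1 := Subtype.ext h2
    rw [h3, orderOf_one] at hw
    exact hp.out.one_lt.ne hw
  -- `E` is generated by the `p`-elements
  set H : Subgroup E := closure {x : E | Pel p x} with hH
  have h2 : H.map f = ⊤ := by
    rw [eq_top_iff]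
    rintro A -
    refine tv_induction (by omega) (fun A => A ∈ H.map f) (fun i j hij c => ?_)
      (Subgroup.one_mem _) (fun _ _ => Subgroup.mul_mem _) A
    obtain ⟨q, hq, hfq⟩ := exists_pel (p := p) h1 (tv_pel (p := p) hij c) (hf _)
    exact ⟨q, subset_closure hq, hfq⟩
  have h3 : H = ⊤ := by
    have h4 : commutator E ≤ ⁅H, H⁆ := by
      rw [commutator_def, commutator_le]
      intro x _ y _
      obtain ⟨x', hx', hxx⟩ : f x ∈ H.map f := by rw [h2]; exact mem_top _
      obtain ⟨y', hy', hyy⟩ : f y ∈ H.map f := by rw [h2]; exact mem_top _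
      rw [comm_congr hk hxx.symm hyy.symm]
      exact commutator_mem_commutator hx' hy'
    have h5 : ⁅H, H⁆ ≤ H := by
      rw [commutator_le]
      intro x hx y hy
      rw [commutatorElement_def]
      exact mul_mem (mul_mem (mul_mem hx hy) (inv_mem hx)) (inv_mem hy)
    rw [eq_top_iff, ← hperf]
    exact h4.trans h5
  rw [← MonoidHom.ker_eq_bot_iff]
  exact hcop E f hf hk h1 h3

/-- A finite perfect central extension of `SL(n, K)`, `n ≥ 5`, `|K| > 4`, is trivial. -/
theorem sl_injective5 {n : ℕ} (hn : 5 ≤ n) (hK : 4 < Nat.card K) {E : Type} [Group E] [Finite E]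
    (hperf : commutator E = ⊤) (f : E →* Matrix.SpecialLinearGroup (Fin n) K)
    (hf : Function.Surjective f) (hk : f.ker ≤ center E) : Function.Injective f := by
  haveI hp : Fact (ringChar K).Prime := ⟨CharP.char_is_prime K (ringChar K)⟩
  exact sl_injective5_of hn (copClaim (by omega) hK) hperf f hf hk

end

section

variable {K : Type} [Field K] [Finite K]

/-- A finite perfect group `L` with `L/Z(L) ≅ PSL(n, K)` is a quotient of `SL(n, K)` by a central
subgroup (`n ≥ 5`, `|K| > 4`). -/
theorem exists_surj_sl5 {n : ℕ} (hn : 5 ≤ n) (hK : 4 < Nat.card K) {L : Type} [Group L] [Finite L]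
    (hL : commutator L = ⊤)
    (e : L ⧸ center L ≃* Matrix.SpecialLinearGroup (Fin n) K ⧸
      center (Matrix.SpecialLinearGroup (Fin n) K)) :
    ∃ π : Matrix.SpecialLinearGroup (Fin n) K →* L, Function.Surjective π ∧
      π.ker ≤ center (Matrix.SpecialLinearGroup (Fin n) K) :=
  Vale.Agent.P180.R2.H259.Schur.exists_surj_of_injective (sl_perfect5 hn) hL
    (fun E π h1 h2 h3 => sl_injective5 hn hK h1 π h2 h3) e

end

end Vale.Agent.P180.H19.Mul
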