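import Vale.Agent.P180.R2.H589.Sch.Cop
import Mathlib.LinearAlgebra.Matrix.GeneralLinearGroup.Card

/-!
P180, lemma M (helper19): central extensions of `SL(2, K)` and of small groups generated by
`p`-elements with kernel of order prime to `p`.
-/

set_option linter.all false

namespace Vale.Agent.P180.H19.Mul

open Subgroup Matrix Vale.Agent.P180.R2.H589.Sch

section Transfer

variable {E : Type*} [Group E] [Finite E] {l : ℕ} [Fact l.Prime]

/-- A central `l`-element of a perfect group lies in the commutator subgroup of every subgroup of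
index prime to `l` which contains it. -/
theorem mem_commutator' {H : Subgroup E}
    (hH : ¬ l ∣ H.index) {a : E} (haE : a ∈ commutator E) (hac : a ∈ center E) (haH : a ∈ H) (hal : ∃ n, a ^ l ^ n = 1) :
    a ∈ ⁅H, H⁆ := by
  have hzc : ∀ g, g * a = a * g := mem_center_iff.mp hac
  have key : ∀ (k : ℕ) (g₀ : E), g₀⁻¹ * a ^ k * g₀ ∈ H → g₀⁻¹ * a ^ k * g₀ = a ^ k := by
    intro k g₀ _
    have h1 : g₀ * a ^ k = a ^ k * g₀ := (Commute.pow_right (hzc g₀) k)
    rw [mul_assoc, ← h1, inv_mul_cancel_left]
  have h1 := MonoidHom.transfer_eq_pow (Abelianization.of (G := H)) a key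
  have h2 : commutator E ≤ (MonoidHom.transfer (Abelianization.of (G := H))).ker := by
    rw [commutator_def, commutator_le]
    intro x _ y _
    rw [MonoidHom.mem_ker, commutatorElement_def, map_mul, map_mul, map_mul, map_inv, map_inv,
      mul_comm (MonoidHom.transfer _ x), mul_inv_cancel_right, mul_inv_cancel]
  have h3 : MonoidHom.transfer (Abelianization.of (G := H)) a = 1 := by
    have : a ∈ commutator E := haE
    exact MonoidHom.mem_ker.mp (h2 this)
  have h4 : (Abelianization.of (⟨a, haH⟩ : H)) ^ H.index = 1 := by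
    rw [← map_pow, ← h3, h1]
    congr 1
  obtain ⟨n, hn⟩ := hal
  have h5 : (Abelianization.of (⟨a, haH⟩ : H)) ^ l ^ n = 1 := by
    rw [← map_pow]
    have : (⟨a, haH⟩ : H) ^ l ^ n = 1 := Subtype.ext hn
    rw [this, map_one]
  have h6 := Nat.dvd_gcd (orderOf_dvd_of_pow_eq_one h5) (orderOf_dvd_of_pow_eq_one h4)
  have h7 : Nat.Coprime (l ^ n) H.index := by
    apply Nat.Coprime.pow_left
    rw [(Fact.out : l.Prime).coprime_iff_not_dvd]
    exact hH
  rw [h7] at h6
  have h8 : Abelianization.of (⟨a, haH⟩ : H) = 1 :=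
    orderOf_eq_one_iff.mp (Nat.dvd_one.mp h6)
  have h9 : (⟨a, haH⟩ : H) ∈ commutator H := by
    rw [← Abelianization.ker_of]
    exact h8
  rw [← Subgroup.map_subtype_commutator]
  exact ⟨⟨a, haH⟩, h9, rfl⟩

end Transfer

section Two

variable {K : Type*} [Field K] {p : ℕ} [CharP K p]
variable {E G : Type*} [Group E] [Group G]

variable [Finite E] [Finite K] [Fact p.Prime]

/-- **Perfect central extensions of `SL(2, K)`**: the kernel is a `p`-group, `p = char K`. -/
theorem coprime_two' (f : E →* SpecialLinearGroup (Fin 2) K)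
    (hk : f.ker ≤ center E) {l : ℕ} [Fact l.Prime] (hlp : l ≠ p) {a : E} (ha : f a = 1)
    (hal : Pel l a) (haE : a ∈ commutator E) : a = 1 := by
  obtain ⟨S, hS⟩ := (isPGroup_zpowers_of_pel hal).exists_le_sylow
  have haS : a ∈ (S : Subgroup E) := hS (mem_zpowers a)
  have hac : a ∈ center E := hk ha
  have hcomm : a ∈ ⁅(S : Subgroup E), (S : Subgroup E)⁆ :=
    mem_commutator' S.not_dvd_index haE hac haS hal
  have hSbar : IsPGroup l ((S : Subgroup E).map f) := S.2.map f
  have hfinb : Finite ((S : Subgroup E).map f) := inferInstance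
  by_cases hl2 : l = 2
  · subst hl2
    have h2 : (2 : K) ≠ 0 := by
      intro h0
      have h1 : ((2 : ℕ) : K) = 0 := by exact_mod_cast h0
      rw [CharP.cast_eq_zero_iff K p] at h1
      exact hlp ((Nat.prime_dvd_prime_iff_eq Fact.out Fact.out).mp h1).symm
    by_cases hall : ∀ s ∈ (S : Subgroup E), f s ∈ pm1 K
    · refine eq_one_of_comm (comm_of_cyclic f hk (Z := zpowers (neg1 : SpecialLinearGroup (Fin 2) K))
        inferInstance ?_) hcomm
      intro s hs
      rcases hall s hs with h | h
      · rw [h]; exact Subgroup.one_mem _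
      · rw [h]; exact mem_zpowers _
    · push Not at hall
      obtain ⟨s₀, hs₀, hs₀'⟩ := hall
      set T : Subgroup (SpecialLinearGroup (Fin 2) K) := (S : Subgroup E).map f with hT
      let N : Subgroup T := (pm1 K).subgroupOf T
      have hN : N.Normal := by
        refine ⟨fun n hn g => ?_⟩
        have h1 : (n : SpecialLinearGroup (Fin 2) K) ∈ pm1 K := hn
        have h2 : g * n * g⁻¹ = n := by
          apply Subtype.ext
          change (g : SpecialLinearGroup (Fin 2) K) * n * (g : SpecialLinearGroup (Fin 2) K)⁻¹ = n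
          rw [← pm1_comm h1, mul_inv_cancel_right]
        rw [h2]
        exact hn
      have hQ : IsPGroup 2 (T ⧸ N) := hSbar.to_quotient N
      have hQnt : Nontrivial (T ⧸ N) := by
        refine ⟨(QuotientGroup.mk ⟨f s₀, ⟨s₀, hs₀, rfl⟩⟩ : T ⧸ N), 1, ?_⟩
        intro h
        rw [QuotientGroup.eq_one_iff] at h
        exact hs₀' h
      have hcn : Nontrivial (center (T ⧸ N)) := hQ.center_nontrivial
      have hcard : 2 ∣ Nat.card (center (T ⧸ N)) := by
        rcases (hQ.to_subgroup (center (T ⧸ N))).card_eq_or_dvd with h | h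
        · exfalso
          have := (Nat.card_eq_one_iff_unique.mp h).1
          exact not_subsingleton _ this
        · exact h
      obtain ⟨c, hc⟩ := exists_prime_orderOf_dvd_card' 2 hcard
      obtain ⟨⟨z, hzT⟩, hz⟩ := QuotientGroup.mk_surjective (c : T ⧸ N)
      have hz1 : z ∉ pm1 K := by
        intro h
        have h1 : ((⟨z, hzT⟩ : T) : T ⧸ N) = 1 := (QuotientGroup.eq_one_iff _).mpr h
        rw [hz] at h1
        have h2 : c = 1 := Subtype.ext h1
        rw [h2, orderOf_one] at hc
        omega
      have hzz : z * z = neg1 := by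
        have h1 : (((⟨z, hzT⟩ : T) * ⟨z, hzT⟩ : T) : T ⧸ N) = 1 := by
          rw [QuotientGroup.mk_mul, hz]
          have h2 : c ^ orderOf c = 1 := pow_orderOf_eq_one c
          rw [hc, pow_two] at h2
          exact congrArg Subtype.val h2
        rw [QuotientGroup.eq_one_iff] at h1
        have h1' : z * z ∈ pm1 K := h1
        rcases h1' with h3 | h3
        · exact absurd (eq_of_sq_one h2 h3) hz1
        · exact h3
      have htz : t2 z = 0 := t2_of_sq hzz
      have htz4 : t2 z ^ 2 ≠ 4 := by
        rw [htz]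
        intro h
        apply h2
        have : (2 : K) * 2 = 0 := by linear_combination -h
        rcases mul_eq_zero.mp this with h | h <;> exact h
      have hdich : ∀ s ∈ (S : Subgroup E), f s * z = z * f s ∨ f s * z = neg1 * (z * f s) := by
        intro s hs
        have h1 := mem_center_iff.mp c.2 (QuotientGroup.mk ⟨f s, ⟨s, hs, rfl⟩⟩ : T ⧸ N)
        rw [← hz, ← QuotientGroup.mk_mul, ← QuotientGroup.mk_mul, QuotientGroup.eq] at h1
        have h3 : (f s * z)⁻¹ * (z * f s) ∈ pm1 K := h1
        have h3' : (f s * z)⁻¹ * (z * f s) = 1 ∨ (f s * z)⁻¹ * (z * f s) = neg1 := h3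
        rcases h3' with h3 | h3
        · left
          exact inv_mul_eq_one.mp h3
        · right
          have h4 : z * f s = f s * z * neg1 := by
            rw [← h3]; group
          rw [h4, ← mul_assoc, neg1_comm, mul_assoc, neg1_sq, mul_one]
      let C : Subgroup E := (S : Subgroup E) ⊓ (centralizer {z}).comap f
      have hCz : ∀ c ∈ C, f c * z = z * f c := by
        intro c hc
        exact mem_centralizer_singleton_iff.mp hc.2
      have hCcomm : ∀ a ∈ C, ∀ b ∈ C, a * b = b * a :=
        comm_of_cyclic f hk (cyclic_centralizer htz4) fun c hc => hc.2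
      by_cases hCS : ∀ s ∈ (S : Subgroup E), f s * z = z * f s
      · refine eq_one_of_comm (fun x hx y hy => hCcomm x ⟨hx, ?_⟩ y ⟨hy, ?_⟩) hcomm
        · exact mem_centralizer_singleton_iff.mpr (hCS x hx)
        · exact mem_centralizer_singleton_iff.mpr (hCS y hy)
      · push Not at hCS
        obtain ⟨y, hyS, hyz⟩ := hCS
        have hyz' := (hdich y hyS).resolve_left hyz
        have hinv := inv_anti hyz'
        obtain ⟨c, hc, hac'⟩ := commutator_index_two (C := C) (y := y) hCcomm (by
          intro c hc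
          refine ⟨S.mul_mem (S.mul_mem hyS hc.1) (S.inv_mem hyS), ?_⟩
          refine mem_centralizer_singleton_iff.mpr ?_
          rw [map_mul, map_mul, map_inv]
          calc f y * f c * (f y)⁻¹ * z = f y * f c * ((f y)⁻¹ * z) := by group
            _ = f y * f c * (neg1 * (z * (f y)⁻¹)) := by rw [hinv]
            _ = f y * (f c * neg1) * (z * (f y)⁻¹) := by group
            _ = f y * (neg1 * f c) * (z * (f y)⁻¹) := by rw [neg1_comm (f c)]
            _ = f y * neg1 * (f c * z) * (f y)⁻¹ := by group
            _ = f y * neg1 * (z * f c) * (f y)⁻¹ := by rw [hCz c hc]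
            _ = (neg1 * f y) * (z * f c) * (f y)⁻¹ := by rw [neg1_comm (f y)]
            _ = neg1 * (f y * z) * f c * (f y)⁻¹ := by group
            _ = neg1 * (neg1 * (z * f y)) * f c * (f y)⁻¹ := by rw [hyz']
            _ = (neg1 * neg1) * (z * (f y * f c * (f y)⁻¹)) := by group
            _ = z * (f y * f c * (f y)⁻¹) := by rw [neg1_sq, one_mul]) (by
          intro s hs
          rcases hdich s hs with h | h
          · exact Or.inl ⟨hs, mem_centralizer_singleton_iff.mpr h⟩
          · right
            refine ⟨s * y⁻¹, ⟨S.mul_mem hs (S.inv_mem hyS),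
              mem_centralizer_singleton_iff.mpr ?_⟩, by group⟩
            rw [map_mul, map_inv]
            calc f s * (f y)⁻¹ * z = f s * ((f y)⁻¹ * z) := by group
              _ = f s * (neg1 * (z * (f y)⁻¹)) := by rw [hinv]
              _ = (f s * neg1) * (z * (f y)⁻¹) := by group
              _ = (neg1 * f s) * (z * (f y)⁻¹) := by rw [neg1_comm (f s)]
              _ = neg1 * (f s * z) * (f y)⁻¹ := by group
              _ = neg1 * (neg1 * (z * f s)) * (f y)⁻¹ := by rw [h]
              _ = (neg1 * neg1) * (z * (f s * (f y)⁻¹)) := by group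
              _ = z * (f s * (f y)⁻¹) := by rw [neg1_sq, one_mul]) hcomm
        have h3 : f c * f y = f y * f c := by
          have h4 : f y * f c * (f y)⁻¹ * (f c)⁻¹ = 1 := by
            rw [← map_mul, ← map_inv, ← map_mul, ← map_inv, ← map_mul, ← hac', ha]
          have h5 : f y * f c * (f y)⁻¹ = f c := mul_inv_eq_one.mp h4
          exact (mul_inv_eq_iff_eq_mul.mp h5).symm
        rcases eq_of_comm_both h2 htz4 hyz' (hCz c hc) h3 with h4 | h4
        · have h5 := mem_center_iff.mp (hk (MonoidHom.mem_ker.mpr h4)) y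
          rw [hac', h5]
          group
        · have h5 : f y * f y = neg1 := sq_of_t2 (t2_conj_neg htz hyz' h2)
          have h6 : c⁻¹ * (y * y) ∈ f.ker := by
            rw [MonoidHom.mem_ker, map_mul, map_inv, map_mul, h5, h4, inv_mul_cancel]
          have h7 := mem_center_iff.mp (hk h6) y
          have h8 : y * c⁻¹ = c⁻¹ * y := by
            have h9 : y * c⁻¹ * (y * y) = c⁻¹ * y * (y * y) := by
              calc y * c⁻¹ * (y * y) = y * (c⁻¹ * (y * y)) := by group
                _ = c⁻¹ * (y * y) * y := h7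
                _ = c⁻¹ * y * (y * y) := by group
            exact mul_right_cancel h9
          have h9 : y * c = c * y := by
            calc y * c = c * (c⁻¹ * y) * c := by group
              _ = c * (y * c⁻¹) * c := by rw [h8]
              _ = c * y := by group
          rw [hac', h9]
          group
  · by_cases hnt : Nontrivial ((S : Subgroup E).map f)
    · have hcn : Nontrivial (center ((S : Subgroup E).map f)) := hSbar.center_nontrivial
      obtain ⟨z, hz⟩ := exists_ne (1 : center ((S : Subgroup E).map f))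
      let z' : SpecialLinearGroup (Fin 2) K := ((z : (S : Subgroup E).map f) :
        SpecialLinearGroup (Fin 2) K)
      have hz' : z' ≠ 1 := fun h => hz (Subtype.ext (Subtype.ext h))
      have hzl : Pel l z' := by
        obtain ⟨n, hn⟩ := hSbar (z : (S : Subgroup E).map f)
        exact ⟨n, congrArg Subtype.val hn⟩
      have hzz : z' * z' ≠ 1 := by
        intro h
        apply hz'
        obtain ⟨n, hn⟩ := hzl
        have h4 := Nat.dvd_gcd (orderOf_dvd_of_pow_eq_one (show z' ^ 2 = 1 by rw [pow_two, h]))
          (orderOf_dvd_of_pow_eq_one hn)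
        have h5 : Nat.Coprime 2 (l ^ n) := by
          apply Nat.Coprime.pow_right
          rw [Nat.coprime_primes Nat.prime_two Fact.out]
          exact fun h => hl2 h.symm
        rw [h5] at h4
        exact orderOf_eq_one_iff.mp (Nat.dvd_one.mp h4)
      refine eq_one_of_comm (comm_of_cyclic f hk
        (cyclic_centralizer (regular_of_pel hlp hzl hzz)) ?_) hcomm
      intro s hs
      rw [mem_centralizer_singleton_iff]
      exact congrArg Subtype.val (mem_center_iff.mp z.2 ⟨f s, ⟨s, hs, rfl⟩⟩)
    · refine eq_one_of_comm (fun x hx y _ => ?_) hcomm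
      have h1 : Subsingleton ((S : Subgroup E).map f) := not_nontrivial_iff_subsingleton.mp hnt
      have h2 : (⟨f x, ⟨x, hx, rfl⟩⟩ : (S : Subgroup E).map f) = 1 := Subsingleton.elim _ _
      have h3 : f x = 1 := congrArg Subtype.val h2
      exact (mem_center_iff.mp (hk (MonoidHom.mem_ker.mpr h3)) y).symm

end Two

section Claims

variable {K : Type*} [Field K] [Finite K] {p : ℕ} [Fact p.Prime] [CharP K p]

theorem eq_one_of_pel_pel {G : Type*} [Group G] {l : ℕ} [Fact l.Prime] (hlp : l ≠ p) {x : G}
    (h1 : Pel p x) (h2 : Pel l x) : x = 1 := by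
  obtain ⟨n, hn⟩ := h1
  obtain ⟨m, hm⟩ := h2
  have h4 := Nat.dvd_gcd (orderOf_dvd_of_pow_eq_one hn) (orderOf_dvd_of_pow_eq_one hm)
  have h5 : Nat.Coprime (p ^ n) (l ^ m) := by
    apply Nat.Coprime.pow
    rw [Nat.coprime_primes Fact.out Fact.out]
    exact fun h => hlp h.symm
  rw [h5] at h4
  exact orderOf_eq_one_iff.mp (Nat.dvd_one.mp h4)

theorem mem_comm_of_gen {E : Type*} [Group E] {l : ℕ} [Fact l.Prime]
    (hgen : closure {x : E | Pel p x} = ⊤) (hlp : l ≠ p) {a : E} (hal : Pel l a) :
    a ∈ commutator E := by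
  have h1 : ∀ x : E, Pel p (Abelianization.of x) := by
    intro x
    have hx : x ∈ closure {x : E | Pel p x} := by rw [hgen]; exact mem_top x
    induction hx using closure_induction with
    | mem x hx => exact hx.map _
    | one => rw [map_one]; exact pel_one
    | mul x y _ _ hx hy =>
      obtain ⟨n, hn⟩ := hx
      obtain ⟨m, hm⟩ := hy
      refine ⟨n + m, ?_⟩
      rw [map_mul, mul_pow, pow_add, pow_mul, hn, one_pow, one_mul, mul_comm, pow_mul, hm, one_pow]
    | inv x _ hx => rw [map_inv]; exact hx.inv
  have h2 := eq_one_of_pel_pel hlp (h1 a) (hal.map _)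
  rw [← Abelianization.ker_of]
  exact h2

/-- reduction to elements of prime power order -/
theorem copClaim_of {n : ℕ} (h : ∀ (E : Type) [Group E] [Finite E] (f : E →* GS n K),
    Function.Surjective f → f.ker ≤ center E → ¬ p ∣ Nat.card f.ker →
    closure {x : E | Pel p x} = ⊤ → ∀ (l : ℕ) [Fact l.Prime], l ≠ p → ∀ a : E, f a = 1 →
      Pel l a → a ∈ commutator E → a = 1) : CopClaim n K p := by
  intro E _ _ f hf hk hp hgen
  by_contra hne
  have hc : Nat.card f.ker ≠ 1 := by
    intro h
    exact hne (Subgroup.card_eq_one.mp h)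
  obtain ⟨l, hl, hdvd⟩ := Nat.exists_prime_and_dvd hc
  have : Fact l.Prime := ⟨hl⟩
  have hlp : l ≠ p := by
    rintro rfl
    exact hp hdvd
  obtain ⟨x, hx⟩ := exists_prime_orderOf_dvd_card' l hdvd
  have hpel : Pel l (x : E) := by
    refine ⟨1, ?_⟩
    have h2 : x ^ l = 1 := by rw [← hx]; exact pow_orderOf_eq_one x
    rw [pow_one]
    exact congrArg Subtype.val h2
  have h1 : (x : E) = 1 := h E f hf hk hp hgen l hlp x x.2 hpel (mem_comm_of_gen hgen hlp hpel)
  have h2 : x = 1 := Subtype.ext h1
  rw [h2, orderOf_one] at hx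
  exact hl.one_lt.ne hx

/-- `n = 2`, every finite field -/
theorem copClaim2 : CopClaim 2 K p :=
  copClaim_of fun E _ _ f hf hk hp hgen l _ hlp a ha hal haE =>
    coprime_two' (p := p) f hk hlp ha hal haE

/-- the Sylow subgroups of prime order -/
theorem eq_one_of_sq {n : ℕ} {E : Type} [Group E] [Finite E] {f : E →* GS n K}
    (hk : f.ker ≤ center E) {l : ℕ} [Fact l.Prime]
    (hl : ¬ l ^ 2 ∣ Nat.card (GS n K)) {a : E} (ha : f a = 1) (hal : Pel l a)
    (haE : a ∈ commutator E) : a = 1 := by
  obtain ⟨S, hS⟩ := (isPGroup_zpowers_of_pel hal).exists_le_sylow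
  have haS : a ∈ (S : Subgroup E) := hS (mem_zpowers a)
  have hcomm : a ∈ ⁅(S : Subgroup E), (S : Subgroup E)⁆ :=
    mem_commutator' S.not_dvd_index haE (hk ha) haS hal
  have hSbar : IsPGroup l ((S : Subgroup E).map f) := S.2.map f
  obtain ⟨m, hm⟩ := hSbar.exists_card_eq
  have hm1 : m < 2 := by
    by_contra h
    apply hl
    refine (pow_dvd_pow l (by omega : 2 ≤ m)).trans ?_
    rw [← hm]
    exact Subgroup.card_subgroup_dvd_card _
  have hcyc : IsCyclic ((S : Subgroup E).map f) := by
    interval_cases m
    · rw [pow_zero] at hm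
      have : Subsingleton ((S : Subgroup E).map f) := (Nat.card_eq_one_iff_unique.mp hm).1
      exact isCyclic_of_subsingleton
    · rw [pow_one] at hm
      exact isCyclic_of_prime_card hm
  exact eq_one_of_comm (comm_of_cyclic f hk hcyc fun c hc => ⟨c, hc, rfl⟩) hcomm

theorem card_SL_dvd (n : ℕ) : Nat.card (GS n K) ∣ Nat.card (GL (Fin n) K) :=
  Subgroup.card_dvd_of_injective (Matrix.SpecialLinearGroup.toGL (n := Fin n) (R := K))
    Matrix.SpecialLinearGroup.toGL_injective

theorem card_GL3 : Nat.card (GL (Fin 3) K) =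
    (Nat.card K ^ 3 - 1) * (Nat.card K ^ 3 - Nat.card K) * (Nat.card K ^ 3 - Nat.card K ^ 2) := by
  have := Fintype.ofFinite K
  rw [Matrix.card_GL_field, Fin.prod_univ_three]
  simp

end Claims

end Vale.Agent.P180.H19.Mul
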