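import Vale.Agent.P180.R2.H589.Sch.Cop

/-!
P180, lemma M (helper19): the covering argument of `Sch/Sheets` with the sharp count of generic
vectors (from dimension four on for every field, from dimension three on for `|K| ≥ 4`).
-/

set_option linter.all false

namespace Vale.Agent.P180.H19.Mul

open Subgroup Module Vale.Agent.P180.R2.H589.Sch

section

variable {K V E : Type*} [Field K] [AddCommGroup V] [Module K V] [Group E]

variable {f : E →* (V ≃ₗ[K] V)} {p : ℕ}

variable [Finite E] [Fact p.Prime] [CharP K p] (hk : f.ker ≤ center E)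
  (hp : ¬ p ∣ Nat.card f.ker)

include hk hp

variable (hT : ∀ (e : V ≃ₗ[K] V) (φ : Dual K V) (a : V), IsTv e φ a → ∃ y, f y = e)

include hT

variable (h3 : ∀ a b : Fin 4 → V, ∃ x, ∀ i, x ∉ Submodule.span K {a i, b i})

include h3

theorem co_change' {v w y y' : V} (hv : v ≠ 0) (hw : w ≠ 0)
    (hy : y ∉ Submodule.span K ({v, w} : Set V)) (hy' : y' ∉ Submodule.span K ({v, w} : Set V))
    {s s' : E} (hs : s ∈ Co f p w y) (hs' : s' ∈ Co f p y v) :
    ∃ r ∈ Co f p w y', ∃ r' ∈ Co f p y' v, s * s' = r * r' := by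
  obtain ⟨x, hx⟩ := h3 ![v, y, v, y'] ![y, w, y', w]
  have hx0 : x ∉ Submodule.span K ({v, y} : Set V) := by simpa using hx 0
  have hx1 : x ∉ Submodule.span K ({y, w} : Set V) := by simpa using hx 1
  have hx2 : x ∉ Submodule.span K ({v, y'} : Set V) := by simpa using hx 2
  have hx3 : x ∉ Submodule.span K ({y', w} : Set V) := by simpa using hx 3
  -- independent pairs
  have ivy : LinearIndependent K ![v, y] := linInd_pair hv (notMem_left hy)
  have ivy' : LinearIndependent K ![v, y'] := linInd_pair hv (notMem_left hy')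
  have iwy : LinearIndependent K ![w, y] := linInd_pair hw (notMem_right hy)
  have iwy' : LinearIndependent K ![w, y'] := linInd_pair hw (notMem_right hy')
  have ivx : LinearIndependent K ![v, x] := linInd_pair hv (notMem_left hx0)
  -- triples
  have t1 : LinearIndependent K ![x, v, y] := linInd_triple ivy hx0
  have t2 : LinearIndependent K ![x, y, w] := linInd_triple (linInd_swap iwy) hx1
  have t3 : LinearIndependent K ![x, v, y'] := linInd_triple ivy' hx2
  have t4 : LinearIndependent K ![x, y', w] := linInd_triple (linInd_swap iwy') hx3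
  obtain ⟨t, ht⟩ := co_nonempty hk hp hT ivx
  obtain ⟨r', hr'⟩ := co_nonempty hk hp hT ivy'
  -- `t ∈ C x v`, `r' ∈ C y' v`
  have c1 : s' * t⁻¹ ∈ Co f p y x :=
    co_tri hk hp hT (linInd_rot (linInd_rot t1)) hs' (co_inv ht)
  have c2 : s * (s' * t⁻¹) ∈ Co f p w x :=
    co_tri hk hp hT (linInd_rot (linInd_rot t2)) hs c1
  have c3 : t * r'⁻¹ ∈ Co f p x y' :=
    co_tri hk hp hT (linInd_swap3 (linInd_rot (linInd_rot t3))) ht (co_inv hr')
  have c4 : s * (s' * t⁻¹) * (t * r'⁻¹) ∈ Co f p w y' :=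
    co_tri hk hp hT (linInd_swap3 (linInd_rot t4)) c2 c3
  exact ⟨_, c4, r', hr', by group⟩

theorem ro_mul4 {v w z : V} (hv : v ≠ 0) (hw : w ≠ 0) (hz : z ≠ 0) {t t' : E}
    (ht : t ∈ Ro f p z w) (ht' : t' ∈ Ro f p w v) : t * t' ∈ Ro f p z v := by
  obtain ⟨y, hy⟩ := h3 ![w, v, v, v] ![z, w, z, z]
  have hy0 : y ∉ Submodule.span K ({w, z} : Set V) := by simpa using hy 0
  have hy1 : y ∉ Submodule.span K ({v, w} : Set V) := by simpa using hy 1
  have hy2 : y ∉ Submodule.span K ({v, z} : Set V) := by simpa using hy 2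
  obtain ⟨y₁, hy₁, s, hs, s', hs', rfl⟩ := ht
  obtain ⟨y₂, hy₂, r, hr, r', hr', rfl⟩ := ht'
  obtain ⟨a, ha, a', ha', e1⟩ := co_change' hk hp hT h3 hw hz hy₁ hy0 hs hs'
  obtain ⟨b, hb, b', hb', e2⟩ := co_change' hk hp hT h3 hv hw hy₂ hy1 hr hr'
  rw [e1, e2]
  refine ⟨y, hy2, a * (a' * b),
    co_mul_right ha (co_mul_inv hk hp ha' hb), b', hb', by group⟩

theorem ro_nonempty4 {v w : V} (hv : v ≠ 0) (hw : w ≠ 0) : ∃ t, t ∈ Ro f p w v := by
  obtain ⟨y, hy⟩ := h3 ![v, v, v, v] ![w, w, w, w]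
  have hy0 : y ∉ Submodule.span K ({v, w} : Set V) := by simpa using hy 0
  obtain ⟨s, hs⟩ := co_nonempty hk hp hT (linInd_swap (linInd_pair hw (notMem_right hy0)))
  obtain ⟨s', hs'⟩ := co_nonempty hk hp hT (linInd_pair hv (notMem_left hy0))
  exact ⟨s * s', y, hy0, s, hs, s', hs', rfl⟩

omit hT h3 in
theorem ro_self4 {v : V} {t : E} (h : t ∈ Ro f p v v) : t ∈ Pv f p v := by
  obtain ⟨y, _, s, hs, s', hs', rfl⟩ := h
  exact co_mul_inv hk hp hs hs'

theorem ro_one4 {v : V} (hv : v ≠ 0) : (1 : E) ∈ Ro f p v v := by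
  obtain ⟨t, ht⟩ := ro_nonempty4 hk hp hT h3 hv hv
  have := ro_mul4 hk hp hT h3 hv hv hv ht (ro_inv ht)
  rwa [mul_inv_cancel] at this

theorem exists_flat4 {o : V} (ho : o ≠ 0) :
    ∃ F : Subgroup E, ∀ t, t ∈ F ↔ t ∈ Ro f p (f t o) o := by
  have hne : ∀ e : E, f e o ≠ 0 := fun e h => ho ((f e).map_eq_zero_iff.mp h)
  have h1 : (1 : E) ∈ Ro f p (f 1 o) o := by
    rw [map_one]
    exact ro_one4 hk hp hT h3 ho
  have h2 : ∀ t t' : E, t ∈ Ro f p (f t o) o → t' ∈ Ro f p (f t' o) o →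
      t * t' ∈ Ro f p (f (t * t') o) o := by
    intro t t' ht ht'
    have h1 := ro_conj ht' t
    rw [← LinearEquiv.mul_apply, ← map_mul] at h1
    have h2 := ro_mul4 hk hp hT h3 ho (hne t) (hne (t * t')) h1 ht
    rwa [inv_mul_cancel_right] at h2
  have h3 : ∀ t : E, t ∈ Ro f p (f t o) o → t⁻¹ ∈ Ro f p (f t⁻¹ o) o := by
    intro t ht
    have h1 := ro_conj (ro_inv ht) t⁻¹
    have h5 : f t⁻¹ (f t o) = o := map_inv_eq (f := f) (e := t) (v := o) (w := f t o) rfl
    rw [h5] at h1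
    have h2 : t⁻¹ * t⁻¹ * t⁻¹⁻¹ = t⁻¹ := by rw [inv_inv, inv_mul_cancel_right]
    rwa [h2] at h1
  exact exists_subgroup_of (fun t => t ∈ Ro f p (f t o) o) h1 h2 h3

/-- **The sheets.** -/
theorem sheets4 (hgen : closure {x : E | Pel p x} = ⊤) {o : V} (ho : o ≠ 0)
    (hst : ∀ x : E, f x o = o → ∃ q ∈ Pv f p o, ∃ a ∈ f.ker, x = q * a)
    (hst2 : ∀ x ∈ Pv f p o, f x = 1 → x = 1) : f.ker = ⊥ := by
  have hne : ∀ e : E, f e o ≠ 0 := fun e h => ho ((f e).map_eq_zero_iff.mp h)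
  obtain ⟨F, hF⟩ := exists_flat4 hk hp hT h3 ho
  have hFk : ∀ t ∈ F, f t = 1 → t = 1 := by
    intro t ht h1
    rw [hF, h1] at ht
    exact hst2 t (ro_self4 hk hp ht) h1
  have hFE : ∀ e : E, ∃ t ∈ F, ∃ a ∈ f.ker, e = t * a := by
    intro e
    obtain ⟨t, ht⟩ := ro_nonempty4 hk hp hT h3 ho (hne e)
    have h1 : f (t⁻¹ * e) o = o := by
      rw [map_mul, LinearEquiv.mul_apply]
      exact map_inv_eq (ro_apply ht)
    obtain ⟨q, hq, a, ha, h2⟩ := hst _ h1
    have h3 := ro_mul_right ht hq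
    refine ⟨t * q, ?_, a, ha, ?_⟩
    · rw [hF, ro_apply h3]
      exact h3
    · rw [mul_assoc, ← h2, mul_inv_cancel_left]
  have hFtop : F = ⊤ := by
    rw [eq_top_iff, ← hgen, closure_le]
    rintro x ⟨n, hn⟩
    obtain ⟨t, ht, a, ha, rfl⟩ := hFE x
    have hc : Commute t a := mem_center_iff.mp (hk ha) t
    rw [hc.mul_pow] at hn
    have h1 : t ^ p ^ n ∈ F := F.pow_mem ht _
    have h2 : t ^ p ^ n = (a ^ p ^ n)⁻¹ := eq_inv_of_mul_eq_one_left hn
    have h4 : t ^ p ^ n = 1 := by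
      refine hFk _ h1 ?_
      rw [h2, map_inv, map_pow, MonoidHom.mem_ker.mp ha, one_pow, inv_one]
    have h5 : a = 1 := by
      refine eq_one_of_pel_of_mem hp ha ⟨n, ?_⟩
      rw [h4, one_mul] at hn
      exact hn
    rw [h5, mul_one]
    exact ht
  rw [eq_bot_iff]
  intro x hx
  rw [mem_bot]
  exact hFk x (by rw [hFtop]; exact mem_top x) hx

end

/-- sharp count -/
theorem exists_generic4 {K V : Type*} [Field K] [AddCommGroup V] [Module K V] [Finite K]
    [Module.Finite K V] (h : 4 * (Nat.card K ^ 2 - 1) + 1 < Nat.card K ^ finrank K V)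
    (a b : Fin 4 → V) : ∃ x, ∀ i, x ∉ Submodule.span K {a i, b i} := by
  classical
  by_contra hcon
  push Not at hcon
  have hsurj : Function.Surjective (fun t : Option (Fin 4 × {t : K × K // t ≠ 0}) =>
      (t.elim 0 fun t => t.2.1.1 • a t.1 + t.2.1.2 • b t.1 : V)) := by
    intro x
    obtain ⟨i, hi⟩ := hcon x
    obtain ⟨α, β, h⟩ := Submodule.mem_span_pair.mp hi
    by_cases h0 : ((α, β) : K × K) = 0
    · refine ⟨none, ?_⟩
      have h1 : α = 0 := congrArg Prod.fst h0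
      have h2 : β = 0 := congrArg Prod.snd h0
      rw [← h, h1, h2, zero_smul, zero_smul, add_zero]
      rfl
    · exact ⟨some (i, ⟨(α, β), h0⟩), h⟩
  have hfin : Finite V := Module.finite_of_finite K
  have h1 := Nat.card_le_card_of_surjective _ hsurj
  have h2 : Nat.card {t : K × K // t ≠ 0} = Nat.card K ^ 2 - 1 := by
    have := Fintype.ofFinite K
    have e1 : Fintype.card {t : K × K // t ≠ 0} = Fintype.card (K × K) - 1 := by
      rw [Fintype.card_subtype_compl (fun t : K × K => t = 0), Fintype.card_subtype_eq]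
    rw [Nat.card_eq_fintype_card, e1, Fintype.card_prod, Nat.card_eq_fintype_card, pow_two]
  rw [Finite.card_option, Nat.card_prod, Nat.card_fin, h2,
    Module.natCard_eq_pow_finrank (K := K) (V := V)] at h1
  omega

end Vale.Agent.P180.H19.Mul
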