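import Vale.Agent.P180.H19.MulC
import Vale.Agent.P180.H19.MulD
import Vale.Agent.P180.H19.MulE
import Mathlib.LinearAlgebra.Projectivization.Action
import Mathlib.LinearAlgebra.Projectivization.Cardinality

/-!
P180, lemma M (helper19): a finite perfect group `L` with `L/Z(L) ≅ PSL(n, K)`, `n ≥ 5`, `K` any
finite field, is a quotient of `SL(n, K)`.
-/

set_option linter.all false

namespace Vale.Agent.P180.H19.Mul

open Subgroup Vale.Agent.P180.R2.H589.Sch
open scoped LinearAlgebra.Projectivization Pointwise commutatorElement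

section

variable {K : Type*} [Field K] [Finite K] {p : ℕ} [Fact p.Prime] [CharP K p]

section Line

variable {n : ℕ} {E : Type} [Group E] [Finite E] {f : E →* GS (n + 1) K}

omit [Finite K] [Fact p.Prime] [CharP K p] [Finite E] in
/-- the stabiliser of the line of the first basis vector -/
theorem exists_lineStab : ∃ H : Subgroup E, ∀ x, x ∈ H ↔ ∃ c : Kˣ,
    act f x (o1 n K) = (c : K) • o1 n K := by
  refine exists_subgroup_of (fun x => ∃ c : Kˣ, act f x (o1 n K) = (c : K) • o1 n K) ?_ ?_ ?_
  · exact ⟨1, by rw [map_one, Units.val_one, one_smul]; rfl⟩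
  · rintro x y ⟨c, hc⟩ ⟨d, hd⟩
    refine ⟨d * c, ?_⟩
    rw [map_mul, LinearEquiv.mul_apply, hd, map_smul, hc, smul_smul, Units.val_mul]
  · rintro x ⟨c, hc⟩
    refine ⟨c⁻¹, ?_⟩
    refine map_inv_eq (f := act f) ?_
    rw [map_smul, hc, smul_smul, Units.inv_mul, one_smul]

omit [Finite K] [Fact p.Prime] [CharP K p] [Finite E] in
theorem pv_smul {v : Fin (n + 1) → K} (c : Kˣ) : Pv (act f) p ((c : K) • v) = Pv (act f) p v := by
  unfold Pv
  congr 1
  ext x
  refine and_congr_right fun _ => ?_
  rw [map_smul]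
  constructor
  · intro h
    exact smul_right_injective _ c.ne_zero h
  · intro h
    rw [h]

theorem line_case (hn : 1 ≤ n) (ih : CopClaim n K p) (hf : Function.Surjective f)
    (hk : f.ker ≤ center E) (hp : ¬ p ∣ Nat.card f.ker) {l : ℕ} [Fact l.Prime]
    (hl : ¬ l ∣ Nat.card (ℙ K (Fin (n + 1) → K))) {a : E} (ha : f a = 1) (hal : Pel l a)
    (haE : a ∈ commutator E) : a = 1 := by
  obtain ⟨S, hS⟩ := (isPGroup_zpowers_of_pel hal).exists_le_sylow
  have haS : a ∈ (S : Subgroup E) := hS (mem_zpowers a)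
  have hac := mem_center_iff.mp (hk (MonoidHom.mem_ker.mpr ha))
  let V := Fin (n + 1) → K
  letI act0 : MulAction S (ℙ K V) :=
    MulAction.compHom (ℙ K V) ((act f).comp (S : Subgroup E).subtype)
  obtain ⟨P0, hP0⟩ := S.isPGroup'.nonempty_fixed_point_of_prime_not_dvd_card (ℙ K V) hl
  obtain ⟨v, hv, rfl⟩ : ∃ (v : V) (hv : v ≠ 0), P0 = Projectivization.mk K v hv :=
    ⟨P0.rep, P0.rep_nonzero, P0.mk_rep.symm⟩
  have hline : ∀ s ∈ (S : Subgroup E), ∃ c : Kˣ, act f s v = (c : K) • v := by
    intro s hs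
    have h1 := hP0 ⟨s, hs⟩
    have h2 : (Projectivization.mk K (act f s v) ((act f s).map_ne_zero_iff.mpr hv)) =
        Projectivization.mk K v hv := h1
    rw [Projectivization.mk_eq_mk_iff] at h2
    obtain ⟨c, hc⟩ := h2
    exact ⟨c, hc.symm⟩
  obtain ⟨g, hg⟩ := exists_move (K := K) hn hv (o1_ne (n := n))
  obtain ⟨y, rfl⟩ := hf g
  obtain ⟨H, hH⟩ := exists_lineStab (f := f)
  have hSH : ((y • S : Sylow l E) : Subgroup E) ≤ H := by
    intro x hx
    rw [Sylow.coe_subgroup_smul, mem_pointwise_smul_iff_inv_smul_mem, ← map_inv,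
      MulAut.smul_def, MulAut.conj_apply, inv_inv] at hx
    obtain ⟨c, hc⟩ := hline _ hx
    rw [hH]
    refine ⟨c, ?_⟩
    have h1 : act f y v = o1 n K := hg
    have h2 : act f x (act f y v) = act f y (act f (y⁻¹ * x * y) v) := by
      rw [← LinearEquiv.mul_apply, ← LinearEquiv.mul_apply, ← map_mul, ← map_mul]
      congr 2
      group
    rw [← h1, h2, hc, map_smul]
  have haS' : a ∈ ((y • S : Sylow l E) : Subgroup E) := by
    rw [Sylow.coe_subgroup_smul, mem_pointwise_smul_iff_inv_smul_mem, ← map_inv,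
      MulAut.smul_def, MulAut.conj_apply, inv_inv]
    have h1 : y⁻¹ * a * y = a := by rw [hac y⁻¹, mul_assoc, inv_mul_cancel, mul_one]
    rw [h1]
    exact haS
  have hcomm := mem_commutator' (y • S : Sylow l E).not_dvd_index haE
    (hk (MonoidHom.mem_ker.mpr ha)) haS' hal
  -- the quotient of `H` by `Pv`
  set P : Subgroup E := Pv (act f) p (o1 n K) with hP
  have hPn : ∀ x ∈ H, ∀ q ∈ P, x * q * x⁻¹ ∈ P := by
    intro x hx q hq
    obtain ⟨c, hc⟩ := (hH x).mp hx
    have h1 := pv_conj hq x
    rw [hc, pv_smul] at h1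
    exact h1
  have hfx : ∀ x : E, x ∈ P → act f x (o1 n K) = o1 n K := fun x hx => pv_fix hx
  have hPH : P ≤ H := fun x hx => (hH x).mpr ⟨1, by rw [hfx x hx, Units.val_one, one_smul]⟩
  let φ0 : H →* K :=
    { toFun := fun x => act f x (o1 n K) 0
      map_one' := by
        change act f (1 : E) (o1 n K) 0 = 1
        rw [map_one]
        change o1 n K 0 = 1
        exact o1_zero
      map_mul' := by
        rintro ⟨x, hx⟩ ⟨z, hz⟩
        obtain ⟨c, hc⟩ := (hH x).mp hx
        obtain ⟨d, hd⟩ := (hH z).mp hz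
        change act f (x * z) (o1 n K) 0 = act f x (o1 n K) 0 * act f z (o1 n K) 0
        rw [map_mul, LinearEquiv.mul_apply, hd, map_smul, hc, Pi.smul_apply, Pi.smul_apply,
          Pi.smul_apply, o1_zero, smul_eq_mul, smul_eq_mul, smul_eq_mul, mul_one, mul_one,
          mul_comm] }
  let φ : H →* Kˣ := φ0.toHomUnits
  have hφ : ∀ x : H, φ x = 1 → act f (x : E) (o1 n K) = o1 n K := by
    intro x hx
    obtain ⟨c, hc⟩ := (hH x).mp x.2
    have h1 : act f (x : E) (o1 n K) 0 = 1 := congrArg Units.val hx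
    rw [hc, Pi.smul_apply, o1_zero, smul_eq_mul, mul_one] at h1
    rw [hc, h1, one_smul]
  let P' : Subgroup H := P.subgroupOf H
  haveI hP'n : P'.Normal := ⟨fun q hq x => hPn x x.2 q hq⟩
  have hP'φ : ∀ x ∈ P', φ x = 1 := by
    intro x hx
    apply Units.ext
    change act f (x : E) (o1 n K) 0 = 1
    rw [hfx x hx]
    exact o1_zero
  let ψ : H ⧸ P' →* Kˣ := QuotientGroup.lift P' φ hP'φ
  have hψ : ψ.ker ≤ center (H ⧸ P') := by
    intro u hu
    obtain ⟨x, rfl⟩ := QuotientGroup.mk_surjective u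
    have h1 : φ x = 1 := hu
    have h2 : f (x : E) ∈ St n K := hφ x h1
    obtain ⟨q, hq, z, hz, hxz⟩ := act_stab (p := p) hf hk hp hn h2
    rw [mem_center_iff]
    intro w
    obtain ⟨w, rfl⟩ := QuotientGroup.mk_surjective w
    have hzH : z ∈ H := by
      have : z = q⁻¹ * x := by rw [hxz, inv_mul_cancel_left]
      rw [this]
      exact H.mul_mem (H.inv_mem (hPH hq)) x.2
    have h3 : (QuotientGroup.mk x : H ⧸ P') = QuotientGroup.mk ⟨z, hzH⟩ := by
      rw [QuotientGroup.eq]
      change (x : E)⁻¹ * z ∈ P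
      have h4 : (x : E)⁻¹ * z = z⁻¹ * q⁻¹ * z := by rw [hxz]; group
      have h5 := mem_center_iff.mp (hk hz) q⁻¹
      rw [h4, mul_assoc, h5, inv_mul_cancel_left]
      exact P.inv_mem hq
    rw [h3, ← QuotientGroup.mk_mul, ← QuotientGroup.mk_mul]
    congr 1
    exact Subtype.ext (mem_center_iff.mp (hk hz) w)
  have hab := commutative_of_cyclic_center_quotient ψ hψ
  have hHP : ∀ x ∈ H, ∀ z ∈ H, ⁅x, z⁆ ∈ P := by
    intro x hx z hz
    have h1 := hab (QuotientGroup.mk ⟨x, hx⟩) (QuotientGroup.mk ⟨z, hz⟩)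
    rw [← QuotientGroup.mk_mul, ← QuotientGroup.mk_mul, eq_comm, QuotientGroup.eq] at h1
    have h2 : (z * x)⁻¹ * (x * z) ∈ P := h1
    have h3 := hPn _ (H.mul_mem hz hx) _ h2
    have h4 : z * x * ((z * x)⁻¹ * (x * z)) * (z * x)⁻¹ = ⁅x, z⁆ := by
      rw [commutatorElement_def]; group
    rwa [h4] at h3
  have haP : a ∈ P := by
    have h1 : ⁅((y • S : Sylow l E) : Subgroup E), ((y • S : Sylow l E) : Subgroup E)⁆ ≤ P := by
      rw [commutator_le]
      intro x hx z hz
      exact hHP x (hSH hx) z (hSH hz)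
    exact h1 hcomm
  exact act_bot hf hk hp hn ih haP ha

end Line

theorem copClaim_succ4 {n : ℕ} (hn : 2 ≤ n)
    (hg : 4 * (Nat.card K ^ 2 - 1) + 1 < Nat.card K ^ (n + 1)) (ih : CopClaim n K p) :
    CopClaim (n + 1) K p := by
  intro E _ _ f hf hk hp hgen
  have hka : (act f).ker ≤ center E := by rw [ker_act]; exact hk
  have hpa : ¬ p ∣ Nat.card (act f).ker := by rw [ker_act]; exact hp
  have h := sheets4 (f := act f) (p := p) hka hpa (fun e φ a he => by
    obtain ⟨g, hg⟩ := nat_tv he
    obtain ⟨y, rfl⟩ := hf g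
    exact ⟨y, hg⟩) (exists_generic4 (by rw [Module.finrank_fin_fun]; exact hg)) hgen
    (o1_ne (n := n)) (by
    intro x hx
    obtain ⟨q, hq, a, ha, h⟩ := act_stab (p := p) hf hk hp (by omega) (x := x) hx
    exact ⟨q, hq, a, by rw [ker_act]; exact ha, h⟩) (by
    intro x hx hfx
    exact act_bot hf hk hp (by omega) ih hx (MonoidHom.mem_ker.mp (by
      rw [← ker_act]; exact hfx)))
  rwa [ker_act] at h

theorem one_lt_cardK : 1 < Nat.card K := Finite.one_lt_card

/-- `n = 3` -/
theorem copClaim3 : CopClaim 3 K p := by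
  rcases Nat.lt_or_ge 4 (Nat.card K) with h4 | h4
  · exact copClaim_succ (le_refl 2) h4 copClaim2
  have h1 := one_lt_cardK (K := K)
  rcases Nat.lt_or_ge 3 (Nat.card K) with h3 | h3
  · refine copClaim_succ4 (le_refl 2) ?_ copClaim2
    have : Nat.card K = 4 := by omega
    rw [this]
    norm_num
  refine copClaim_of fun E _ _ f hf hk hp hgen l _ hlp a ha hal haE => ?_
  have hlprime : l.Prime := Fact.out
  have hpcard : p ∣ Nat.card K := by
    haveI := Fintype.ofFinite K
    rw [Nat.card_eq_fintype_card, ← CharP.cast_eq_zero_iff K p]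
    exact Nat.cast_card_eq_zero K
  rcases Nat.lt_or_ge 2 (Nat.card K) with h2 | h2
  · -- three elements
    have hK : Nat.card K = 3 := by omega
    have hp3 : p = 3 := by
      rw [hK] at hpcard
      exact (Nat.prime_dvd_prime_iff_eq Fact.out Nat.prime_three).mp hpcard
    by_cases hl2 : l = 2
    · refine line_case (n := 2) (by norm_num) copClaim2 hf hk hp ?_ ha hal haE
      rw [Projectivization.card_of_finrank K (Fin (2 + 1) → K) (n := 3)
        (by rw [Module.finrank_fin_fun]), hK, hl2]
      simp [Finset.sum_range_succ]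
    · refine eq_one_of_sq hk ?_ ha hal haE
      intro hd
      have h5 := hd.trans (card_SL_dvd (K := K) 3)
      rw [card_GL3, hK] at h5
      norm_num at h5
      have h6 : Nat.Coprime (l ^ 2) (2 ^ 5 * 3 ^ 3) := by
        apply Nat.Coprime.pow_left
        apply Nat.Coprime.mul_right
        · apply Nat.Coprime.pow_right
          rw [Nat.coprime_primes hlprime Nat.prime_two]
          exact hl2
        · apply Nat.Coprime.pow_right
          rw [Nat.coprime_primes hlprime Nat.prime_three]
          exact fun h => hlp (h.trans hp3.symm)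
      have h7 : l ^ 2 ∣ (2 ^ 5 * 3 ^ 3) * 13 := by
        norm_num
        exact h5
      have h8 := h6.dvd_of_dvd_mul_left h7
      have h9 := Nat.le_of_dvd (by norm_num) h8
      have h10 : l ≤ 3 := by nlinarith
      have h11 : 2 ≤ l := hlprime.two_le
      rcases Nat.eq_or_lt_of_le h11 with h12 | h12
      · exact hl2 h12.symm
      · exact hlp (by rw [hp3]; omega)
  · have hK : Nat.card K = 2 := by omega
    have hp2 : p = 2 := by
      rw [hK] at hpcard
      exact (Nat.prime_dvd_prime_iff_eq Fact.out Nat.prime_two).mp hpcard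
    refine eq_one_of_sq hk ?_ ha hal haE
    intro hd
    have h5 := hd.trans (card_SL_dvd (K := K) 3)
    rw [card_GL3, hK] at h5
    norm_num at h5
    have h6 : Nat.Coprime (l ^ 2) (2 ^ 3) := by
      apply Nat.Coprime.pow
      rw [Nat.coprime_primes hlprime Nat.prime_two]
      exact fun h => hlp (h.trans hp2.symm)
    have h7 : l ^ 2 ∣ 2 ^ 3 * 21 := by
      norm_num
      exact h5
    have h8 := h6.dvd_of_dvd_mul_left h7
    have h9 := Nat.le_of_dvd (by norm_num) h8
    have h10 : l ≤ 4 := by nlinarith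
    have h11 : 2 ≤ l := hlprime.two_le
    have h12 : l = 2 ∨ l = 3 ∨ l = 4 := by omega
    rcases h12 with h12 | h12 | h12
    · exact hlp (by rw [hp2]; exact h12)
    · rw [h12] at h8
      norm_num at h8
    · rw [h12] at hlprime
      rcases hlprime.eq_one_or_self_of_dvd 2 ⟨2, rfl⟩ with h13 | h13
      · exact absurd h13 (by norm_num)
      · exact absurd h13 (by norm_num)

/-- **The part of the kernel of order prime to the characteristic**: every `n ≥ 2` and every
finite field. -/
theorem copClaim_all {n : ℕ} (hn : 2 ≤ n) : CopClaim n K p := by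
  induction n, hn using Nat.le_induction with
  | base => exact copClaim2
  | succ n hn ih =>
    rcases Nat.eq_or_lt_of_le hn with h | h
    · subst h
      exact copClaim3
    · refine copClaim_succ4 hn ?_ ih
      have h1 := one_lt_cardK (K := K)
      have h2 : Nat.card K ^ 4 ≤ Nat.card K ^ (n + 1) :=
        Nat.pow_le_pow_right (by omega) (by omega)
      refine lt_of_lt_of_le ?_ h2
      have h3 : 4 ≤ Nat.card K ^ 2 := by nlinarith
      obtain ⟨m, hm⟩ := Nat.exists_eq_add_of_le h3
      have h4 : Nat.card K ^ 4 = (Nat.card K ^ 2) * (Nat.card K ^ 2) := by ring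
      rw [h4, hm]
      have h5 : 4 + m - 1 = 3 + m := by omega
      rw [h5]
      nlinarith

/-- **A finite perfect central extension of `SL(n, K)`, `n ≥ 5`, is trivial.** -/
theorem sl_injective5' {n : ℕ} (hn : 5 ≤ n) {E : Type} [Group E] [Finite E]
    (hperf : commutator E = ⊤) (f : E →* Matrix.SpecialLinearGroup (Fin n) K)
    (hf : Function.Surjective f) (hk : f.ker ≤ center E) : Function.Injective f := by
  haveI hp : Fact (ringChar K).Prime := ⟨CharP.char_is_prime K (ringChar K)⟩
  exact sl_injective5_of hn (copClaim_all (by omega)) hperf f hf hk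

end

section

variable {K : Type} [Field K] [Finite K]

/-- **Lemma M**: a finite perfect group `L` with `L/Z(L) ≅ PSL(n, K)` is a quotient of `SL(n, K)` by
a central subgroup (`n ≥ 5`, every finite field). -/
theorem exists_surj_sl5' {n : ℕ} (hn : 5 ≤ n) {L : Type} [Group L] [Finite L]
    (hL : commutator L = ⊤)
    (e : L ⧸ center L ≃* Matrix.SpecialLinearGroup (Fin n) K ⧸
      center (Matrix.SpecialLinearGroup (Fin n) K)) :
    ∃ π : Matrix.SpecialLinearGroup (Fin n) K →* L, Function.Surjective π ∧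
      π.ker ≤ center (Matrix.SpecialLinearGroup (Fin n) K) :=
  Vale.Agent.P180.R2.H259.Schur.exists_surj_of_injective (sl_perfect5 hn) hL
    (fun E π h1 h2 h3 => sl_injective5' hn h1 π h2 h3) e

/-- The same for the group of the linear automorphisms of determinant one. -/
theorem exists_surj_slv5 {n : ℕ} (hn : 5 ≤ n) {L : Type} [Group L]
    [Finite L] (hL : commutator L = ⊤)
    (e : L ⧸ center L ≃* Matrix.SpecialLinearGroup (Fin n) K ⧸
      center (Matrix.SpecialLinearGroup (Fin n) K)) :
    ∃ π : _root_.SpecialLinearGroup K (Fin n → K) →* L, Function.Surjective π ∧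
      π.ker ≤ center (_root_.SpecialLinearGroup K (Fin n → K)) := by
  obtain ⟨π, h1, h2⟩ := exists_surj_sl5' hn hL e
  let ε : Matrix.SpecialLinearGroup (Fin n) K ≃* _root_.SpecialLinearGroup K (Fin n → K) :=
    Matrix.SpecialLinearGroup.toLin'_equiv
  refine ⟨π.comp ε.symm.toMonoidHom, h1.comp ε.symm.surjective, fun x hx => ?_⟩
  have h3 : ε.symm x ∈ center (Matrix.SpecialLinearGroup (Fin n) K) := h2 hx
  rw [mem_center_iff] at h3 ⊢
  intro y
  have h4 := congrArg ε (h3 (ε.symm y))
  rwa [map_mul, map_mul, ε.apply_symm_apply, ε.apply_symm_apply] at h4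

end

end Vale.Agent.P180.H19.Mul
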