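import Vale.Agent.P180.H19.PidxB
import Vale.Agent.P180.H393.OutD

/-!
P180, row F1 (helper19): the bound `OutBd` for a normal subgroup of `p`-power index.
-/

set_option linter.all false

namespace Vale.Agent.P180.H19.Pidx

open Vale.Agent.P180 Vale.Agent.P180.H768.Gd Vale.Agent.P180.R2.H799
  Vale.Agent.P180.R2.H954 Vale.Agent.P180.R2.H667
open Vale.Agent.P180.R2.H471.Hc (OneBd)
open Vale.Agent.P180.R2.H259.Cyc (PrimIn)
open Vale.Agent.P180.R2.H259.Exp (RT Le exists_le exists_prim_br prim_of_pair finrank_cj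
  finrank_cj_left)
open Vale.Agent.P180.H393 (OutBd)

universe u

variable {k : Type u} [Field k] {p : ℕ} [Fact p.Prime] [CharP k p] {G : Type} [Group G] [Finite G]

/-- A block of a subgroup has a defect group. -/
theorem exists_def {X : Subgroup G} {e : MonoidAlgebra k G} (he : IsBlockOf X e) :
    ∃ S ≤ X, IsPGroup p S ∧ ∃ z ∈ Fix (cj k G) S, e = tr (cj k G) S X z ∧ br S e ≠ 0 := by
  obtain ⟨e', rfl⟩ := exists_incl X he.mem.1
  have he' : IsBlockOf (⊤ : Subgroup X) e' := by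
    rw [isBlockOf_incl_iff, ← ZAlg_top] at he
    exact he
  obtain ⟨S⟩ : Nonempty (Sylow p X) := inferInstance
  have hS : ¬ p ∣ (S : Subgroup X).relIndex ⊤ := by
    rw [Subgroup.relIndex_top_right]
    exact S.not_dvd_index
  have h0 := eq_tr_of_not_dvd (k := k) p hS he'.mem.2
  obtain ⟨P', hP'S, a', ha', hea', c, hc, hec⟩ := exists_min_defect (p := p) he'
    (Subalgebra.smul_mem _ (Fix_mono _ le_top he'.mem.2) _) h0
  refine ⟨P'.map X.subtype, ?_, (S.isPGroup'.to_le hP'S).map _, incl k X a',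
    (incl_mem_Fix_iff X P' a').mpr ha', ?_, ?_⟩
  · rintro _ ⟨x, -, rfl⟩
    exact x.2
  · conv_lhs => rw [hea']
    exact incl_tr X P' ha'
  · intro h
    have h1 : br P' e' = 0 := by
      apply incl_injective (k := k) X
      rw [Vale.Agent.P180.R2.H365.Src.incl_br, h, map_zero]
    refine br_ne_of_coeff (c := c) ?_ hec h1
    rw [Subgroup.mem_centralizer_iff]
    intro h hh
    exact mul_inv_eq_iff_eq_mul.mp (hc h hh)

/-- A block of `N` is a block of its stabiliser, if the quotient is an abelian `p`-group. -/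
theorem block_stab {N : Subgroup G} [N.Normal] (hc : ∀ x y : G ⧸ N, x * y = y * x)
    (hN : IsPGroup p (G ⧸ N)) {e : MonoidAlgebra k G} (he : IsBlockOf N e) :
    IsBlockOf (stabE e) e := by
  refine ⟨mem_ZAlg_stabE he, he.idem, he.ne_zero, ?_⟩
  intro c hcm hcc hce
  obtain ⟨c', rfl⟩ := exists_incl (stabE e) hcm.1
  have h1 : c' ∈ Fix (cj k (stabE e)) ⊤ := by
    rw [← mem_center_iff_Fix_top]
    exact (incl_mem_ZAlg_iff _ c').mp hcm
  have h2 : c' * c' = c' := by
    apply incl_injective (k := k) (stabE e)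
    rw [map_mul]
    exact hcc
  have h3 := H805.Cov.idem_mem_ker hc hN ((QuotientGroup.mk' N).comp (stabE e).subtype) h2 h1
  have h4 : incl k (stabE e) c' ∈ SubAlg k N := by
    have h5 := (Vale.Agent.P180.incl_mem_SubAlg_iff (stabE e) _ c').mpr h3
    refine SubAlg_mono ?_ h5
    rintro _ ⟨x, hx, rfl⟩
    rw [SetLike.mem_coe, MonoidHom.mem_ker, MonoidHom.comp_apply] at hx
    exact (QuotientGroup.eq_one_iff _).mp hx
  exact he.primitive _ ⟨h4, Fix_mono _ (le_stabE he) hcm.2⟩ hcc hce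

omit [Fact p.Prime] [CharP k p] in
theorem br_conj_ne {D : Subgroup G} {x : MonoidAlgebra k G} (g : G) (h : br D x ≠ 0) :
    br (conjS g D) (cj k G g x) ≠ 0 := by
  obtain ⟨c, hc, hx⟩ := exists_coeff h
  refine br_ne_of_coeff (c := g * c * g⁻¹) ?_ ?_
  · rw [Subgroup.mem_centralizer_iff]
    intro y hy
    have h1 : g⁻¹ * y * g ∈ D := mem_conjS.mp hy
    have h2 := Subgroup.mem_centralizer_iff.mp hc _ h1
    calc y * (g * c * g⁻¹) = g * ((g⁻¹ * y * g) * c) * g⁻¹ := by group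
      _ = g * (c * (g⁻¹ * y * g)) * g⁻¹ := by rw [h2]
      _ = g * c * g⁻¹ * y := by group
  · rw [cj_coeff, show g⁻¹ * (g * c * g⁻¹) * g = c by group]
    exact hx

/-- **(F1)** The bound for a normal subgroup of `p`-power index. -/
theorem outBd_pidx_of {N : Subgroup G} [N.Normal] (hc : ∀ x y : G ⧸ N, x * y = y * x)
    (hN : IsPGroup p (G ⧸ N)) (hB1 : PrimStmt k N) {P Q : Subgroup G} (hP : IsPGroup p P)
    (hQ : IsPGroup p Q) (hQN : Q ≤ N) {C : ℕ}
    (h : ∀ (S : Subgroup G) (B z : MonoidAlgebra k G), IsPGroup p S → P ≤ S →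
      (∃ g, S ⊓ N = conjS g Q) → IsBlockOf (⊤ : Subgroup G) B → z ∈ Fix (cj k G) S →
      B = tr (cj k G) S ⊤ z → br S B ≠ 0 → OneBd k S C) :
    OutBd k N P Q C := by
  classical
  have hfin : FiniteDimensional k (MonoidAlgebra k G) := fin_MA
  intro e a he haN ha hea hbre heP hbrP
  have heT := block_stab hc hN he
  obtain ⟨S0, hS0T, hS0, z0, hz0, hez0, hbr0⟩ := exists_def (p := p) heT
  have hPT : P ≤ stabE e := fun g hg => heP g hg
  obtain ⟨t, ht, hPS⟩ := le_conj_of_br (u := 1) hP hS0T hPT hz0 (Subalgebra.one_mem _)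
    (by rw [one_mul, ← hez0]; exact hbrP)
  have hcte : cj k G t e = e := ht
  obtain ⟨S, hS⟩ : ∃ S, S = conjS t S0 := ⟨_, rfl⟩
  rw [← hS] at hPS
  have hSp : IsPGroup p S := by
    rw [hS]
    exact hS0.map _
  have hconT : conjS t (stabE e) = stabE e := by
    ext y
    rw [mem_conjS]
    constructor
    · intro hy
      have := (stabE e).mul_mem ((stabE e).mul_mem ht hy) ((stabE e).inv_mem ht)
      rwa [show t * (t⁻¹ * y * t) * t⁻¹ = y by group] at this
    · intro hy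
      exact (stabE e).mul_mem ((stabE e).mul_mem ((stabE e).inv_mem ht) hy) ht
  have hST : S ≤ stabE e := by
    rw [← hconT, hS]
    exact Subgroup.map_mono hS0T
  have hz : cj k G t z0 ∈ Fix (cj k G) S := by
    rw [hS]
    exact conj_mem_Fix (H' := conjS t S0) hz0 t fun h hh => mem_conjS.mp hh
  have hez : e = tr (cj k G) S (stabE e) (cj k G t z0) := by
    have h1 := congrArg (cj k G t) hez0
    rw [hcte, cj_tr t hz0, hconT, ← hS] at h1
    exact h1
  have hbrS : br S e ≠ 0 := by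
    have h1 := br_conj_ne t hbr0
    rwa [hcte, ← hS] at h1
  obtain ⟨B, -, -, hB, hBN, hBe, -⟩ := H805.Cov.exists_cover (p := p) hc hN he
  have hBz : B = tr (cj k G) S ⊤ (cj k G t z0) := by
    have h1 := tr_tr hz hST (le_top : stabE e ≤ ⊤)
    rw [← hez] at h1
    rw [← h1]
    exact eq_tr_stab he hB hBe
  have heS : e ∈ Fix (cj k G) S := fun g hg => hST hg
  have hBF : B ∈ Fix (cj k G) S := Fix_mono _ le_top hB.mem.2
  have heB : e * B = e := by
    rw [commute_of_mem (SubAlg_top e) hB.mem.2]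
    exact hBe
  have hbrB : br S B ≠ 0 := by
    intro h0
    apply hbrS
    rw [← heB, br_mul hSp heS hBF, h0, mul_zero]
  have h1e : cj k G 1 e = e := map_one_act _ e
  obtain ⟨n, hn, hSN⟩ := exists_conj hQ hQN he ha hea hbre hB hBe hSp hz hBz (x := 1)
    (by rw [h1e]; exact heS) (by rw [h1e]; exact hbrS)
  obtain ⟨j, hj, hjj, hBj, hbrj, hdimj⟩ := h S B _ hSp hPS ⟨_, hSN⟩ hB hz hBz hbrB B _ hB hz hBz
    hbrB
  -- a primitive idempotent below `j`
  obtain ⟨j', hj', h1, h2, h3⟩ := exists_prim_br (S := Fix (cj k G) S) (Q := S) hj hjj hbrj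
  have hj'R : PrimIn (RT k (⊤ : Subgroup G) S) j' :=
    ⟨⟨hj'.mem, SubAlg_top _⟩, hj'.idem, hj'.ne_zero, fun c hc => hj'.prim c hc.1⟩
  have hjj' : Le (Fix (cj k G) S) j' j :=
    ⟨j', hj'.mem, j', hj'.mem, hj'.idem, hj'.idem, h2, h1, hj'.idem⟩
  obtain ⟨g, -, hg, hle⟩ := exists_le (le_top : S ≤ ⊤) hSp hB (SubAlg_top _) hz hBz (SubAlg_top e)
    heS he.idem.eq (by rw [heB]; exact hbrS) hj'R (by rw [← h1, ← mul_assoc, hBj]) h3
  -- move it below `e`
  have hgi : g⁻¹ ∈ Subgroup.normalizer (S : Set G) := Subgroup.inv_mem _ hg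
  have hnorm : ∀ x ∈ Fix (cj k G) S, cj k G g⁻¹ x ∈ Fix (cj k G) S := by
    intro x hx
    refine conj_mem_Fix (H' := S) hx g⁻¹ fun y hy => ?_
    rw [inv_inv]
    exact (Subgroup.mem_normalizer_iff.mp hg y).mp hy
  have hle' : Le (Fix (cj k G) S) (cj k G g⁻¹ j') e := by
    obtain ⟨x, hx, y, hy, e1, e2, e3, e4, e5⟩ := hle
    have hcg : cj k G g⁻¹ (cj k G g e) = e := map_inv_act _ _ _
    refine ⟨cj k G g⁻¹ x, hnorm x hx.1, cj k G g⁻¹ y, hnorm y hy.1, ?_, ?_, ?_, ?_, ?_⟩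
    · rw [← map_mul, e1]
    · rw [← map_mul, e2]
    · conv_lhs => rw [← hcg]
      rw [← map_mul, e3]
    · conv_lhs => rw [← hcg]
      rw [← map_mul, e4]
    · rw [← map_mul, e5]
  obtain ⟨l, hl⟩ : ∃ l, l = cj k G g⁻¹ j' := ⟨_, rfl⟩
  rw [← hl] at hle'
  have hlP : PrimIn (Fix (cj k G) S) l := by
    have hgg : ∀ x : MonoidAlgebra k G, cj k G g⁻¹ (cj k G g x) = x := fun x => map_inv_act _ _ _
    have hnorm' : ∀ x ∈ Fix (cj k G) S, cj k G g x ∈ Fix (cj k G) S := by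
      intro x hx
      refine conj_mem_Fix (H' := S) hx g fun y hy => ?_
      have := (Subgroup.mem_normalizer_iff.mp hgi y).mp hy
      rwa [inv_inv] at this
    have hlj : cj k G g l = j' := by
      rw [hl]
      have := map_inv_act (ρ := cj k G) g⁻¹ j'
      rwa [inv_inv] at this
    refine ⟨by rw [hl]; exact hnorm _ hj'.mem, by rw [hl, ← map_mul, hj'.idem], ?_, ?_⟩
    · intro h0
      apply hj'.ne_zero
      rw [← hlj, h0, map_zero]
    · intro c hc hcc hc1 hc2
      rcases hj'.prim (cj k G g c) (hnorm' c hc) (by rw [← map_mul, hcc])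
        (by rw [← hlj, ← map_mul, hc1]) (by rw [← hlj, ← map_mul, hc2]) with h0 | h0
      · left
        rw [← hgg c, h0, map_zero]
      · right
        rw [← hgg c, h0, hl]
  have hlbr : br S l ≠ 0 := by
    have h4 := br_conj_ne g⁻¹ h3
    have h5 : conjS g⁻¹ S = S := by
      ext y
      rw [mem_conjS, inv_inv]
      exact (Subgroup.mem_normalizer_iff.mp hg y).symm
    rwa [h5, ← hl] at h4
  have hldim : Module.finrank k (NN (⊤ : Subalgebra k (MonoidAlgebra k G)) l l) ≤ C := by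
    refine le_trans ?_ hdimj
    refine le_trans ?_ ((hjj'.finrank_right le_top _).trans (hjj'.finrank_left le_top _))
    rw [hl]
    calc Module.finrank k (NN (⊤ : Subalgebra k (MonoidAlgebra k G)) (cj k G g⁻¹ j')
          (cj k G g⁻¹ j'))
        ≤ Module.finrank k (NN (SubAlg k (⊤ : Subgroup G)) (cj k G g⁻¹ j') (cj k G g⁻¹ j')) :=
          Submodule.finrank_mono fun y hy => ⟨SubAlg_top y, hy.2⟩
      _ ≤ Module.finrank k (NN (SubAlg k (⊤ : Subgroup G)) (cj k G g⁻¹ j') j') :=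
          finrank_cj (Subgroup.mem_top _) _ _
      _ ≤ Module.finrank k (NN (SubAlg k (⊤ : Subgroup G)) j' j') :=
          finrank_cj_left (Subgroup.mem_top _) _ _
      _ ≤ Module.finrank k (NN (⊤ : Subalgebra k (MonoidAlgebra k G)) j' j') :=
          Submodule.finrank_mono fun y hy => ⟨Algebra.mem_top, hy.2⟩
  obtain ⟨x, hx, y, hy, e1, e2, e3, e4, e5⟩ := hle'
  have hwP : PrimIn (Fix (cj k G) S) (y * x) := prim_of_pair hlP hx hy e1 e5 e2
  have hwl : Le (Fix (cj k G) S) (y * x) l := by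
    refine ⟨y, hy, x, hx, rfl, ?_, e5, e2, ?_⟩
    · rw [mul_assoc, e1, e5]
    · rw [← mul_assoc, e1, e2]
  have hew : e * (y * x) = y * x := by rw [← mul_assoc, e4]
  have hbrw : br S (y * x) ≠ 0 := by
    intro h0
    apply hlbr
    have h4 : l = x * (y * x) * y := by
      calc l = (x * y) * (x * y) := by rw [e1, hlP.idem]
        _ = _ := by simp only [mul_assoc]
    rw [h4, br_mul hSp (Subalgebra.mul_mem _ hx hwP.mem) hy, br_mul hSp hx hwP.mem, h0,
      mul_zero, zero_mul]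
  have hwdim : Module.finrank k
      (NN (⊤ : Subalgebra k (MonoidAlgebra k G)) (y * x) (y * x)) ≤ C :=
    ((hwl.finrank_right le_top _).trans (hwl.finrank_left le_top _)).trans hldim
  obtain ⟨i, hi, hei, -, hbri, hdim⟩ := H393.transfer (N := N) hSp hwP.mem hwP.idem hew hbrw hwdim
    ⟨heS, he.mem.1⟩ he.idem.eq fun i hi => ⟨hi.mem.1, hi.idem, hi.ne_zero,
      fun c hc hcc h1 h2 => hB1 S i hi.mem.2 hi.mem.1 hi.idem hi.ne_zero
        (fun f hf hfS hff h3 h4 => hi.prim f ⟨hfS, hf⟩ hff h4 h3) c hc hcc h2 h1⟩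
  have hsub : NN (SubAlg k N) i i ≤ NN (⊤ : Subalgebra k (MonoidAlgebra k G)) i i :=
    fun y hy => ⟨Algebra.mem_top, hy.2⟩
  exact ⟨i, hi.mem.2, Fix_mono _ hPS hi.mem.1, hi.idem, hei, br_ne_mono hPS hbri,
    (Submodule.finrank_mono hsub).trans hdim⟩

/-- **(F1)**, cyclic quotient. -/
theorem outBd_pidx {N : Subgroup G} [N.Normal] (hc : IsCyclic (G ⧸ N))
    (hN : IsPGroup p (G ⧸ N)) (hB1 : PrimStmt k N) {P Q : Subgroup G} (hP : IsPGroup p P)
    (hQ : IsPGroup p Q) (hQN : Q ≤ N) {C : ℕ}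
    (h : ∀ (S : Subgroup G) (B z : MonoidAlgebra k G), IsPGroup p S → P ≤ S →
      (∃ g, S ⊓ N = conjS g Q) → IsBlockOf (⊤ : Subgroup G) B → z ∈ Fix (cj k G) S →
      B = tr (cj k G) S ⊤ z → br S B ≠ 0 → OneBd k S C) :
    OutBd k N P Q C :=
  outBd_pidx_of (fun x y => by
    obtain ⟨g, hg⟩ := hc
    obtain ⟨a, rfl⟩ := hg x
    obtain ⟨b, rfl⟩ := hg y
    exact (Commute.refl g).zpow_zpow a b) hN hB1 hP hQ hQN h

end Vale.Agent.P180.H19.Pidx
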