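import Vale.Agent.P180.H951.OutI
import Vale.Agent.P180.H574.LemDC
import Vale.Agent.P180.H897.LemD2

/-!
P180 (v5, helper19): outer diagonal actions on special linear groups, without a bound for
`(|K| - 1)_p`.
-/

set_option linter.all false

namespace Vale.Agent.P180.H19.OutN

open Module Subgroup Vale.Agent.P180 Vale.Agent.P180.H768.Gd Vale.Agent.P180.R2.H471.Hc
  Vale.Agent.P180.R2.H799 Vale.Agent.P180.R2.H954 Vale.Agent.P180.H951
open Vale.Agent.P180.H393 (OutBd)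

universe u

section

variable {p : ℕ} [Fact p.Prime] {K V : Type} [Field K] [Finite K] [AddCommGroup V] [Module K V]
  [Finite V]

/-- The scalars of determinant one. -/
theorem card_scalar_le' {T : Subgroup (V ≃ₗ[K] V)} (hT : IsPGroup p T)
    (h : ∀ x ∈ T, ∃ c : K, ∀ v, x v = c • v) (hdet : ∀ x ∈ T, LinearEquiv.det x = 1) {m : ℕ}
    (hd : ∀ j, p ^ j ∣ finrank K V → p ^ j ∣ Nat.card K - 1 → p ^ j ≤ m) : Nat.card T ≤ m := by
  classical
  have hfin : Finite (V ≃ₗ[K] V) :=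
    Finite.of_injective (fun g : V ≃ₗ[K] V => (g : V → V)) DFunLike.coe_injective
  haveI := isCyclic_of_scalar T h
  obtain ⟨g, hg⟩ := IsCyclic.exists_generator (α := T)
  obtain ⟨j, hj⟩ := IsPGroup.iff_card.mp hT
  have hgo : orderOf g = p ^ j := by
    rw [← hj, ← orderOf_eq_card_of_forall_mem_zpowers hg]
  obtain ⟨c, hc⟩ := h g g.2
  have hpow : ∀ (j : ℕ) (w : V), ((g : V ≃ₗ[K] V) ^ j) w = c ^ j • w := by
    intro j
    induction j with
    | zero => intro w; rw [pow_zero, pow_zero, one_smul]; rfl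
    | succ j ih =>
      intro w
      rw [pow_succ, pow_succ, LinearEquiv.mul_apply, ih, hc, smul_smul]
  rw [hj]
  apply hd
  · rw [← hgo]
    apply orderOf_dvd_of_pow_eq_one
    apply Subtype.ext
    apply LinearEquiv.ext
    intro v
    change ((g : V ≃ₗ[K] V) ^ (finrank K V)) v = v
    rw [hpow]
    have h1 : ((g : V ≃ₗ[K] V) : V →ₗ[K] V) = c • (LinearMap.id : V →ₗ[K] V) := by
      apply LinearMap.ext
      intro w
      exact hc w
    have h2 : LinearMap.det ((g : V ≃ₗ[K] V) : V →ₗ[K] V) = 1 := by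
      rw [← LinearEquiv.coe_det, hdet g g.2, Units.val_one]
    rw [h1, LinearMap.det_smul, LinearMap.det_id, mul_one] at h2
    rw [h2, one_smul]
  · rw [← hgo]
    apply orderOf_dvd_of_pow_eq_one
    apply Subtype.ext
    apply LinearEquiv.ext
    intro v
    change ((g : V ≃ₗ[K] V) ^ (Nat.card K - 1)) v = v
    rw [hpow]
    by_cases hv : v = 0
    · rw [hv, smul_zero]
    have hc0 : c ≠ 0 := by
      rintro rfl
      have h1 := hc v
      rw [zero_smul] at h1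
      exact hv ((map_eq_zero_iff _ (g : V ≃ₗ[K] V).injective).mp h1)
    have h2 : (Units.mk0 c hc0) ^ (Nat.card K - 1) = 1 := by
      rw [← Nat.card_units]
      exact pow_card_eq_one'
    have h3 : c ^ (Nat.card K - 1) = 1 := congrArg Units.val h2
    rw [h3, one_smul]

omit [Finite V] in
/-- row (A) for all primes -/
theorem rowU [Finite V] (hpK : ¬ p ∣ Nat.card K) (S : Subgroup (V ≃ₗ[K] V)) (hS : IsPGroup p S)
    (hmax : MaxIn p S) (hT : ∀ x ∈ S, ∀ y ∈ S, LinearMap.det (x : V →ₗ[K] V) = 1 →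
      LinearMap.det (y : V →ₗ[K] V) = 1 →
        (fun t => x * t * x⁻¹ * t⁻¹)^[max 1 (p - 2)] y = 1) :
    ∀ x ∈ S, ∀ y ∈ S, x * y = y * x := by
  by_cases h2 : p = 2
  · subst h2
    refine H897.MatD.rowA2 hpK S hS hmax fun x hx y hy h1 h1' => ?_
    have h3 := hT x hx y hy h1 h1'
    change x * y * x⁻¹ * y⁻¹ = 1 at h3
    rwa [mul_inv_eq_one, mul_inv_eq_iff_eq_mul] at h3
  · have h3 : max 1 (p - 2) = p - 2 := by
      have := (Fact.out : p.Prime).two_le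
      omega
    rw [h3] at hT
    exact H574.rowE h2 hpK S hS hmax hT

theorem card_PG_le' [Finite (V ≃ₗ[K] V)] (hpK : ¬ p ∣ Nat.card K) {H : Type} [Group H] [Finite H]
    (q : PG p K V →* H) (hqs : ∀ x, q x = 1 → ∃ c : K, ∀ v, (x : V ≃ₗ[K] V) v = c • v)
    {S : Subgroup (PG p K V)} (hS : IsPGroup p S) (hmax : MaxIn p (S.map (PG p K V).subtype))
    (hcom : ∀ x ∈ S.map (PG p K V).subtype, ∀ y ∈ S.map (PG p K V).subtype, x * y = y * x)
    {m n : ℕ} (hd : ∀ j, p ^ j ∣ finrank K V → p ^ j ∣ Nat.card K - 1 → p ^ j ≤ m)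
    {R : Subgroup H} (hR : ∀ x ∈ S, x ∈ SG p K V → q x ∈ R) (hRn : Nat.card R ≤ n)
    (hns : ∃ t ∈ S, t ∈ SG p K V ∧ ¬ ∃ c : K, ∀ v, (t : V ≃ₗ[K] V) v = c • v) :
    Nat.card S ≤ n ^ 2 * m ^ 2 := by
  classical
  have h0 : Nat.card (S.map (PG p K V).subtype) = Nat.card S :=
    Subgroup.card_map_of_injective Subtype.val_injective
  obtain ⟨t, htS, htd, htn⟩ := hns
  have h1 := H354.NumS.card_le_sq (S.map (PG p K V).subtype) (hS.map _) hpK hcom hmax
    ⟨t, ⟨t, htS, rfl⟩, htd, htn⟩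
  let U : Subgroup (PG p K V) := S ⊓ SG p K V
  have hU : U.map (PG p K V).subtype = (S.map (PG p K V).subtype ⊓
      (LinearEquiv.det : (V ≃ₗ[K] V) →* Kˣ).ker : Subgroup _) := by
    ext x
    constructor
    · rintro ⟨y, hy, rfl⟩
      exact ⟨⟨y, hy.1, rfl⟩, hy.2⟩
    · rintro ⟨⟨y, hy, rfl⟩, hx⟩
      exact ⟨y, ⟨hy, hx⟩, rfl⟩
  have h2 : Nat.card (S.map (PG p K V).subtype ⊓
      (LinearEquiv.det : (V ≃ₗ[K] V) →* Kˣ).ker : Subgroup _) = Nat.card U := by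
    rw [← hU]
    exact Subgroup.card_map_of_injective Subtype.val_injective
  rw [h0, h2] at h1
  let f2 : U →* H := q.comp U.subtype
  have h3 : Nat.card f2.ker * Nat.card f2.range = Nat.card U := by
    rw [← Subgroup.index_ker]
    exact Subgroup.card_mul_index _
  have h4 : Nat.card f2.range ≤ n := by
    refine (Nat.card_le_card_of_injective (Subgroup.inclusion (?_ : f2.range ≤ R))
      (Subgroup.inclusion_injective _)).trans hRn
    rintro _ ⟨x, rfl⟩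
    exact hR x.1 x.2.1 x.2.2
  let ι : U →* (V ≃ₗ[K] V) := (PG p K V).subtype.comp U.subtype
  have hι : Function.Injective ι := fun x y h => Subtype.ext (Subtype.ext h)
  have hUp : IsPGroup p U := hS.to_le inf_le_left
  have h5 : Nat.card f2.ker ≤ m := by
    rw [← Subgroup.card_map_of_injective (K := f2.ker) hι]
    refine card_scalar_le' (p := p) ?_ ?_ ?_ hd
    · exact (hUp.to_subgroup f2.ker).map ι
    · rintro _ ⟨x, hx, rfl⟩
      exact hqs _ hx
    · rintro _ ⟨x, hx, rfl⟩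
      exact x.2.2
  calc Nat.card S ≤ Nat.card U ^ 2 := h1
    _ = (Nat.card f2.ker * Nat.card f2.range) ^ 2 := by rw [h3]
    _ ≤ (m * n) ^ 2 := Nat.pow_le_pow_left (Nat.mul_le_mul h5 h4) 2
    _ = n ^ 2 * m ^ 2 := by ring

end

section

variable {k : Type u} [Field k] [IsAlgClosed k] {p : ℕ} [Fact p.Prime] [CharP k p]
  {K V : Type} [Field K] [Finite K] [AddCommGroup V] [Module K V] [Finite V]
  [Finite (V ≃ₗ[K] V)]

/-- **The bound for the quotients of `PG`.** -/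
theorem oneBd_PGN (hpK : ¬ p ∣ Nat.card K)
    {m : ℕ} (hd : ∀ j, p ^ j ∣ finrank K V → p ^ j ∣ Nat.card K - 1 → p ^ j ≤ m)
    {H : Type} [Group H] [Finite H] (q : PG p K V →* H) (hq : Function.Surjective q)
    (hqs : ∀ x, q x = 1 → ∃ c : K, ∀ v, (x : V ≃ₗ[K] V) v = c • v)
    (hqd : ∀ x, q x = 1 → LinearEquiv.det (x : V ≃ₗ[K] V) = 1)
    {Q' : Subgroup H} {n : ℕ} (hQn : Nat.card Q' ≤ n)
    (hab : ∀ x y : PG p K V, LinearEquiv.det (x : V ≃ₗ[K] V) = 1 →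
      LinearEquiv.det (y : V ≃ₗ[K] V) = 1 → q x ∈ Q' → q y ∈ Q' →
      (fun t => x * t * x⁻¹ * t⁻¹)^[max 1 (p - 2)] y = 1)
    (hnc : ∃ x : PG p K V, LinearEquiv.det (x : V ≃ₗ[K] V) = 1 ∧ q x ∈ Q' ∧
      ¬ ∃ c : K, ∀ v, (x : V ≃ₗ[K] V) v = c • v)
    {S : Subgroup H} (hS : IsPGroup p S)
    (hSN : ∃ g, S ⊓ (SG p K V).map q = conjS g Q') : OneBd k S (outC p (n ^ 2) m) := by
  classical
  obtain ⟨g, hg⟩ := hSN
  obtain ⟨g, rfl⟩ := hq g
  have hqc : q.ker ≤ Subgroup.center (PG p K V) := by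
    intro x hx
    obtain ⟨c, hc⟩ := hqs x hx
    rw [Subgroup.mem_center_iff]
    intro y
    apply Subtype.ext
    apply LinearEquiv.ext
    intro v
    change (y : V ≃ₗ[K] V) ((x : V ≃ₗ[K] V) v) = (x : V ≃ₗ[K] V) ((y : V ≃ₗ[K] V) v)
    rw [hc, hc, map_smul]
  refine BN.oneBd_central hq hqc hS fun S1 hS1 hmap => ?_
  intro e a he ha hea hbr
  have hmax : MaxIn p (S1.map (PG p K V).subtype) := maxIn_of_blockPG hS1 ha hea hbr
  have hmem : ∀ x ∈ S1, LinearEquiv.det (x : V ≃ₗ[K] V) = 1 → q (g⁻¹ * x * g) ∈ Q' := by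
    intro x hx hx1
    have h1 : q x ∈ S ⊓ (SG p K V).map q := by
      refine ⟨?_, ⟨x, hx1, rfl⟩⟩
      rw [← hmap]
      exact ⟨x, hx, rfl⟩
    rw [hg, mem_conjS] at h1
    rwa [map_mul, map_mul, map_inv]
  have hdet : ∀ x : PG p K V, LinearEquiv.det (x : V ≃ₗ[K] V) = 1 →
      LinearEquiv.det ((g⁻¹ * x * g : PG p K V) : V ≃ₗ[K] V) = 1 := by
    intro x hx
    rw [Subgroup.coe_mul, Subgroup.coe_mul, Subgroup.coe_inv, map_mul, map_mul, map_inv, hx,
      mul_one, inv_mul_cancel]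
  -- a nonscalar element
  have hns : ∃ t ∈ S1, t ∈ SG p K V ∧ ¬ ∃ c : K, ∀ v, (t : V ≃ₗ[K] V) v = c • v := by
    obtain ⟨x, hx1, hxQ, hxs⟩ := hnc
    have h1 : q (g * x * g⁻¹) ∈ S ⊓ (SG p K V).map q := by
      rw [hg, mem_conjS, map_mul, map_mul, map_inv]
      rwa [show (q g)⁻¹ * (q g * q x * (q g)⁻¹) * q g = q x by group]
    have h3 := h1.1
    rw [← hmap] at h3
    obtain ⟨t, ht, htx⟩ := h3
    have h4 : q (t * (g * x * g⁻¹)⁻¹) = 1 := by rw [map_mul, map_inv, htx, mul_inv_cancel]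
    obtain ⟨c, hc⟩ := hqs _ h4
    have h5 := hqd _ h4
    have hxg : LinearEquiv.det ((g * x * g⁻¹ : PG p K V) : V ≃ₗ[K] V) = 1 := by
      rw [Subgroup.coe_mul, Subgroup.coe_mul, Subgroup.coe_inv, map_mul, map_mul, map_inv, hx1,
        mul_one, mul_inv_cancel]
    have htd : LinearEquiv.det (t : V ≃ₗ[K] V) = 1 := by
      rw [Subgroup.coe_mul, Subgroup.coe_inv, map_mul, map_inv, hxg, inv_one, mul_one] at h5
      exact h5
    refine ⟨t, ht, htd, ?_⟩
    rintro ⟨a, hta⟩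
    apply hxs
    -- `x = g⁻¹ (c⁻¹ t) g`
    have hc0 : ∀ v : V, v ≠ 0 → c ≠ 0 := by
      rintro v hv rfl
      have h6 := hc v
      rw [zero_smul] at h6
      exact hv ((map_eq_zero_iff _ ((t * (g * x * g⁻¹)⁻¹ : PG p K V) : V ≃ₗ[K] V).injective).mp h6)
    refine ⟨c⁻¹ * a, fun v => ?_⟩
    by_cases hv : v = 0
    · rw [hv, smul_zero, map_zero]
    have h7 : (t : V ≃ₗ[K] V) ((g : V ≃ₗ[K] V) v) =
        c • (g : V ≃ₗ[K] V) ((x : V ≃ₗ[K] V) v) := by
      have h8 := hc (((g * x * g⁻¹ : PG p K V) : V ≃ₗ[K] V) ((g : V ≃ₗ[K] V) v))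
      have h9 : ((t * (g * x * g⁻¹)⁻¹ : PG p K V) : V ≃ₗ[K] V)
          (((g * x * g⁻¹ : PG p K V) : V ≃ₗ[K] V) ((g : V ≃ₗ[K] V) v)) =
          (t : V ≃ₗ[K] V) ((g : V ≃ₗ[K] V) v) := by
        have h10 : ((t * (g * x * g⁻¹)⁻¹ : PG p K V) : V ≃ₗ[K] V) *
            ((g * x * g⁻¹ : PG p K V) : V ≃ₗ[K] V) = (t : V ≃ₗ[K] V) := by
          rw [← Subgroup.coe_mul, inv_mul_cancel_right]
        rw [← h10]
        rfl
      have h11 : ((g * x * g⁻¹ : PG p K V) : V ≃ₗ[K] V) ((g : V ≃ₗ[K] V) v) =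
          (g : V ≃ₗ[K] V) ((x : V ≃ₗ[K] V) v) := by
        have h12 : ((g * x * g⁻¹ : PG p K V) : V ≃ₗ[K] V) * (g : V ≃ₗ[K] V) =
            (g : V ≃ₗ[K] V) * (x : V ≃ₗ[K] V) := by
          rw [← Subgroup.coe_mul, inv_mul_cancel_right, Subgroup.coe_mul]
        exact congrArg (fun z : V ≃ₗ[K] V => z v) h12
      rw [h9, h11] at h8
      exact h8
    rw [hta] at h7
    have h13 : (g : V ≃ₗ[K] V) ((x : V ≃ₗ[K] V) v) = (g : V ≃ₗ[K] V) ((c⁻¹ * a) • v) := by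
      rw [map_smul, mul_smul, h7, smul_smul, inv_mul_cancel₀ (hc0 v hv), one_smul]
    exact (g : V ≃ₗ[K] V).injective h13
  have hSab : ∀ x ∈ S1.map (PG p K V).subtype, ∀ y ∈ S1.map (PG p K V).subtype,
      x * y = y * x := by
    refine rowU hpK _ (hS1.map _) hmax ?_
    rintro _ ⟨x, hx, rfl⟩ _ ⟨y, hy, rfl⟩ hx1 hy1
    have hx2 : LinearEquiv.det (x : V ≃ₗ[K] V) = 1 :=
      Units.ext (by rw [LinearEquiv.coe_det, Units.val_one]; exact hx1)
    have hy2 : LinearEquiv.det (y : V ≃ₗ[K] V) = 1 :=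
      Units.ext (by rw [LinearEquiv.coe_det, Units.val_one]; exact hy1)
    have h1 := hab (g⁻¹ * x * g) (g⁻¹ * y * g) (hdet x hx2) (hdet y hy2) (hmem x hx hx2)
      (hmem y hy hy2)
    have h3 := H574.cm_map ((MulAut.conj g).toMonoidHom : PG p K V →* PG p K V)
      (g⁻¹ * x * g) (g⁻¹ * y * g) (max 1 (p - 2))
    have hgx : ∀ x : PG p K V, (MulAut.conj g).toMonoidHom (g⁻¹ * x * g) = x := by
      intro x
      change g * (g⁻¹ * x * g) * g⁻¹ = x
      group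
    have h4 := H574.cm_map ((PG p K V).subtype : PG p K V →* (V ≃ₗ[K] V)) x y (max 1 (p - 2))
    rw [hgx, hgx] at h3
    have h5 : (H574.cm x)^[max 1 (p - 2)] y = 1 := by
      rw [← h3]
      have h6 : (H574.cm (g⁻¹ * x * g))^[max 1 (p - 2)] (g⁻¹ * y * g) = 1 := h1
      rw [h6, map_one]
    rw [h5, map_one] at h4
    exact h4.symm
  have hQc : Nat.card (conjS (q g) Q' : Subgroup H) ≤ n := by
    refine le_trans (le_of_eq ?_) hQn
    exact H19.Pidx.card_conjS _ _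
  have hcard : Nat.card S1 ≤ n ^ 2 * m ^ 2 := by
    refine card_PG_le' hpK q hqs hS1 hmax hSab hd (R := conjS (q g) Q') ?_ hQc hns
    intro x hx hx1
    have h1 := hmem x hx hx1
    rw [mem_conjS]
    rwa [map_mul, map_mul, map_inv] at h1
  haveI : IsCyclic ((V ≃ₗ[K] V) ⧸ PG p K V) := isCyclic_GP
  have hcard' : Nat.card (S1.map (PG p K V).subtype) ≤ n ^ 2 * m ^ 2 := by
    rw [Subgroup.card_map_of_injective Subtype.val_injective]
    exact hcard
  obtain ⟨i, h1, h2, h3, h4, h5⟩ := H396.oneBd_normal (k := k) (p := p) (S := PG p K V)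
    not_dvd_index hS1 (oneBd_glb hpK (hS1.map _) hcard' hSab) e a he ha hea hbr
  refine ⟨i, h1, h2, h3, h4, h5.trans ?_⟩
  refine (Nat.mul_le_mul_right _ (Nat.factorial_le hcard)).trans ?_
  exact Nat.le_mul_of_pos_left _ Nat.card_pos

/-- **Outer diagonal actions**, without a bound for `(|K| - 1)_p`. -/
theorem outBd_glN (hpK : ¬ p ∣ Nat.card K)
    {m : ℕ} (hd : ∀ j, p ^ j ∣ finrank K V → p ^ j ∣ Nat.card K - 1 → p ^ j ≤ m)
    {H : Type} [Group H] [Finite H] (q : PG p K V →* H) (hq : Function.Surjective q)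
    (hqs : ∀ x, q x = 1 → ∃ c : K, ∀ v, (x : V ≃ₗ[K] V) v = c • v)
    (hqd : ∀ x, q x = 1 → LinearEquiv.det (x : V ≃ₗ[K] V) = 1)
    {P' Q' : Subgroup H} (hP' : IsPGroup p P') (hQ' : IsPGroup p Q')
    (hQN : Q' ≤ (SG p K V).map q) {n : ℕ} (hQn : Nat.card Q' ≤ n)
    (hab : ∀ x y : PG p K V, LinearEquiv.det (x : V ≃ₗ[K] V) = 1 →
      LinearEquiv.det (y : V ≃ₗ[K] V) = 1 → q x ∈ Q' → q y ∈ Q' →
      (fun t => x * t * x⁻¹ * t⁻¹)^[max 1 (p - 2)] y = 1)
    (hnc : ∃ x : PG p K V, LinearEquiv.det (x : V ≃ₗ[K] V) = 1 ∧ q x ∈ Q' ∧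
      ¬ ∃ c : K, ∀ v, (x : V ≃ₗ[K] V) v = c • v) :
    OutBd k ((SG p K V).map q) P' Q' (outC p (n ^ 2) m) := by
  haveI : ((SG p K V).map q).Normal := Subgroup.Normal.map inferInstance q hq
  have hc : IsCyclic (H ⧸ (SG p K V).map q) := isCyclic_mapSG q hq
  have hN : IsPGroup p (H ⧸ (SG p K V).map q) := isPGroup_mapSG q hq
  exact H19.Pidx.outBd_pidx hc hN (primStmt_cyc _ hc hN) hP' hQ' hQN
    fun S B z hS _ hSN _ _ _ _ => oneBd_PGN hpK hd q hq hqs hqd hQn hab hnc hS hSN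

/-- **Outer diagonal actions**, in terms of the special linear group. -/
theorem outBd_glNS (hpK : ¬ p ∣ Nat.card K)
    {m : ℕ} (hd : ∀ j, p ^ j ∣ finrank K V → p ^ j ∣ Nat.card K - 1 → p ^ j ≤ m)
    {H : Type} [Group H] [Finite H] (q : PG p K V →* H) (hq : Function.Surjective q)
    (hqc : q.ker ≤ Subgroup.center (PG p K V))
    (hqd : ∀ x ∈ q.ker, LinearEquiv.det (x : V ≃ₗ[K] V) = 1)
    {P' Q' : Subgroup H} (hP' : IsPGroup p P') (hQ' : IsPGroup p Q')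
    (hQN : Q' ≤ (jP p K V).range.map q) {n : ℕ} (hQn : Nat.card Q' ≤ n)
    (hab : ∀ x y : SpecialLinearGroup K V, q (jP p K V x) ∈ Q' → q (jP p K V y) ∈ Q' →
      (fun t => x * t * x⁻¹ * t⁻¹)^[max 1 (p - 2)] y = 1)
    (hnc : ∃ x : SpecialLinearGroup K V, q (jP p K V x) ∈ Q' ∧
      x ∉ Subgroup.center (SpecialLinearGroup K V)) :
    OutBd k ((jP p K V).range.map q) P' Q' (outC p (n ^ 2) m) := by
  have hex : ∀ x : PG p K V, LinearEquiv.det (x : V ≃ₗ[K] V) = 1 → ∃ y, jP p K V y = x := by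
    intro x hx
    have h1 : x ∈ (jP p K V).range := by
      rw [range_jP]
      exact hx
    exact h1
  rw [range_jP] at hQN ⊢
  refine outBd_glN hpK hd q hq ?_ hqd hP' hQ' hQN hQn ?_ ?_
  · intro x hx
    obtain ⟨y, rfl⟩ := hex x (hqd x hx)
    refine scalar_of_center (Subgroup.mem_center_iff.mpr fun z => ?_)
    apply jP_injective p
    rw [map_mul, map_mul]
    exact Subgroup.mem_center_iff.mp (hqc hx) (jP p K V z)
  · intro x y hx hy hqx hqy
    obtain ⟨x, rfl⟩ := hex x hx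
    obtain ⟨y, rfl⟩ := hex y hy
    have h3 := H574.cm_map (jP p K V) x y (max 1 (p - 2))
    have h4 : (H574.cm x)^[max 1 (p - 2)] y = 1 := hab x y hqx hqy
    rw [h4, map_one] at h3
    exact h3.symm
  · obtain ⟨x, hxQ, hxc⟩ := hnc
    refine ⟨jP p K V x, ?_, hxQ, ?_⟩
    · have h1 : jP p K V x ∈ (jP p K V).range := ⟨x, rfl⟩
      rw [range_jP] at h1
      exact h1
    · rintro ⟨c, hc⟩
      apply hxc
      rw [Subgroup.mem_center_iff]
      intro y
      apply jP_injective p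
      apply Subtype.ext
      apply LinearEquiv.ext
      intro v
      rw [map_mul, map_mul, Subgroup.coe_mul, Subgroup.coe_mul, LinearEquiv.mul_apply,
        LinearEquiv.mul_apply, hc, hc, map_smul]

end

end Vale.Agent.P180.H19.OutN
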