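import Vale.Agent.P180.H19.OutN

/-!
P180 (v7, helper19): outer diagonal actions on special linear groups, when `(|K| - 1)_p` is large.
-/

set_option linter.all false

namespace Vale.Agent.P180.H19.OutNm

open Module Subgroup Vale.Agent.P180 Vale.Agent.P180.H768.Gd Vale.Agent.P180.R2.H471.Hc
  Vale.Agent.P180.R2.H799 Vale.Agent.P180.R2.H954 Vale.Agent.P180.H951
open Vale.Agent.P180.H393 (OutBd)
open Vale.Agent.P180.H19.OutN

universe u

/-- The maximal `p`-groups with at most `N` elements of determinant one are commutative. -/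
def ComSt (p : ℕ) (K V : Type) [Field K] [AddCommGroup V] [Module K V] (N : ℕ) : Prop :=
  ∀ S : Subgroup (V ≃ₗ[K] V), IsPGroup p S → MaxIn p S →
    Nat.card (S ⊓ (LinearEquiv.det : (V ≃ₗ[K] V) →* Kˣ).ker : Subgroup _) ≤ N →
    ∀ x ∈ S, ∀ y ∈ S, x * y = y * x

/-- the row on maximal groups -/
theorem comSt_of_row {p : ℕ} {K V : Type} [Field K] [AddCommGroup V] [Module K V] {N B : ℕ}
    (h : ∀ S : Subgroup (V ≃ₗ[K] V), IsPGroup p S → MaxIn p S →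
      Nat.card (S ⊓ (LinearEquiv.det : (V ≃ₗ[K] V) →* Kˣ).ker : Subgroup _) < B →
      ∀ x ∈ S, ∀ y ∈ S, x * y = y * x) (hN : N < B) : ComSt p K V N :=
  fun S hS hmax hc => h S hS hmax (hc.trans_lt hN)

section

variable {p : ℕ} [Fact p.Prime] {K V : Type} [Field K] [Finite K] [AddCommGroup V] [Module K V]
  [Finite V]

theorem card_det_le [Finite (V ≃ₗ[K] V)] {H : Type} [Group H] [Finite H]
    (q : PG p K V →* H) (hqs : ∀ x, q x = 1 → ∃ c : K, ∀ v, (x : V ≃ₗ[K] V) v = c • v)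
    {S : Subgroup (PG p K V)} (hS : IsPGroup p S)
    {m n : ℕ} (hd : ∀ j, p ^ j ∣ finrank K V → p ^ j ∣ Nat.card K - 1 → p ^ j ≤ m)
    {R : Subgroup H} (hR : ∀ x ∈ S, x ∈ SG p K V → q x ∈ R) (hRn : Nat.card R ≤ n) :
    Nat.card (S.map (PG p K V).subtype ⊓
      (LinearEquiv.det : (V ≃ₗ[K] V) →* Kˣ).ker : Subgroup _) ≤ n * m := by
  classical
  let U : Subgroup (PG p K V) := S ⊓ SG p K V
  have hU : U.map (PG p K V).subtype = (S.map (PG p K V).subtype ⊓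
      (LinearEquiv.det : (V ≃ₗ[K] V) →* Kˣ).ker : Subgroup _) := by
    ext x
    constructor
    · rintro ⟨y, hy, rfl⟩
      exact ⟨⟨y, hy.1, rfl⟩, hy.2⟩
    · rintro ⟨⟨y, hy, rfl⟩, hx⟩
      exact ⟨y, ⟨hy, hx⟩, rfl⟩
  have h2 : Nat.card (S.map (PG p K V).subtype ⊓
      (LinearEquiv.det : (V ≃ₗ[K] V) →* Kˣ).ker : Subgroup _) = Nat.card U := by
    rw [← hU]
    exact Subgroup.card_map_of_injective Subtype.val_injective
  rw [h2]
  let f2 : U →* H := q.comp U.subtype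
  have h3 : Nat.card f2.ker * Nat.card f2.range = Nat.card U := by
    rw [← Subgroup.index_ker]
    exact Subgroup.card_mul_index _
  have h4 : Nat.card f2.range ≤ n := by
    refine (Nat.card_le_card_of_injective (Subgroup.inclusion (?_ : f2.range ≤ R))
      (Subgroup.inclusion_injective _)).trans hRn
    rintro _ ⟨x, rfl⟩
    exact hR x.1 x.2.1 x.2.2
  let ι : U →* (V ≃ₗ[K] V) := (PG p K V).subtype.comp U.subtype
  have hι : Function.Injective ι := fun x y h => Subtype.ext (Subtype.ext h)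
  have hUp : IsPGroup p U := hS.to_le inf_le_left
  have h5 : Nat.card f2.ker ≤ m := by
    rw [← Subgroup.card_map_of_injective (K := f2.ker) hι]
    refine card_scalar_le' (p := p) ?_ ?_ ?_ hd
    · exact (hUp.to_subgroup f2.ker).map ι
    · rintro _ ⟨x, hx, rfl⟩
      exact hqs _ hx
    · rintro _ ⟨x, hx, rfl⟩
      exact x.2.2
  rw [← h3, mul_comm n m]
  exact Nat.mul_le_mul h5 h4

end

section

variable {k : Type u} [Field k] [IsAlgClosed k] {p : ℕ} [Fact p.Prime] [CharP k p]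
  {K V : Type} [Field K] [Finite K] [AddCommGroup V] [Module K V] [Finite V]
  [Finite (V ≃ₗ[K] V)]

/-- **The bound for the quotients of `PG`.** -/
theorem oneBd_PGNm (hpK : ¬ p ∣ Nat.card K)
    {m : ℕ} (hd : ∀ j, p ^ j ∣ finrank K V → p ^ j ∣ Nat.card K - 1 → p ^ j ≤ m)
    {H : Type} [Group H] [Finite H] (q : PG p K V →* H) (hq : Function.Surjective q)
    (hqs : ∀ x, q x = 1 → ∃ c : K, ∀ v, (x : V ≃ₗ[K] V) v = c • v)
    (hqd : ∀ x, q x = 1 → LinearEquiv.det (x : V ≃ₗ[K] V) = 1)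
    {Q' : Subgroup H} {n : ℕ} (hQn : Nat.card Q' ≤ n)
    (hab : ComSt p K V (n * m))
    (hnc : ∃ x : PG p K V, LinearEquiv.det (x : V ≃ₗ[K] V) = 1 ∧ q x ∈ Q' ∧
      ¬ ∃ c : K, ∀ v, (x : V ≃ₗ[K] V) v = c • v)
    {S : Subgroup H} (hS : IsPGroup p S)
    (hSN : ∃ g, S ⊓ (SG p K V).map q = conjS g Q') : OneBd k S (outC p (n ^ 2) m) := by
  classical
  obtain ⟨g, hg⟩ := hSN
  obtain ⟨g, rfl⟩ := hq g
  have hqc : q.ker ≤ Subgroup.center (PG p K V) := by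
    intro x hx
    obtain ⟨c, hc⟩ := hqs x hx
    rw [Subgroup.mem_center_iff]
    intro y
    apply Subtype.ext
    apply LinearEquiv.ext
    intro v
    change (y : V ≃ₗ[K] V) ((x : V ≃ₗ[K] V) v) = (x : V ≃ₗ[K] V) ((y : V ≃ₗ[K] V) v)
    rw [hc, hc, map_smul]
  refine BN.oneBd_central hq hqc hS fun S1 hS1 hmap => ?_
  intro e a he ha hea hbr
  have hmax : MaxIn p (S1.map (PG p K V).subtype) := maxIn_of_blockPG hS1 ha hea hbr
  have hmem : ∀ x ∈ S1, LinearEquiv.det (x : V ≃ₗ[K] V) = 1 → q (g⁻¹ * x * g) ∈ Q' := by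
    intro x hx hx1
    have h1 : q x ∈ S ⊓ (SG p K V).map q := by
      refine ⟨?_, ⟨x, hx1, rfl⟩⟩
      rw [← hmap]
      exact ⟨x, hx, rfl⟩
    rw [hg, mem_conjS] at h1
    rwa [map_mul, map_mul, map_inv]
  have hdet : ∀ x : PG p K V, LinearEquiv.det (x : V ≃ₗ[K] V) = 1 →
      LinearEquiv.det ((g⁻¹ * x * g : PG p K V) : V ≃ₗ[K] V) = 1 := by
    intro x hx
    rw [Subgroup.coe_mul, Subgroup.coe_mul, Subgroup.coe_inv, map_mul, map_mul, map_inv, hx,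
      mul_one, inv_mul_cancel]
  -- a nonscalar element
  have hns : ∃ t ∈ S1, t ∈ SG p K V ∧ ¬ ∃ c : K, ∀ v, (t : V ≃ₗ[K] V) v = c • v := by
    obtain ⟨x, hx1, hxQ, hxs⟩ := hnc
    have h1 : q (g * x * g⁻¹) ∈ S ⊓ (SG p K V).map q := by
      rw [hg, mem_conjS, map_mul, map_mul, map_inv]
      rwa [show (q g)⁻¹ * (q g * q x * (q g)⁻¹) * q g = q x by group]
    have h3 := h1.1
    rw [← hmap] at h3
    obtain ⟨t, ht, htx⟩ := h3
    have h4 : q (t * (g * x * g⁻¹)⁻¹) = 1 := by rw [map_mul, map_inv, htx, mul_inv_cancel]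
    obtain ⟨c, hc⟩ := hqs _ h4
    have h5 := hqd _ h4
    have hxg : LinearEquiv.det ((g * x * g⁻¹ : PG p K V) : V ≃ₗ[K] V) = 1 := by
      rw [Subgroup.coe_mul, Subgroup.coe_mul, Subgroup.coe_inv, map_mul, map_mul, map_inv, hx1,
        mul_one, mul_inv_cancel]
    have htd : LinearEquiv.det (t : V ≃ₗ[K] V) = 1 := by
      rw [Subgroup.coe_mul, Subgroup.coe_inv, map_mul, map_inv, hxg, inv_one, mul_one] at h5
      exact h5
    refine ⟨t, ht, htd, ?_⟩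
    rintro ⟨a, hta⟩
    apply hxs
    -- `x = g⁻¹ (c⁻¹ t) g`
    have hc0 : ∀ v : V, v ≠ 0 → c ≠ 0 := by
      rintro v hv rfl
      have h6 := hc v
      rw [zero_smul] at h6
      exact hv ((map_eq_zero_iff _ ((t * (g * x * g⁻¹)⁻¹ : PG p K V) : V ≃ₗ[K] V).injective).mp h6)
    refine ⟨c⁻¹ * a, fun v => ?_⟩
    by_cases hv : v = 0
    · rw [hv, smul_zero, map_zero]
    have h7 : (t : V ≃ₗ[K] V) ((g : V ≃ₗ[K] V) v) =
        c • (g : V ≃ₗ[K] V) ((x : V ≃ₗ[K] V) v) := by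
      have h8 := hc (((g * x * g⁻¹ : PG p K V) : V ≃ₗ[K] V) ((g : V ≃ₗ[K] V) v))
      have h9 : ((t * (g * x * g⁻¹)⁻¹ : PG p K V) : V ≃ₗ[K] V)
          (((g * x * g⁻¹ : PG p K V) : V ≃ₗ[K] V) ((g : V ≃ₗ[K] V) v)) =
          (t : V ≃ₗ[K] V) ((g : V ≃ₗ[K] V) v) := by
        have h10 : ((t * (g * x * g⁻¹)⁻¹ : PG p K V) : V ≃ₗ[K] V) *
            ((g * x * g⁻¹ : PG p K V) : V ≃ₗ[K] V) = (t : V ≃ₗ[K] V) := by
          rw [← Subgroup.coe_mul, inv_mul_cancel_right]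
        rw [← h10]
        rfl
      have h11 : ((g * x * g⁻¹ : PG p K V) : V ≃ₗ[K] V) ((g : V ≃ₗ[K] V) v) =
          (g : V ≃ₗ[K] V) ((x : V ≃ₗ[K] V) v) := by
        have h12 : ((g * x * g⁻¹ : PG p K V) : V ≃ₗ[K] V) * (g : V ≃ₗ[K] V) =
            (g : V ≃ₗ[K] V) * (x : V ≃ₗ[K] V) := by
          rw [← Subgroup.coe_mul, inv_mul_cancel_right, Subgroup.coe_mul]
        exact congrArg (fun z : V ≃ₗ[K] V => z v) h12
      rw [h9, h11] at h8
      exact h8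
    rw [hta] at h7
    have h13 : (g : V ≃ₗ[K] V) ((x : V ≃ₗ[K] V) v) = (g : V ≃ₗ[K] V) ((c⁻¹ * a) • v) := by
      rw [map_smul, mul_smul, h7, smul_smul, inv_mul_cancel₀ (hc0 v hv), one_smul]
    exact (g : V ≃ₗ[K] V).injective h13
  have hQc : Nat.card (conjS (q g) Q' : Subgroup H) ≤ n := by
    refine le_trans (le_of_eq ?_) hQn
    exact H19.Pidx.card_conjS _ _
  have hRR : ∀ x ∈ S1, x ∈ SG p K V → q x ∈ conjS (q g) Q' := by
    intro x hx hx1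
    have h1 := hmem x hx hx1
    rw [mem_conjS]
    rwa [map_mul, map_mul, map_inv] at h1
  have hSab : ∀ x ∈ S1.map (PG p K V).subtype, ∀ y ∈ S1.map (PG p K V).subtype,
      x * y = y * x :=
    hab _ (hS1.map _) hmax (card_det_le q hqs hS1 hd hRR hQc)
  have hcard : Nat.card S1 ≤ n ^ 2 * m ^ 2 := by
    exact card_PG_le' hpK q hqs hS1 hmax hSab hd (R := conjS (q g) Q') hRR hQc hns
  haveI : IsCyclic ((V ≃ₗ[K] V) ⧸ PG p K V) := isCyclic_GP
  have hcard' : Nat.card (S1.map (PG p K V).subtype) ≤ n ^ 2 * m ^ 2 := by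
    rw [Subgroup.card_map_of_injective Subtype.val_injective]
    exact hcard
  obtain ⟨i, h1, h2, h3, h4, h5⟩ := H396.oneBd_normal (k := k) (p := p) (S := PG p K V)
    not_dvd_index hS1 (oneBd_glb hpK (hS1.map _) hcard' hSab) e a he ha hea hbr
  refine ⟨i, h1, h2, h3, h4, h5.trans ?_⟩
  refine (Nat.mul_le_mul_right _ (Nat.factorial_le hcard)).trans ?_
  exact Nat.le_mul_of_pos_left _ Nat.card_pos

/-- **Outer diagonal actions**, without a bound for `(|K| - 1)_p`. -/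
theorem outBd_glNm_of (hpK : ¬ p ∣ Nat.card K)
    {m : ℕ} (hd : ∀ j, p ^ j ∣ finrank K V → p ^ j ∣ Nat.card K - 1 → p ^ j ≤ m)
    {H : Type} [Group H] [Finite H] (q : PG p K V →* H) (hq : Function.Surjective q)
    (hqs : ∀ x, q x = 1 → ∃ c : K, ∀ v, (x : V ≃ₗ[K] V) v = c • v)
    (hqd : ∀ x, q x = 1 → LinearEquiv.det (x : V ≃ₗ[K] V) = 1)
    {P' Q' : Subgroup H} (hP' : IsPGroup p P') (hQ' : IsPGroup p Q')
    (hQN : Q' ≤ (SG p K V).map q) {n : ℕ} (hQn : Nat.card Q' ≤ n)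
    (hab : ComSt p K V (n * m))
    (hnc : ∃ x : PG p K V, LinearEquiv.det (x : V ≃ₗ[K] V) = 1 ∧ q x ∈ Q' ∧
      ¬ ∃ c : K, ∀ v, (x : V ≃ₗ[K] V) v = c • v) :
    OutBd k ((SG p K V).map q) P' Q' (outC p (n ^ 2) m) := by
  haveI : ((SG p K V).map q).Normal := Subgroup.Normal.map inferInstance q hq
  have hc : IsCyclic (H ⧸ (SG p K V).map q) := isCyclic_mapSG q hq
  have hN : IsPGroup p (H ⧸ (SG p K V).map q) := isPGroup_mapSG q hq
  exact H19.Pidx.outBd_pidx hc hN (primStmt_cyc _ hc hN) hP' hQ' hQN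
    fun S B z hS _ hSN _ _ _ _ => oneBd_PGNm hpK hd q hq hqs hqd hQn hab hnc hS hSN

/-- **(N2) Outer diagonal actions**, from the row (N1), when `(|K| - 1)_p` is large. -/
theorem outBd_glNm_ofN
    (hrow : ∀ S : Subgroup (V ≃ₗ[K] V), IsPGroup p S → MaxIn p S →
      Nat.card (S ⊓ (LinearEquiv.det : (V ≃ₗ[K] V) →* Kˣ).ker : Subgroup _) <
        p * (ordProj[p] (Nat.card K - 1)) ^ (p - 1) → ∀ x ∈ S, ∀ y ∈ S, x * y = y * x)
    (hpK : ¬ p ∣ Nat.card K)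
    {m : ℕ} (hd : ∀ j, p ^ j ∣ finrank K V → p ^ j ∣ Nat.card K - 1 → p ^ j ≤ m)
    {H : Type} [Group H] [Finite H] (q : PG p K V →* H) (hq : Function.Surjective q)
    (hqs : ∀ x, q x = 1 → ∃ c : K, ∀ v, (x : V ≃ₗ[K] V) v = c • v)
    (hqd : ∀ x, q x = 1 → LinearEquiv.det (x : V ≃ₗ[K] V) = 1)
    {P' Q' : Subgroup H} (hP' : IsPGroup p P') (hQ' : IsPGroup p Q')
    (hQN : Q' ≤ (SG p K V).map q) {n : ℕ} (hQn : Nat.card Q' ≤ n)
    (hnm : n * m < p * (ordProj[p] (Nat.card K - 1)) ^ (p - 1))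
    (hnc : ∃ x : PG p K V, LinearEquiv.det (x : V ≃ₗ[K] V) = 1 ∧ q x ∈ Q' ∧
      ¬ ∃ c : K, ∀ v, (x : V ≃ₗ[K] V) v = c • v) :
    OutBd k ((SG p K V).map q) P' Q' (outC p (n ^ 2) m) :=
  outBd_glNm_of hpK hd q hq hqs hqd hP' hQ' hQN hQn (comSt_of_row hrow hnm) hnc

end

end Vale.Agent.P180.H19.OutNm
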