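import Vale.Agent.P180.R2.H667.Br1
import Vale.Agent.P180.R2.H259.Exp.Dse

/-!
P180, R1' leaf B4 (helper19): descent of the bound to a normal subgroup of `p`-power index,
assembly.
-/

set_option linter.all false

namespace Vale.Agent.P180.H19.Pidx

open Vale.Agent.P180 Vale.Agent.P180.H768.Gd Vale.Agent.P180.R2.H799
  Vale.Agent.P180.R2.H954 Vale.Agent.P180.R2.H667
open Vale.Agent.P180.R2.H471.Hc (OneBd)

universe u

variable {k : Type u} [Field k] {p : ℕ} [Fact p.Prime] [CharP k p] {G : Type} [Group G] [Finite G]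

omit [Fact p.Prime] [CharP k p] in
theorem fin_MA : FiniteDimensional k (MonoidAlgebra k G) :=
  Module.Finite.equiv (MonoidAlgebra.coeffLinearEquiv k (M := G) (S := k)).symm

/-- B2 -/
def CoverStmt (k : Type u) [Field k] (p : ℕ) {G : Type} [Group G] [Finite G]
    (N : Subgroup G) : Prop :=
  ∀ (Q : Subgroup G) (e a : MonoidAlgebra k G), IsPGroup p Q → Q ≤ N → IsBlockOf N e →
    a ∈ SubAlg k N → a ∈ Fix (cj k G) Q → e = tr (cj k G) Q N a → br Q e ≠ 0 →
    ∃ (B z : MonoidAlgebra k G) (S : Subgroup G), IsBlockOf (⊤ : Subgroup G) B ∧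
      B ∈ SubAlg k N ∧ B * e = e ∧ IsPGroup p S ∧ z ∈ Fix (cj k G) S ∧
      B = tr (cj k G) S ⊤ z ∧ br S B ≠ 0

/-- B3 -/
def TransferStmt (k : Type u) [Field k] (p : ℕ) {G : Type} [Group G] [Finite G]
    (N : Subgroup G) : Prop :=
  ∀ (S : Subgroup G) (B j : MonoidAlgebra k G) (C : ℕ), IsPGroup p S →
    IsBlockOf (⊤ : Subgroup G) B → B ∈ SubAlg k N → j ∈ Fix (cj k G) S → j * j = j →
    B * j = j → br S j ≠ 0 →
    Module.finrank k (NN (⊤ : Subalgebra k (MonoidAlgebra k G)) j j) ≤ C →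
    ∃ i ∈ SubAlg k N, i ∈ Fix (cj k G) S ∧ i * i = i ∧ B * i = i ∧ br S i ≠ 0 ∧
      Module.finrank k (NN (⊤ : Subalgebra k (MonoidAlgebra k G)) i i) ≤ C

omit [Fact p.Prime] [CharP k p] [Finite G] in
/-- a nonzero coefficient at a centralising element -/
theorem exists_coeff {D : Subgroup G} {x : MonoidAlgebra k G} (h : br D x ≠ 0) :
    ∃ c ∈ Subgroup.centralizer (D : Set G), x.coeff c ≠ 0 := by
  classical
  by_contra hcon
  push Not at hcon
  apply h
  apply MonoidAlgebra.coeff_injective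
  ext c
  rw [br_coeff]
  split_ifs with hc
  · exact hcon c hc
  · rfl

omit [Fact p.Prime] [CharP k p] [Finite G] in
theorem br_ne_of_coeff {D : Subgroup G} {x : MonoidAlgebra k G} {c : G}
    (hc : c ∈ Subgroup.centralizer (D : Set G)) (h : x.coeff c ≠ 0) : br D x ≠ 0 := by
  classical
  intro h0
  have h1 : (br D x).coeff c = 0 := by rw [h0]; rfl
  rw [br_coeff, if_pos hc] at h1
  exact h h1

omit [Fact p.Prime] [CharP k p] [Finite G] in
/-- the Brauer map of a smaller group is nonzero -/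
theorem br_ne_mono {D D' : Subgroup G} (hD : D' ≤ D) {x : MonoidAlgebra k G} (h : br D x ≠ 0) :
    br D' x ≠ 0 := by
  obtain ⟨c, hc, hx⟩ := exists_coeff h
  exact br_ne_of_coeff (Subgroup.centralizer_le hD hc) hx

/-- the block of the whole group is the trace of the covered block -/
theorem eq_tr_stab {N : Subgroup G} [N.Normal] {e B : MonoidAlgebra k G} (he : IsBlockOf N e)
    (hB : IsBlockOf (⊤ : Subgroup G) B) (hBe : B * e = e) :
    B = tr (cj k G) (stabE e) ⊤ e := by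
  have heF : e ∈ Fix (cj k G) (stabE e) := fun g hg => hg
  have hBF : B ∈ Fix (cj k G) (⊤ : Subgroup G) := hB.mem.2
  set w := tr (cj k G) (stabE e) ⊤ e with hw
  have hwF : w ∈ Fix (cj k G) (⊤ : Subgroup G) := tr_mem_Fix heF
  have hBw : B * w = w := by rw [hw, mul_tr hBF, hBe]
  have hwe : e * w = e := e_mul_tr he heF he.idem.eq
  have hww : IsIdempotentElem w := tr_idem he heF he.idem.eq he.idem.eq he.idem
  have hcomm : w * B = w := by
    rw [← ZAlg_comm B hB.mem w ⟨SubAlg_top w, hwF⟩]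
    exact hBw
  rcases hB.primitive w ⟨SubAlg_top w, hwF⟩ hww hcomm with h | h
  · exfalso
    apply he.ne_zero
    rw [← hwe, h, mul_zero]
  · exact h.symm

/-- a conjugate of the covered block which is stable under `S` and meets `u` -/
theorem exists_stable {N S : Subgroup G} [N.Normal] {e B u : MonoidAlgebra k G}
    (he : IsBlockOf N e) (hB : IsBlockOf (⊤ : Subgroup G) B) (hBe : B * e = e)
    (hS : IsPGroup p S) (hu : u ∈ Fix (cj k G) S) (h : br S (u * B) ≠ 0) :
    ∃ x : G, cj k G x e ∈ Fix (cj k G) S ∧ br S (u * cj k G x e) ≠ 0 := by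
  classical
  have heF : e ∈ Fix (cj k G) (stabE e) := fun g hg => hg
  rw [eq_tr_stab he hB hBe] at h
  obtain ⟨m, x, hx, hm⟩ := mackey_rel (D := S) (le_top : stabE e ≤ ⊤) le_top heF
  rw [hm, Finset.mul_sum, Vale.Agent.P180.R2.H667.br_sum] at h
  obtain ⟨i, -, hi⟩ := Finset.exists_ne_zero_of_sum_ne_zero h
  rw [mul_tr hu] at hi
  by_cases hS' : S ⊓ conjS (x i) (stabE e) = S
  · have hle : S ≤ conjS (x i) (stabE e) := inf_eq_left.mp hS'
    have hF : cj k G (x i) e ∈ Fix (cj k G) S := by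
      refine conj_mem_Fix (H' := S) heF (x i) fun h hh => ?_
      exact mem_conjS.mp (hle hh)
    refine ⟨x i, hF, ?_⟩
    rw [hS', tr_of_mem_Fix (Subalgebra.mul_mem _ hu hF)] at hi
    have h1 : S.relIndex S = 1 := Subgroup.relIndex_self S
    rw [h1, Nat.cast_one, one_smul] at hi
    exact hi
  · exact absurd (br_tr_proper hS inf_le_left hS' _) hi

omit [Fact p.Prime] [CharP k p] in
theorem conjS_normal {N : Subgroup G} [hN : N.Normal] (g : G) : conjS g N = N := by
  ext x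
  rw [mem_conjS]
  constructor
  · intro h
    have := hN.conj_mem _ h g
    rwa [show g * (g⁻¹ * x * g) * g⁻¹ = x by group] at this
  · intro h
    have := hN.conj_mem _ h g⁻¹
    rwa [inv_inv] at this

omit [Fact p.Prime] [CharP k p] in
theorem card_conjS (g : G) (D : Subgroup G) : Nat.card (conjS g D) = Nat.card D :=
  (Nat.card_congr (D.equivMapOfInjective _ (MulAut.conj g).injective).toEquiv).symm

omit [Fact p.Prime] [CharP k p] in
theorem conjS_conjS (g h : G) (D : Subgroup G) : conjS g (conjS h D) = conjS (g * h) D := by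
  ext x
  rw [mem_conjS, mem_conjS, mem_conjS]
  rw [show h⁻¹ * (g⁻¹ * x * g) * h = (g * h)⁻¹ * x * (g * h) by group]

/-- the position of the defect groups -/
theorem exists_conj {N Q S : Subgroup G} [N.Normal] {e a B z : MonoidAlgebra k G}
    (hQ : IsPGroup p Q) (hQN : Q ≤ N) (he : IsBlockOf N e) (ha : a ∈ Fix (cj k G) Q)
    (hea : e = tr (cj k G) Q N a) (hbre : br Q e ≠ 0) (hB : IsBlockOf (⊤ : Subgroup G) B)
    (hBe : B * e = e) (hS : IsPGroup p S) (hz : z ∈ Fix (cj k G) S)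
    (hBz : B = tr (cj k G) S ⊤ z) {x : G} (hx : cj k G x e ∈ Fix (cj k G) S)
    (hbrx : br S (cj k G x e) ≠ 0) : ∃ n ∈ N, S ⊓ N = conjS (n * x) Q := by
  have h1 : br (S ⊓ N) (cj k G x e) ≠ 0 := br_ne_mono inf_le_left hbrx
  have hSN : IsPGroup p (S ⊓ N : Subgroup G) := hS.to_le inf_le_left
  rw [hea, cj_tr x ha, conjS_normal (N := N) x] at h1
  have hxa : cj k G x a ∈ Fix (cj k G) (conjS x Q) :=
    conj_mem_Fix (H' := conjS x Q) ha x fun h hh => mem_conjS.mp hh
  have hxQ : conjS x Q ≤ N := by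
    intro y hy
    rw [mem_conjS] at hy
    have := (inferInstance : N.Normal).conj_mem _ (hQN hy) x
    rwa [show x * (x⁻¹ * y * x) * x⁻¹ = y by group] at this
  obtain ⟨n, hn, hle⟩ := le_conj_of_br (u := 1) hSN hxQ inf_le_right hxa (Subalgebra.one_mem _)
    (by rw [one_mul]; exact h1)
  rw [conjS_conjS] at hle
  have heQ : e ∈ Fix (cj k G) Q := Fix_mono _ hQN he.mem.2
  have heB : e * B = e := by
    rw [commute_of_mem (SubAlg_top e) hB.mem.2]
    exact hBe
  obtain ⟨g, -, hg⟩ := le_conj_of_br (u := e) (a := z) hQ (le_top : S ≤ ⊤) le_top hz heQ (by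
    rw [← hBz, heB]
    exact hbre)
  refine ⟨n, hn, ?_⟩
  apply Subgroup.eq_of_le_of_card_ge hle
  rw [card_conjS]
  have h2 : Q ≤ conjS g (S ⊓ N) := by
    intro y hy
    have h3 := mem_conjS.mp (hg hy)
    rw [mem_conjS]
    refine ⟨h3, ?_⟩
    have := (inferInstance : N.Normal).conj_mem _ (hQN hy) g⁻¹
    rwa [inv_inv] at this
  calc Nat.card Q ≤ Nat.card (conjS g (S ⊓ N)) := Subgroup.card_le_of_le h2
    _ = Nat.card (S ⊓ N : Subgroup G) := card_conjS g _

/-- **the core of the descent**, inside the group algebra of `G` -/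
theorem pidx_core {N Q : Subgroup G} [N.Normal] (hB2 : CoverStmt k p N)
    (hB3 : TransferStmt k p N) (hQ : IsPGroup p Q) (hQN : Q ≤ N) {C : ℕ}
    (h : ∀ (S : Subgroup G) (B z : MonoidAlgebra k G), IsPGroup p S →
      (∃ g, S ⊓ N = conjS g Q) → IsBlockOf (⊤ : Subgroup G) B → z ∈ Fix (cj k G) S →
      B = tr (cj k G) S ⊤ z → br S B ≠ 0 → OneBd k S C)
    {e a : MonoidAlgebra k G} (he : IsBlockOf N e) (haN : a ∈ SubAlg k N)
    (ha : a ∈ Fix (cj k G) Q) (hea : e = tr (cj k G) Q N a) (hbre : br Q e ≠ 0) :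
    ∃ i ∈ SubAlg k N, i ∈ Fix (cj k G) Q ∧ i * i = i ∧ e * i = i ∧ br Q i ≠ 0 ∧
      Module.finrank k (NN (SubAlg k N) i i) ≤ C := by
  classical
  have hfin : FiniteDimensional k (MonoidAlgebra k G) := fin_MA
  obtain ⟨B, z, S, hB, hBN, hBe, hS, hz, hBz, hbrB⟩ := hB2 Q e a hQ hQN he haN ha hea hbre
  -- the position of `S`
  obtain ⟨x₀, hx₀, hbrx₀⟩ := exists_stable (u := 1) he hB hBe hS (Subalgebra.one_mem _)
    (by rw [one_mul]; exact hbrB)
  rw [one_mul] at hbrx₀
  obtain ⟨n₀, hn₀, hSN₀⟩ := exists_conj hQ hQN he ha hea hbre hB hBe hS hz hBz hx₀ hbrx₀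
  obtain ⟨j, hj, hjj, hBj, hbrj, hdimj⟩ := h S B z hS ⟨_, hSN₀⟩ hB hz hBz hbrB B z hB hz hBz hbrB
  obtain ⟨i, hiN, hiF, hii, hBi, hbri, hdim⟩ := hB3 S B j C hS hB hBN hj hjj hBj hbrj hdimj
  -- the stable conjugate block below `i`
  obtain ⟨x, hx, hbrx⟩ := exists_stable (u := i) he hB hBe hS hiF
    (by rw [commute_of_mem (SubAlg_top i) hB.mem.2, hBi]; exact hbri)
  set f := cj k G x e with hf
  have hfb : IsBlockOf N f := IsBlockOf.conj x he
  have hfi : f * i = i * f := (commute_of_mem hiN hfb.mem.2).symm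
  have hbrf : br S f ≠ 0 := by
    intro h0
    apply hbrx
    rw [br_mul hS hiF hx, h0, mul_zero]
  obtain ⟨n, hn, hSN⟩ := exists_conj hQ hQN he ha hea hbre hB hBe hS hz hBz hx hbrf
  have hi'i0 : i * f * (i * f) = i * f := by
    rw [mul_assoc, ← mul_assoc f, hfi, mul_assoc, hfb.idem.eq, ← mul_assoc, hii]
  set i' := i * f with hi'
  have hi'N : i' ∈ SubAlg k N := Subalgebra.mul_mem _ hiN hfb.mem.1
  have hi'F : i' ∈ Fix (cj k G) S := Subalgebra.mul_mem _ hiF hx
  have hi'i' : i' * i' = i' := hi'i0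
  have hii' : i * i' = i' := by rw [hi', ← mul_assoc, hii]
  have hi'i : i' * i = i' := by rw [hi', mul_assoc, hfi, ← mul_assoc, hii]
  have hfi' : f * i' = i' := by
    rw [hi', ← mul_assoc, hfi, mul_assoc, hfb.idem.eq]
  have hdim' : Module.finrank k (NN (⊤ : Subalgebra k (MonoidAlgebra k G)) i' i') ≤ C := by
    refine le_trans (Submodule.finrank_mono ?_) hdim
    rintro y ⟨-, h1, h2⟩
    refine ⟨Algebra.mem_top, ?_, ?_⟩
    · calc i * y = i * (i' * y) := by rw [h1]
        _ = y := by rw [← mul_assoc, hii', h1]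
    · calc y * i = y * i' * i := by rw [h2]
        _ = y := by rw [mul_assoc, hi'i, h2]
  -- move it
  set g := n * x with hg
  set i'' := cj k G g⁻¹ i' with hi''
  have hcf : cj k G g⁻¹ f = e := by
    have h1 : cj k G n⁻¹ f = f := hfb.mem.2 _ (N.inv_mem hn)
    rw [hg, mul_inv_rev, map_mul_act, h1, hf, map_inv_act]
  have hi''N : i'' ∈ SubAlg k N := by
    refine SuppIn.conj hi'N g⁻¹ fun s hs => ?_
    exact (inferInstance : N.Normal).conj_mem s hs g⁻¹
  have hi''F : i'' ∈ Fix (cj k G) Q := by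
    refine conj_mem_Fix (H' := Q) (H := S ⊓ N) (Fix_mono _ inf_le_left hi'F) g⁻¹ fun y hy => ?_
    rw [hSN, inv_inv]
    rw [mem_conjS]
    rwa [show (n * x)⁻¹ * (n * x * y * (n * x)⁻¹) * (n * x) = y by group]
  obtain ⟨c, hc, hic⟩ := exists_coeff hbrx
  have hbri'' : br Q i'' ≠ 0 := by
    refine br_ne_of_coeff (c := g⁻¹ * c * g) ?_ ?_
    · rw [Subgroup.mem_centralizer_iff]
      intro y hy
      have h1 : g * y * g⁻¹ ∈ S ⊓ N := by
        rw [hSN, mem_conjS]
        rwa [show (n * x)⁻¹ * (g * y * g⁻¹) * (n * x) = y by rw [hg]; group]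
      have h2 := Subgroup.mem_centralizer_iff.mp hc _ h1.1
      calc y * (g⁻¹ * c * g) = g⁻¹ * ((g * y * g⁻¹) * c) * g := by group
        _ = g⁻¹ * (c * (g * y * g⁻¹)) * g := by rw [h2]
        _ = g⁻¹ * c * g * y := by group
    · rw [hi'', cj_coeff]
      rw [show (g⁻¹)⁻¹ * (g⁻¹ * c * g) * g⁻¹ = c by group]
      exact hic
  refine ⟨i'', hi''N, hi''F, by rw [hi'', ← map_mul, hi'i'], ?_, hbri'', ?_⟩
  · rw [← hcf, hi'', ← map_mul, hfi']
  · calc Module.finrank k (NN (SubAlg k N) i'' i'')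
        ≤ Module.finrank k (NN (SubAlg k (⊤ : Subgroup G)) i'' i'') :=
          Submodule.finrank_mono fun y hy => ⟨SubAlg_top y, hy.2⟩
      _ ≤ Module.finrank k (NN (SubAlg k (⊤ : Subgroup G)) i'' i') :=
          Vale.Agent.P180.R2.H259.Exp.finrank_cj (Subgroup.mem_top _) _ _
      _ ≤ Module.finrank k (NN (SubAlg k (⊤ : Subgroup G)) i' i') :=
          Vale.Agent.P180.R2.H259.Exp.finrank_cj_left (Subgroup.mem_top _) _ _
      _ ≤ Module.finrank k (NN (⊤ : Subalgebra k (MonoidAlgebra k G)) i' i') :=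
          Submodule.finrank_mono fun y hy => ⟨Algebra.mem_top, hy.2⟩
      _ ≤ C := hdim'

/-- **(B4) Descent to a normal subgroup of `p`-power index.** -/
theorem oneBd_pidx' {N : Subgroup G} [N.Normal] (hB2 : CoverStmt k p N)
    (hB3 : TransferStmt k p N) {Q : Subgroup N} (hQ : IsPGroup p Q) {C : ℕ}
    (h : ∀ (S : Subgroup G) (B z : MonoidAlgebra k G), IsPGroup p S →
      (∃ g, S ⊓ N = conjS g (Q.map N.subtype)) → IsBlockOf (⊤ : Subgroup G) B →
      z ∈ Fix (cj k G) S → B = tr (cj k G) S ⊤ z → br S B ≠ 0 → OneBd k S C) :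
    OneBd k Q C := by
  intro e a he ha hea hbr
  have he1 : IsBlockOf N (incl k N e) := by
    rw [isBlockOf_incl_iff, ← ZAlg_top]
    exact he
  have hQN : Q.map N.subtype ≤ N := by
    rintro _ ⟨x, -, rfl⟩
    exact x.2
  have hea1 : incl k N e = tr (cj k G) (Q.map N.subtype) N (incl k N a) := by
    rw [hea]; exact incl_tr N Q ha
  obtain ⟨j, hjN, hj, hjj, hej, hbrj, hdim⟩ := pidx_core hB2 hB3 (hQ.map _) hQN h he1
    (incl_mem N a) ((incl_mem_Fix_iff N Q a).mpr ha) hea1 (by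
      intro h0
      apply hbr
      apply incl_injective (k := k) N
      rw [Vale.Agent.P180.R2.H365.Src.incl_br, h0, map_zero])
  obtain ⟨j', rfl⟩ := exists_incl N hjN
  refine ⟨j', (incl_mem_Fix_iff N Q j').mp hj, ?_, ?_, ?_, ?_⟩
  · exact incl_injective (k := k) N (by rw [map_mul, hjj])
  · exact incl_injective (k := k) N (by rw [map_mul, hej])
  · intro h0
    apply hbrj
    rw [← Vale.Agent.P180.R2.H365.Src.incl_br, h0, map_zero]
  · refine (le_of_eq ?_).trans hdim
    exact (Vale.Agent.P180.R2.H799.BN.finrank_NN_incl N j' j').symm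

end Vale.Agent.P180.H19.Pidx
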