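import Vale.Agent.P180.H19.Pidx
import Vale.Agent.P180.H805.Cov
import Vale.Agent.P180.H393.Tr

/-!
P180, R1' leaf B4 (helper19): descent of the bound to a normal subgroup of `p`-power index with
cyclic quotient, from the covering block (helper805), the transfer (helper393) and the statement on
primitive idempotents (helper386).
-/

set_option linter.all false

namespace Vale.Agent.P180.H19.Pidx

open Vale.Agent.P180 Vale.Agent.P180.H768.Gd Vale.Agent.P180.R2.H799
  Vale.Agent.P180.R2.H954 Vale.Agent.P180.R2.H667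
open Vale.Agent.P180.R2.H471.Hc (OneBd)
open Vale.Agent.P180.R2.H259.Cyc (PrimIn)
open Vale.Agent.P180.R2.H259.Exp (RT)

universe u

variable {k : Type u} [Field k] {p : ℕ} [Fact p.Prime] [CharP k p] {G : Type} [Group G] [Finite G]

/-- B1: primitive idempotents of `(kN)^S` remain primitive in `(kG)^S`. -/
def PrimStmt (k : Type u) [Field k] {G : Type} [Group G] [Finite G] (N : Subgroup G) : Prop :=
  ∀ (S : Subgroup G) (i : MonoidAlgebra k G), i ∈ SubAlg k N → i ∈ Fix (cj k G) S → i * i = i →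
    i ≠ 0 → (∀ f ∈ SubAlg k N, f ∈ Fix (cj k G) S → f * f = f → i * f = f → f * i = f →
      f = 0 ∨ f = i) →
    ∀ f ∈ Fix (cj k G) S, f * f = f → i * f = f → f * i = f → f = 0 ∨ f = i

theorem cover (N : Subgroup G) [N.Normal] (hc : ∀ x y : G ⧸ N, x * y = y * x)
    (hN : IsPGroup p (G ⧸ N)) : CoverStmt k p N :=
  fun _ _ _ _ _ he _ _ _ _ => H805.Cov.exists_cover hc hN he

theorem transferStmt {N : Subgroup G} (h : PrimStmt k N) : TransferStmt k p N := by
  intro S B j C hS hB hBN hj hjj hBj hbr hC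
  obtain ⟨i, hi, hBi, -, hbri, hdim⟩ := H393.transfer (N := N) hS hj hjj hBj hbr hC
    ⟨Fix_mono _ le_top hB.mem.2, hBN⟩ hB.idem.eq fun i hi => ⟨hi.mem.1, hi.idem, hi.ne_zero,
      fun c hc hcc h1 h2 => h S i hi.mem.2 hi.mem.1 hi.idem hi.ne_zero
        (fun f hf hfS hff h3 h4 => hi.prim f ⟨hfS, hf⟩ hff h4 h3) c hc hcc h2 h1⟩
  exact ⟨i, hi.mem.2, hi.mem.1, hi.idem, hBi, hbri, hdim⟩

/-- **(B4) Descent to a normal subgroup of `p`-power index.** -/
theorem oneBd_pidx_of {N : Subgroup G} [N.Normal] (hc : ∀ x y : G ⧸ N, x * y = y * x)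
    (hN : IsPGroup p (G ⧸ N)) (hB1 : PrimStmt k N) {Q : Subgroup N} (hQ : IsPGroup p Q) {C : ℕ}
    (h : ∀ (S : Subgroup G) (B z : MonoidAlgebra k G), IsPGroup p S →
      (∃ g, S ⊓ N = conjS g (Q.map N.subtype)) → IsBlockOf (⊤ : Subgroup G) B →
      z ∈ Fix (cj k G) S → B = tr (cj k G) S ⊤ z → br S B ≠ 0 → OneBd k S C) :
    OneBd k Q C :=
  oneBd_pidx' (cover N hc hN) (transferStmt hB1) hQ h

end Vale.Agent.P180.H19.Pidx
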