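import Vale.Agent.P180.R2.H854.FlagGL

/-!
P180, leaf B2b (ii) (helper19): the element `z`, a scalar on each graded piece of a flag.
-/

set_option linter.all false

namespace Vale.Agent.P180.H19.Hom

open Module Vale.Agent.P180.R2.H854 Vale.Agent.P180.R2.H854.GL

section

variable {E V : Type*} [Field E] [AddCommGroup V] [Module E V]

theorem zz_aux (P : V →ₗ[E] V) (hP : ∀ v, P (P v) = P v) (a b : E) (v : V) :
    v + (a - 1) • P v + (b - 1) • P (v + (a - 1) • P v) = v + (a * b - 1) • P v := by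
  rw [map_add, map_smul, hP, smul_add, smul_smul, add_assoc, ← add_smul, ← add_smul]
  congr 2
  ring

/-- the element which is the scalar `c` on the image of the projector and 1 on its kernel -/
def zz (P : V →ₗ[E] V) (hP : ∀ v, P (P v) = P v) (c : Eˣ) : V ≃ₗ[E] V where
  toFun v := v + ((c : E) - 1) • P v
  invFun v := v + (((c⁻¹ : Eˣ) : E) - 1) • P v
  map_add' u v := by rw [map_add, smul_add]; abel
  map_smul' r v := by rw [map_smul, RingHom.id_apply, smul_add, smul_comm r]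
  left_inv v := by
    change v + ((c : E) - 1) • P v + (((c⁻¹ : Eˣ) : E) - 1) • P (v + ((c : E) - 1) • P v) = v
    rw [zz_aux P hP, Units.mul_inv, sub_self, zero_smul, add_zero]
  right_inv v := by
    change v + (((c⁻¹ : Eˣ) : E) - 1) • P v + ((c : E) - 1) •
      P (v + (((c⁻¹ : Eˣ) : E) - 1) • P v) = v
    rw [zz_aux P hP, Units.inv_mul, sub_self, zero_smul, add_zero]

theorem zz_apply (P : V →ₗ[E] V) (hP : ∀ v, P (P v) = P v) (c : Eˣ) (v : V) :
    zz P hP c v = v + ((c : E) - 1) • P v := rfl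

theorem zz_mul (P : V →ₗ[E] V) (hP : ∀ v, P (P v) = P v) (c d : Eˣ) :
    zz P hP c * zz P hP d = zz P hP (d * c) := by
  apply LinearEquiv.ext
  intro v
  change v + ((d : E) - 1) • P v + ((c : E) - 1) • P (v + ((d : E) - 1) • P v) = _
  rw [zz_aux P hP]
  rfl

theorem zz_one (P : V →ₗ[E] V) (hP : ∀ v, P (P v) = P v) : zz P hP 1 = 1 := by
  apply LinearEquiv.ext
  intro v
  rw [zz_apply, Units.val_one, sub_self, zero_smul, add_zero]
  rfl

theorem zz_pow (P : V →ₗ[E] V) (hP : ∀ v, P (P v) = P v) (c : Eˣ) (n : ℕ) :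
    zz P hP c ^ n = zz P hP (c ^ n) := by
  induction n with
  | zero => rw [pow_zero, pow_zero, zz_one]
  | succ n ih => rw [pow_succ, ih, zz_mul, pow_succ, mul_comm c]

variable [FiniteDimensional E V]

/-- a flag with nontrivial radical has a proper step -/
theorem exists_step (Fl : Flag E V) (h : VG Fl ≠ ⊥) : ∃ i, Fl i ≠ ⊥ ∧ Fl i ≠ ⊤ := by
  by_contra hcon
  push Not at hcon
  apply h
  rw [eq_bot_iff]
  intro g hg
  rw [Subgroup.mem_bot]
  classical
  let N := Nat.find Fl.top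
  have hN : Fl N = ⊤ := Nat.find_spec Fl.top
  apply LinearEquiv.ext
  intro x
  rcases Nat.eq_zero_or_pos N with h0 | h0
  · have h1 : (⊤ : Submodule E V) = ⊥ := by rw [← hN, h0, Fl.zero]
    have h2 : ∀ y : V, y = 0 := fun y => by
      have : y ∈ (⊤ : Submodule E V) := trivial
      rwa [h1, Submodule.mem_bot] at this
    rw [h2 x, map_zero, map_zero]
  · have h1 : Fl (N - 1) ≠ ⊤ := Nat.find_min Fl.top (by omega)
    have h2 : Fl (N - 1) = ⊥ := by
      by_contra h3
      exact h1 (hcon _ h3)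
    have h3 := hg (N - 1) x (by
      have : N - 1 + 1 = N := by omega
      rw [this, hN]
      trivial)
    rw [h2, Submodule.mem_bot, sub_eq_zero] at h3
    exact h3

/-- **The element `z`.** -/
theorem exists_z (Fl : Flag E V) (h : VG Fl ≠ ⊥) (c : Eˣ) (hc : c ≠ 1) :
    ∃ z : V ≃ₗ[E] V, z ∈ PG Fl ∧ (∀ y ∈ PG Fl, z * y * z⁻¹ * y⁻¹ ∈ VG Fl) ∧
      (∀ n : ℕ, c ^ n = 1 → z ^ n = 1) ∧ z ≠ 1 ∧ ∃ v, v ≠ 0 ∧ z v = v := by
  obtain ⟨i, hi0, hi1⟩ := exists_step Fl h
  obtain ⟨g, hg⟩ := LinearMap.exists_leftInverse_of_injective (Fl i).subtype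
    (LinearMap.ker_eq_bot.mpr (Fl i).injective_subtype)
  have hg' : ∀ w : Fl i, g w = w := fun w => LinearMap.congr_fun hg w
  let P : V →ₗ[E] V := (Fl i).subtype ∘ₗ g
  have hPm : ∀ v, P v ∈ Fl i := fun v => (g v).2
  have hPw : ∀ w ∈ Fl i, P w = w := fun w hw => congrArg Subtype.val (hg' ⟨w, hw⟩)
  have hP : ∀ v, P (P v) = P v := fun v => hPw _ (hPm v)
  have hc1 : (c : E) - 1 ≠ 0 := by
    intro h1
    exact hc (Units.ext (sub_eq_zero.mp h1))
  -- the elements of the flag are stable under `P`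
  have hPF : ∀ j, ∀ x ∈ Fl j, P x ∈ Fl j := by
    intro j x hx
    rcases le_total i j with hij | hij
    · exact Fl.mono hij (hPm x)
    · rw [hPw x (Fl.mono hij hx)]
      exact hx
  have hz : zz P hP c ∈ PG Fl := by
    intro j x hx
    rw [zz_apply]
    exact (Fl j).add_mem hx ((Fl j).smul_mem _ (hPF j x hx))
  refine ⟨zz P hP c, hz, ?_, ?_, ?_, ?_⟩
  · intro y hy j x hx
    set z := zz P hP c with hzdef
    have hu : (z⁻¹ * y⁻¹) x ∈ Fl (j + 1) :=
      ((PG Fl).mul_mem ((PG Fl).inv_mem hz) ((PG Fl).inv_mem hy)) (j + 1) x hx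
    set u := (z⁻¹ * y⁻¹) x with hudef
    have h1 : (z * y * z⁻¹ * y⁻¹) x = z (y u) := rfl
    have h2 : x = y (z u) := by
      rw [hudef]
      change x = y (z (z⁻¹ (y⁻¹ x)))
      rw [apply_inv_self, apply_inv_self]
    have h5 : (z * y * z⁻¹ * y⁻¹) x - x = z (y u) - y (z u) := by rw [h1, ← h2]
    rw [h5, hzdef, zz_apply, zz_apply, map_add, map_smul]
    have h3 : y u + ((c : E) - 1) • P (y u) - (y u + ((c : E) - 1) • y (P u)) =
        ((c : E) - 1) • (P (y u) - y (P u)) := by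
      rw [smul_sub]; abel
    rw [h3]
    apply (Fl j).smul_mem
    rcases Nat.lt_or_ge j i with hij | hij
    · have h4 : u ∈ Fl i := Fl.mono hij hu
      rw [hPw u h4, hPw (y u) (hy i u h4), sub_self]
      exact (Fl j).zero_mem
    · exact (Fl j).sub_mem (Fl.mono hij (hPm _)) (Fl.mono hij (hy i _ (hPm _)))
  · intro n hn
    rw [zz_pow, hn, zz_one]
  · intro h1
    obtain ⟨w, hw, hw0⟩ := Submodule.exists_mem_ne_zero_of_ne_bot hi0
    have h2 : zz P hP c w = w := by rw [h1]; rfl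
    rw [zz_apply, hPw w hw, add_eq_left] at h2
    rcases smul_eq_zero.mp h2 with h3 | h3
    · exact hc1 h3
    · exact hw0 h3
  · obtain ⟨x, hx⟩ : ∃ x, x ∉ Fl i := by
      by_contra h1
      push Not at h1
      exact hi1 (eq_top_iff.mpr fun x _ => h1 x)
    refine ⟨x - P x, ?_, ?_⟩
    · intro h1
      rw [sub_eq_zero] at h1
      exact hx (h1 ▸ hPm x)
    · rw [zz_apply, map_sub, hP, sub_self, smul_zero, add_zero]

end

end Vale.Agent.P180.H19.Hom
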